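import Claimed.Agent.R285.Xy.Vol

/-!
# ROW 285, XY BASICS 6: the mass, the finite size criterion, the critical point (owner helper177)

Replaces the citations Ginibre / vEL Theorem 1, Lemmas 16, 17, 19 / Lieb / Rivasseau / Messager-Miracle-Sole of [C] s1, [E] s6.1, s6.4.   Paper-free: only `Xy/Vol.lean` (black boxes).

K1 remarks.
 * `0 < b_c`, `m(b_c) = 0`, the critical lower bound need `∃ b > 0, m(b) = 0` (`xy_bkt_phase`): hypothesis `hne` (otherwise `sInf ∅ = 0`).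
 * [C] Prop 1.2 (`C_{b_c}(n) ≥ 1/(8n)`) needs Messager-Miracle-Sole.  It is used ONLY in [C] s6 to exclude superpolynomial decay; we prove instead
   `xyb_critical_lower : 1 / (2r+1)^4 ≤ C_{b_c}(2r)` (from `C(p,q)² ≤ C(2p,0)`), which does the same job.  NO MMS.
 * high temperature expansion is not needed: `0 < b_c` follows from the finite size criterion at `r = 1` and continuity at `b = 0`.
-/

set_option autoImplicit false

namespace Claimed.Agent.R285

open MeasureTheory Filter Topology Claims.C0459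

noncomputable section

/-! ## 1. symmetries -/

theorem latCorr_translate {b : ℝ} (hb : 0 ≤ b) (a x y : ℤ × ℤ) : latCorr b (x + a) (y + a) = latCorr b x y :=
  latCorr_map hb (Equiv.addRight a) (fun x y => by simp [latAdj]) x y

/-- reflection of the second coordinate. -/
theorem latCorr_reflect {b : ℝ} (hb : 0 ≤ b) (x y : ℤ × ℤ) : latCorr b (x.1, -x.2) (y.1, -y.2) = latCorr b x y := by
  let g : ℤ × ℤ ≃ ℤ × ℤ :=
    { toFun := fun z => (z.1, -z.2), invFun := fun z => (z.1, -z.2), left_inv := fun z => by simp, right_inv := fun z => by simp }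
  refine latCorr_map hb g (fun x y => ?_) x y
  simp only [latAdj, g, Equiv.coe_fn_mk]
  have : (-x.2 - -y.2).natAbs = (x.2 - y.2).natAbs := by omega
  rw [this]

/-- exchange of the coordinates. -/
theorem latCorr_swap {b : ℝ} (hb : 0 ≤ b) (x y : ℤ × ℤ) : latCorr b x.swap y.swap = latCorr b x y := by
  refine latCorr_map hb (Equiv.prodComm ℤ ℤ) (fun x y => ?_) x y
  simp only [latAdj, Equiv.prodComm_apply, Prod.fst_swap, Prod.snd_swap]
  omega

/-- point reflection. -/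
theorem latCorr_neg {b : ℝ} (hb : 0 ≤ b) (x y : ℤ × ℤ) : latCorr b (-x) (-y) = latCorr b x y := by
  refine latCorr_map hb (Equiv.neg (ℤ × ℤ)) (fun x y => ?_) x y
  simp only [latAdj, Equiv.neg_apply, Prod.fst_neg, Prod.snd_neg]
  omega

/-! ## 2. the axis correlation and the mass -/

/-- = `xy_corr_supermul` of `Top.lean`. -/
theorem xyb_corr_supermul (b : ℝ) (hb : 0 ≤ b) (r s : ℕ) : xyCorr b r * xyCorr b s ≤ xyCorr b (r + s) := by
  rw [xyCorr_eq hb, xyCorr_eq hb, xyCorr_eq hb]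
  have h := latCorr_supermul hb (0, 0) ((r : ℤ), 0) (((r + s : ℕ) : ℤ), 0)
  have h2 := latCorr_translate hb ((r : ℤ), 0) (0, 0) ((s : ℤ), 0)
  have e1 : ((0 : ℤ), (0 : ℤ)) + ((r : ℤ), (0 : ℤ)) = ((r : ℤ), 0) := by simp
  have e2 : ((s : ℤ), (0 : ℤ)) + ((r : ℤ), (0 : ℤ)) = (((r + s : ℕ) : ℤ), 0) := by
    ext <;> simp [add_comm]
  rw [e1, e2] at h2
  rw [h2] at h
  exact h

theorem xyCorr_le_one {b : ℝ} (hb : 0 ≤ b) (r : ℕ) : xyCorr b r ≤ 1 := by
  rw [xyCorr_eq hb]; exact latCorr_le_one _ _ _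

theorem xyCorr_zero {b : ℝ} (hb : 0 ≤ b) : xyCorr b 0 = 1 := by
  rw [xyCorr_eq hb]; exact latCorr_self _ _

theorem xyCorr_one_pos {b : ℝ} (hb : 0 < b) : 0 < xyCorr b 1 := by
  rw [xyCorr_eq hb.le]
  refine (latTwo_adj_pos hb {(0, 0), (((1 : ℕ) : ℤ), 0)} (0, 0) (((1 : ℕ) : ℤ), 0) (by simp) (by simp) (by simp [latAdj])).trans_le
    (latTwo_le_latCorr _ _ _ _)

theorem xyCorr_pos {b : ℝ} (hb : 0 < b) (r : ℕ) : 0 < xyCorr b r := by
  induction r with
  | zero => rw [xyCorr_zero hb.le]; exact one_pos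
  | succ n ih => exact (mul_pos ih (xyCorr_one_pos hb)).trans_le (xyb_corr_supermul b hb.le n 1)

/-- `u_r = - log C_b(r)`. -/
def xyU (b : ℝ) (r : ℕ) : ℝ := - Real.log (xyCorr b r)

theorem xyU_nonneg {b : ℝ} (hb : 0 ≤ b) (r : ℕ) : 0 ≤ xyU b r := by
  unfold xyU
  have := Real.log_nonpos (by rw [xyCorr_eq hb]; exact latCorr_nonneg hb _ _) (xyCorr_le_one hb r)
  linarith

theorem xyU_subadditive {b : ℝ} (hb : 0 < b) : Subadditive (xyU b) := by
  intro r s
  unfold xyU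
  have h := Real.log_le_log (mul_pos (xyCorr_pos hb r) (xyCorr_pos hb s)) (xyb_corr_supermul b hb.le r s)
  rw [Real.log_mul (xyCorr_pos hb r).ne' (xyCorr_pos hb s).ne'] at h
  linarith

theorem xyU_bdd {b : ℝ} (hb : 0 ≤ b) : BddBelow (Set.range fun n : ℕ => xyU b n / n) :=
  ⟨0, by rintro _ ⟨n, rfl⟩; exact div_nonneg (xyU_nonneg hb n) (Nat.cast_nonneg n)⟩

theorem xyb_mass_tendsto' {b : ℝ} (hb : 0 < b) :
    Tendsto (fun r : ℕ => -(1 / (r : ℝ)) * Real.log (xyCorr b r)) atTop (𝓝 (xyU_subadditive hb).lim) := by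
  refine ((xyU_subadditive hb).tendsto_lim (xyU_bdd hb.le)).congr fun r => ?_
  unfold xyU; ring

theorem xyMass_eq {b : ℝ} (hb : 0 < b) : xyMass b = (xyU_subadditive hb).lim := (xyb_mass_tendsto' hb).limUnder_eq

/-- = `xy_mass_tendsto` of `Top.lean`. -/
theorem xyb_mass_tendsto (b : ℝ) (hb : 0 < b) :
    Tendsto (fun r : ℕ => -(1 / (r : ℝ)) * Real.log (xyCorr b r)) atTop (𝓝 (xyMass b)) := by
  rw [xyMass_eq hb]; exact xyb_mass_tendsto' hb

theorem xyMass_nonneg {b : ℝ} (hb : 0 < b) : 0 ≤ xyMass b :=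
  ge_of_tendsto' (xyb_mass_tendsto b hb) fun r => by
    have := xyU_nonneg hb.le r
    unfold xyU at this
    have h2 : (0 : ℝ) ≤ 1 / (r : ℝ) := by positivity
    nlinarith

/-- `C_b(r) ≤ e^{-m(b) r}` ([E] proof of Lemma 6.1). -/
theorem xyCorr_le_exp {b : ℝ} (hb : 0 < b) (r : ℕ) : xyCorr b r ≤ Real.exp (-(xyMass b * r)) := by
  rcases Nat.eq_zero_or_pos r with rfl | hr
  · simp [xyCorr_zero hb.le]
  have h := (xyU_subadditive hb).lim_le_div (xyU_bdd hb.le) hr.ne'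
  rw [← xyMass_eq hb, le_div_iff₀ (by exact_mod_cast hr)] at h
  unfold xyU at h
  rw [← Real.log_le_iff_le_exp (xyCorr_pos hb r)]
  linarith

/-- a lower bound for the mass from exponential decay along a subsequence. XY-M-1.
(`m = lim u_r / r`; along `r = n q + 1`: `u_r / r ≥ n c / (n q + 1) → c / q`.) -/
theorem xyMass_ge_of_decay {b : ℝ} (hb : 0 < b) (q : ℕ) (hq : 1 ≤ q) (c : ℝ)
    (h : ∀ n : ℕ, xyCorr b (n * q + 1) ≤ Real.exp (-(c * n))) : c / q ≤ xyMass b := by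
  have hq' : (0 : ℝ) < q := by exact_mod_cast (by omega : 0 < q)
  have hsub : Tendsto (fun n : ℕ => n * q + 1) atTop atTop :=
    tendsto_atTop_mono (fun n => (Nat.le_mul_of_pos_right n (by omega)).trans (Nat.le_succ _)) tendsto_id
  have h1 := (xyb_mass_tendsto b hb).comp hsub
  have h2 : Tendsto (fun n : ℕ => c / ((q : ℝ) + 1 / (n : ℝ))) atTop (𝓝 (c / ((q : ℝ) + 0))) :=
    tendsto_const_nhds.div (tendsto_const_nhds.add tendsto_one_div_atTop_nhds_zero_nat) (by simpa using hq'.ne')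
  rw [add_zero] at h2
  refine le_of_tendsto_of_tendsto h2 h1 ?_
  filter_upwards [eventually_ge_atTop 1] with n hn
  have hn' : (0 : ℝ) < n := by exact_mod_cast (by omega : 0 < n)
  have h3 : Real.log (xyCorr b (n * q + 1)) ≤ -(c * n) := by
    rw [Real.log_le_iff_le_exp (xyCorr_pos hb _)]; exact h n
  simp only [Function.comp]
  push_cast
  have hpos : (0 : ℝ) < (n : ℝ) * q + 1 := by positivity
  have e : c / ((q : ℝ) + 1 / (n : ℝ)) = 1 / ((n : ℝ) * q + 1) * (c * n) := by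
    field_simp
  rw [e]
  have h4 : 0 ≤ 1 / ((n : ℝ) * q + 1) := by positivity
  nlinarith [mul_le_mul_of_nonneg_left h3 h4]

/-- the mass is nonincreasing in `b`. -/
theorem xyMass_anti {b b' : ℝ} (hb : 0 < b) (hbb : b ≤ b') : xyMass b' ≤ xyMass b := by
  refine le_of_tendsto_of_tendsto' (xyb_mass_tendsto b' (hb.trans_le hbb)) (xyb_mass_tendsto b hb) fun r => ?_
  have h1 : xyCorr b r ≤ xyCorr b' r := by
    rw [xyCorr_eq hb.le, xyCorr_eq (hb.le.trans hbb)]; exact latCorr_mono_b hb.le hbb _ _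
  have h2 := Real.log_le_log (xyCorr_pos hb r) h1
  have h3 : (0 : ℝ) ≤ 1 / (r : ℝ) := by positivity
  nlinarith

/-! ## 3. all directions -/

/-- the sup norm on `ℤ²`. -/
def latNorm (x : ℤ × ℤ) : ℕ := max x.1.natAbs x.2.natAbs

/-- XY-M-2: `C_b(x)² ≤ C_b(2|x|_∞ e_1)` ([E] proof of Lemma 6.1): for `x = (p,q)`, `|p| ≥ |q|`: `C(0,(p,q)) C((p,q),(2p,0)) ≤ C(0,(2p,0))` (`latCorr_supermul`), and
`C((p,q),(2p,0)) = C(0,(p,-q)) = C(0,(p,q))` (`latCorr_translate`, `latCorr_reflect`); `C(0,(2p,0)) = C(0,(2|p|,0))` (`latCorr_neg`); the other case by `latCorr_swap`. -/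
theorem latCorr_sq_le {b : ℝ} (hb : 0 ≤ b) (x : ℤ × ℤ) : latCorr b (0, 0) x ^ 2 ≤ xyCorr b (2 * latNorm x) := by
  have aux : ∀ p q : ℤ, latCorr b (0, 0) (p, q) ^ 2 ≤ latCorr b (0, 0) (2 * p, 0) := by
    intro p q
    have h1 := latCorr_supermul hb (0, 0) (p, q) (2 * p, 0)
    have h2 := latCorr_translate hb (p, q) (0, 0) (p, -q)
    have e1 : ((0 : ℤ), (0 : ℤ)) + (p, q) = (p, q) := by simp
    have e2 : (p, -q) + (p, q) = (2 * p, 0) := by
      ext
      · simp; ring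
      · simp
    rw [e1, e2] at h2
    have h3 := latCorr_reflect hb (0, 0) (p, q)
    simp only [neg_zero] at h3
    rw [h2, h3] at h1
    rw [sq]; exact h1
  have aux2 : ∀ p : ℤ, latCorr b (0, 0) (2 * p, 0) = xyCorr b (2 * p.natAbs) := by
    intro p
    rw [xyCorr_eq hb]
    rcases le_total 0 p with hp | hp
    · congr 2
      push_cast
      rw [abs_of_nonneg hp]
    · have h := latCorr_neg hb (0, 0) (2 * p, 0)
      rw [← h]
      have e : (-((0 : ℤ), (0 : ℤ))) = (0, 0) := by simp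
      rw [e]
      congr 1
      ext
      · simp only [Prod.fst_neg]
        push_cast
        rw [abs_of_nonpos hp]; ring
      · simp
  obtain ⟨p, q⟩ := x
  rcases le_total q.natAbs p.natAbs with h | h
  · have e : latNorm (p, q) = p.natAbs := by simp only [latNorm]; omega
    rw [e, ← aux2]; exact aux p q
  · have e : latNorm (p, q) = q.natAbs := by simp only [latNorm]; omega
    have hs := latCorr_swap hb (0, 0) (q, p)
    simp only [Prod.swap_prod_mk] at hs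
    rw [e, ← aux2, hs]; exact aux q p

/-- [E] (6.2). -/
theorem latCorr_le_exp {b : ℝ} (hb : 0 < b) (x : ℤ × ℤ) : latCorr b (0, 0) x ≤ Real.exp (-(xyMass b * latNorm x)) := by
  have h1 := (latCorr_sq_le hb.le x).trans (xyCorr_le_exp hb (2 * latNorm x))
  have h2 : Real.exp (-(xyMass b * ((2 * latNorm x : ℕ) : ℝ))) = Real.exp (-(xyMass b * latNorm x)) ^ 2 := by
    rw [← Real.exp_nat_mul]; congr 1; push_cast; ring
  rw [h2] at h1
  exact le_of_sq_le_sq₀' h1 (Real.exp_pos _).le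
where
  le_of_sq_le_sq₀' {a c : ℝ} (h : a ^ 2 ≤ c ^ 2) (hc : 0 ≤ c) : a ≤ c := by
    by_contra hlt
    push Not at hlt
    nlinarith

/-- [E] (6.2) for all pairs. -/
theorem latCorr_le_exp' {b : ℝ} (hb : 0 < b) (x y : ℤ × ℤ) : latCorr b x y ≤ Real.exp (-(xyMass b * latNorm (y - x))) := by
  have h := latCorr_translate hb.le x (0, 0) (y - x)
  have e1 : ((0 : ℤ), (0 : ℤ)) + x = x := by simp
  have e2 : y - x + x = y := by abel
  rw [e1, e2] at h
  rw [h]; exact latCorr_le_exp hb _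

/-- [E] (6.2) + finite-to-infinite monotonicity: every finite subgraph. -/
theorem latTwo_le_exp {b : ℝ} (hb : 0 < b) (Λ : Finset (ℤ × ℤ)) (x y : ℤ × ℤ) :
    latTwo b Λ x y ≤ Real.exp (-(xyMass b * latNorm (y - x))) :=
  (latTwo_le_latCorr b Λ x y).trans (latCorr_le_exp' hb x y)

/-! ## 4. the finite size criterion -/

theorem latS_nonneg {b : ℝ} (hb : 0 ≤ b) (r : ℕ) : 0 ≤ latS b r :=
  Finset.sum_nonneg fun _ _ => latTwo_nonneg hb _ _ _

theorem latS_continuous (r : ℕ) : Continuous fun b : ℝ => latS b r :=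
  continuous_finsetSum _ fun z _ => latTwo_continuous _ _ z

/-- points of the inner boundary of the box have sup norm `r`. XY-M-3. -/
theorem latNorm_of_mem_bdry (r : ℕ) (z : ℤ × ℤ) (hz : z ∈ latBdry (xyBox r)) : latNorm z = r := by
  simp only [latBdry, xyBox, Finset.mem_filter, Finset.mem_product, Finset.mem_Icc, not_and, not_le] at hz
  obtain ⟨⟨⟨h1, h2⟩, h3, h4⟩, h5⟩ := hz
  simp only [latNorm]
  rcases h5 with h5 | h5 | h5 | h5
  · by_cases h6 : -(r : ℤ) ≤ z.1 + 1 ∧ z.1 + 1 ≤ r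
    · have := h5 h6 h3; omega
    · omega
  · by_cases h6 : -(r : ℤ) ≤ z.1 - 1 ∧ z.1 - 1 ≤ r
    · have := h5 h6 h3; omega
    · omega
  · have := h5 ⟨h1, h2⟩
    by_cases h6 : -(r : ℤ) ≤ z.2 + 1
    · have := this h6; omega
    · omega
  · have := h5 ⟨h1, h2⟩
    by_cases h6 : -(r : ℤ) ≤ z.2 - 1
    · have := this h6; omega
    · omega

theorem latBdry_card_le (r : ℕ) : ((latBdry (xyBox r)).card : ℝ) ≤ (2 * (r : ℝ) + 1) ^ 2 := by
  have h1 : (latBdry (xyBox r)).card ≤ (xyBox r).card := Finset.card_filter_le _ _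
  have h2 : (xyBox r).card = (2 * r + 1) ^ 2 := by
    simp only [xyBox, Finset.card_product, Int.card_Icc]
    have : ((r : ℤ) + 1 - -(r : ℤ)).toNat = 2 * r + 1 := by omega
    rw [this, sq]
  rw [h2] at h1
  exact_mod_cast h1

theorem latS_zero (r : ℕ) (hr : 1 ≤ r) : latS 0 r = 0 := by
  refine Finset.sum_eq_zero fun z hz => latTwo_zero _ _ _ ?_
  rintro rfl
  have := latNorm_of_mem_bdry r _ hz
  simp [latNorm] at this
  omega

/-- XY-M-4: iteration of Lieb-Rivasseau ([E] Lemma 6.6).  Induction on `n`: `n r + r < |x|` gives `x ∉ xyBox r`; `latCorr_lr` with `H = xyBox r`, `u = 0`;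
for `z ∈ ∂H`: `latCorr b z x = latCorr b 0 (x - z)` (`latCorr_translate`), `|x - z| ≥ |x| - r > n r` (`latNorm_of_mem_bdry`). -/
theorem latCorr_le_pow {b : ℝ} (hb : 0 ≤ b) (r n : ℕ) (x : ℤ × ℤ) (hx : n * r < latNorm x) :
    latCorr b (0, 0) x ≤ latS b r ^ n := by
  induction n generalizing x with
  | zero => simpa using latCorr_le_one b (0, 0) x
  | succ n ih =>
    have hxr : r < latNorm x := by nlinarith
    have hx' : x ∉ xyBox r := by
      simp only [xyBox, Finset.mem_product, Finset.mem_Icc, not_and, not_le]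
      simp only [latNorm] at hxr
      intro h1 h2
      omega
    have h0 : ((0 : ℤ), (0 : ℤ)) ∈ xyBox r := by
      simp [xyBox]
    refine (latCorr_lr hb (xyBox r) (0, 0) x h0 hx').trans ?_
    rw [pow_succ, mul_comm, latS, Finset.sum_mul]
    refine Finset.sum_le_sum fun z hz => ?_
    refine mul_le_mul_of_nonneg_left ?_ (latTwo_nonneg hb _ _ _)
    have hzr := latNorm_of_mem_bdry r z hz
    have ht := latCorr_translate hb z (0, 0) (x - z)
    rw [zero_add' z, sub_add_cancel] at ht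
    rw [ht]
    refine ih (x - z) ?_
    have h3 : latNorm x ≤ latNorm (x - z) + latNorm z := by
      simp only [latNorm, Prod.fst_sub, Prod.snd_sub]
      omega
    have h4 : (n + 1) * r = n * r + r := by ring
    omega
where
  zero_add' (z : ℤ × ℤ) : ((0 : ℤ), (0 : ℤ)) + z = z := by simp

/-- the axis form of `latCorr_le_pow`. -/
theorem xyCorr_le_pow_latS {b : ℝ} (hb : 0 ≤ b) (r n : ℕ) : xyCorr b (n * r + 1) ≤ latS b r ^ n := by
  rw [xyCorr_eq hb]
  refine latCorr_le_pow hb r n _ ?_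
  simp only [latNorm]
  omega

/-- XY-M-5: **the finite size criterion** ([E] Lemma 6.6; vEL / Lieb).  With `s = max (latS b r) (1/2) ∈ (0,1)`: `C_b(n r + 1) ≤ s^n = exp(-(−log s) n)` (`latCorr_le_pow`, `xyCorr_eq`), then `xyMass_ge_of_decay`. -/
theorem xyMass_pos_of_latS {b : ℝ} (hb : 0 < b) (r : ℕ) (hr : 1 ≤ r) (h : latS b r < 1) : 0 < xyMass b := by
  obtain ⟨s, hs⟩ : ∃ s : ℝ, s = max (latS b r) (1 / 2) := ⟨_, rfl⟩
  have hs0 : 0 < s := by rw [hs]; exact lt_of_lt_of_le (by norm_num) (le_max_right _ _)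
  have hs1 : s < 1 := by rw [hs]; exact max_lt h (by norm_num)
  have hr' : (0 : ℝ) < r := by exact_mod_cast (by omega : 0 < r)
  have hlog : 0 < -Real.log s := by
    have := Real.log_neg hs0 hs1
    linarith
  refine (div_pos hlog hr').trans_le (xyMass_ge_of_decay hb r hr (-Real.log s) fun n => ?_)
  have h1 := xyCorr_le_pow_latS hb.le r n
  refine h1.trans ?_
  have h2 : latS b r ^ n ≤ s ^ n := pow_le_pow_left₀ (latS_nonneg hb.le r) (by rw [hs]; exact le_max_left _ _) n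
  refine h2.trans (le_of_eq ?_)
  rw [← Real.exp_log (pow_pos hs0 n), Real.log_pow]
  congr 1; ring

/-- quantitative form used in [E] Prop 6.7: `S ≤ 1/2 ⟹ m ≥ log 2 / r`. -/
theorem xyMass_ge_of_latS {b : ℝ} (hb : 0 < b) (r : ℕ) (hr : 1 ≤ r) (h : latS b r ≤ 1 / 2) : Real.log 2 / r ≤ xyMass b := by
  refine xyMass_ge_of_decay hb r hr (Real.log 2) fun n => ?_
  refine (xyCorr_le_pow_latS hb.le r n).trans ((pow_le_pow_left₀ (latS_nonneg hb.le r) h n).trans (le_of_eq ?_))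
  rw [← Real.exp_log (pow_pos (by norm_num : (0 : ℝ) < 1 / 2) n), Real.log_pow, one_div, Real.log_inv]
  congr 1; ring

/-- `S_{r,b} ≤ ∑_{z ∈ ∂H_r} C_b(z)`. -/
theorem latS_le_sum (b : ℝ) (r : ℕ) : latS b r ≤ ∑ z ∈ latBdry (xyBox r), latCorr b (0, 0) z :=
  Finset.sum_le_sum fun z _ => latTwo_le_latCorr b _ _ z

/-- XY-M-6: `S_{r,b} ≤ (2r+1)² √(C_b(2r))` (`latS_le_sum`, `latCorr_sq_le`, `latNorm_of_mem_bdry`, `latBdry_card_le`, `Real.le_sqrt`). -/
theorem latS_le_sqrt {b : ℝ} (hb : 0 ≤ b) (r : ℕ) : latS b r ≤ (2 * (r : ℝ) + 1) ^ 2 * Real.sqrt (xyCorr b (2 * r)) := by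
  refine (latS_le_sum b r).trans ?_
  have h1 : ∀ z ∈ latBdry (xyBox r), latCorr b (0, 0) z ≤ Real.sqrt (xyCorr b (2 * r)) := by
    intro z hz
    have h2 := latCorr_sq_le hb z
    rw [latNorm_of_mem_bdry r z hz] at h2
    exact Real.le_sqrt_of_sq_le h2
  refine (Finset.sum_le_sum h1).trans ?_
  rw [Finset.sum_const, nsmul_eq_mul]
  exact mul_le_mul_of_nonneg_right (latBdry_card_le r) (Real.sqrt_nonneg _)

/-! ## 5. the critical point -/

/-- XY-M-7: near `b = 0` the mass is positive (`latS_continuous 1`, `latS_zero`, `xyMass_pos_of_latS`). -/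
theorem xyMass_pos_small : ∃ b0 : ℝ, 0 < b0 ∧ ∀ b, 0 < b → b < b0 → 0 < xyMass b := by
  have h1 : ∀ᶠ b in 𝓝 (0 : ℝ), latS b 1 < 1 := by
    refine (latS_continuous 1).continuousAt.eventually_lt continuousAt_const ?_
    rw [latS_zero 1 le_rfl]; exact one_pos
  obtain ⟨ε, hε, h2⟩ := Metric.eventually_nhds_iff.1 h1
  refine ⟨ε, hε, fun b hb hbε => xyMass_pos_of_latS hb 1 le_rfl (h2 ?_)⟩
  rw [Real.dist_eq, sub_zero, abs_of_pos hb]; exact hbε

/-- = `xy_critical_pos` of `Top.lean` (with the BKT phase as a hypothesis). -/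
theorem xyb_critical_pos (hne : ∃ b : ℝ, 0 < b ∧ xyMass b = 0) : 0 < xyCritical := by
  obtain ⟨b0, hb0, h⟩ := xyMass_pos_small
  refine hb0.trans_le (le_csInf hne fun b hb => ?_)
  by_contra hlt
  push Not at hlt
  exact (h b hb.1 hlt).ne' hb.2

/-- = `xy_mass_pos` of `Top.lean`. -/
theorem xyb_mass_pos {b : ℝ} (h0 : 0 < b) (h1 : b < xyCritical) : 0 < xyMass b := by
  refine lt_of_le_of_ne (xyMass_nonneg h0) fun h => ?_
  exact absurd (csInf_le ⟨0, fun x hx => hx.1.le⟩ (show b ∈ {b : ℝ | 0 < b ∧ xyMass b = 0} from ⟨h0, h.symm⟩)) (not_le.2 h1)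

/-- XY-M-8: at the critical point the finite size criterion fails at every scale.  If `latS b_c r < 1`, continuity gives `ε > 0` with `latS b r < 1` on `[b_c, b_c + ε)`, so `m > 0` there;
but `b_c = sInf` gives `b ∈ [b_c, b_c + ε)` with `m(b) = 0` (`exists_lt_of_csInf_lt`). -/
theorem xyb_latS_critical (hne : ∃ b : ℝ, 0 < b ∧ xyMass b = 0) (r : ℕ) (hr : 1 ≤ r) : 1 ≤ latS xyCritical r := by
  by_contra hlt
  push Not at hlt
  have h1 : ∀ᶠ b in 𝓝 xyCritical, latS b r < 1 :=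
    (latS_continuous r).continuousAt.eventually_lt continuousAt_const hlt
  obtain ⟨ε, hε, h2⟩ := Metric.eventually_nhds_iff.1 h1
  obtain ⟨b, hb, hbε⟩ := exists_lt_of_csInf_lt (s := {b : ℝ | 0 < b ∧ xyMass b = 0}) hne
    (show xyCritical < xyCritical + ε by linarith)
  have hbc : xyCritical ≤ b := csInf_le ⟨0, fun x hx => hx.1.le⟩ hb
  have h3 : latS b r < 1 := h2 (by
    rw [Real.dist_eq, abs_of_nonneg (by linarith)]; linarith)
  exact (xyMass_pos_of_latS hb.1 r hr h3).ne' hb.2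

/-- the substitute for [C] Prop 1.2. -/
theorem xyb_critical_lower (hne : ∃ b : ℝ, 0 < b ∧ xyMass b = 0) (r : ℕ) (hr : 1 ≤ r) :
    1 / (2 * (r : ℝ) + 1) ^ 4 ≤ xyCorr xyCritical (2 * r) := by
  have h1 := (xyb_latS_critical hne r hr).trans (latS_le_sqrt (xyb_critical_pos hne).le r)
  have hp : (0 : ℝ) < (2 * (r : ℝ) + 1) ^ 2 := by positivity
  have h2 : 1 / (2 * (r : ℝ) + 1) ^ 2 ≤ Real.sqrt (xyCorr xyCritical (2 * r)) := by
    rw [div_le_iff₀ hp]; linarith
  have h3 := Real.le_sqrt' (x := 1 / (2 * (r : ℝ) + 1) ^ 2) (y := xyCorr xyCritical (2 * r)) (by positivity)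
  have h4 := h3.1 h2
  have e : (1 / (2 * (r : ℝ) + 1) ^ 2) ^ 2 = 1 / (2 * (r : ℝ) + 1) ^ 4 := by
    rw [div_pow, one_pow, ← pow_mul]
  rwa [e] at h4

/-- XY-M-9 = `xy_mass_critical` of `Top.lean`.  If `m_c = m(b_c) > 0` then `1 ≤ latS b_c r ≤ (2r+1)² √(C(2r)) ≤ (2r+1)² e^{-m_c r}` for all `r ≥ 1` (`xyb_latS_critical`, `latS_le_sqrt`, `xyCorr_le_exp`), absurd as `r → ∞`. -/
theorem xyb_mass_critical (hne : ∃ b : ℝ, 0 < b ∧ xyMass b = 0) : xyMass xyCritical = 0 := by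
  have hbc := xyb_critical_pos hne
  by_contra hm
  have hm0 : 0 < xyMass xyCritical := lt_of_le_of_ne (xyMass_nonneg hbc) (Ne.symm hm)
  obtain ⟨ρ, hρ⟩ : ∃ ρ : ℝ, ρ = Real.exp (-xyMass xyCritical) := ⟨_, rfl⟩
  have hρ0 : 0 < ρ := by rw [hρ]; exact Real.exp_pos _
  have hρ1 : ρ < 1 := by rw [hρ, Real.exp_lt_one_iff]; linarith
  have hlim : Tendsto (fun n : ℕ => 9 * ((n : ℝ) ^ 2 * ρ ^ n)) atTop (𝓝 (9 * 0)) :=
    (tendsto_pow_const_mul_const_pow_of_abs_lt_one 2 (by rw [abs_of_pos hρ0]; exact hρ1)).const_mul 9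
  rw [mul_zero] at hlim
  obtain ⟨r, hr1, hr2⟩ := ((hlim.eventually (eventually_lt_nhds one_pos)).and (eventually_ge_atTop 1)).exists
  have hr' : (1 : ℝ) ≤ r := by exact_mod_cast hr2
  have h1 := (xyb_latS_critical hne r hr2).trans (latS_le_sqrt hbc.le r)
  have h2 : Real.sqrt (xyCorr xyCritical (2 * r)) ≤ ρ ^ r := by
    refine Real.sqrt_le_iff.2 ⟨(pow_pos hρ0 r).le, (xyCorr_le_exp hbc (2 * r)).trans (le_of_eq ?_)⟩
    rw [hρ, ← Real.exp_nat_mul, ← Real.exp_nat_mul]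
    congr 1; push_cast; ring
  have h3 : (2 * (r : ℝ) + 1) ^ 2 ≤ 9 * (r : ℝ) ^ 2 := by nlinarith
  have h4 : (2 * (r : ℝ) + 1) ^ 2 * Real.sqrt (xyCorr xyCritical (2 * r)) ≤ 9 * ((r : ℝ) ^ 2 * ρ ^ r) := by
    calc (2 * (r : ℝ) + 1) ^ 2 * Real.sqrt (xyCorr xyCritical (2 * r))
        ≤ (9 * (r : ℝ) ^ 2) * ρ ^ r := mul_le_mul h3 h2 (Real.sqrt_nonneg _) (by positivity)
      _ = 9 * ((r : ℝ) ^ 2 * ρ ^ r) := by ring
  linarith

/-- above the critical point the mass vanishes. -/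
theorem xyb_mass_zero (hne : ∃ b : ℝ, 0 < b ∧ xyMass b = 0) {b : ℝ} (h : xyCritical ≤ b) : xyMass b = 0 :=
  le_antisymm ((xyMass_anti (xyb_critical_pos hne) h).trans (xyb_mass_critical hne).le)
    (xyMass_nonneg ((xyb_critical_pos hne).trans_le h))

end

end Claimed.Agent.R285
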