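import Claimed.Agent.R285.Defs

/-!
# ROW 285, XY BASICS 0: definitions (owner helper177; BP-XY-BASICS)

General finite "character Hamiltonian" (Ginibre's setting): angles `θ : V → ℝ`, measure `[0,2π)^V`, energy `∑_e J_e cos(d_e · θ)` with integer vectors `d_e : V → ℤ`.
Pair systems: `E = V × V`, `d (x,y) = δ_x - δ_y`, couplings `J : V × V → ℝ` on ORDERED pairs (a bond `{x,y}` of strength `b` is `J (x,y) = J (y,x) = b/2`).
Lattice systems: `V = ↥Λ`, `Λ : Finset (ℤ × ℤ)`, nearest neighbour couplings.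

No sorry in this file.
-/

set_option autoImplicit false

namespace Claimed.Agent.R285

open MeasureTheory Filter Topology Claims.C0459

noncomputable section

/-- Lebesgue measure on `[0,2π)^V` (total mass `(2π)^|V|`). -/
def xyAng (V : Type*) [Fintype V] : Measure (V → ℝ) :=
  Measure.pi fun _ => volume.restrict (Set.Ico (0 : ℝ) (2 * Real.pi))

section General

variable {V : Type*} [Fintype V] {E : Type*} [Fintype E]

/-- the phase `m · θ`. -/
def xyPh (m : V → ℤ) (θ : V → ℝ) : ℝ := ∑ v, (m v : ℝ) * θ v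

/-- the energy `∑_e J_e cos(d_e · θ)`. -/
def xyEn (d : E → V → ℤ) (J : E → ℝ) (θ : V → ℝ) : ℝ := ∑ e, J e * Real.cos (xyPh (d e) θ)

/-- unnormalised integral. -/
def xyInt (d : E → V → ℤ) (J : E → ℝ) (f : (V → ℝ) → ℝ) : ℝ :=
  ∫ θ, f θ * Real.exp (xyEn d J θ) ∂xyAng V

/-- partition function. -/
def xyPart (d : E → V → ℤ) (J : E → ℝ) : ℝ := xyInt d J fun _ => 1

/-- expectation. -/
def xyEx (d : E → V → ℤ) (J : E → ℝ) (f : (V → ℝ) → ℝ) : ℝ := xyInt d J f / xyPart d J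

/-- expectation of the character `cos(m · θ)`. -/
def xyChar (d : E → V → ℤ) (J : E → ℝ) (m : V → ℤ) : ℝ := xyEx d J fun θ => Real.cos (xyPh m θ)

end General

section Pair

variable {V : Type*} [Fintype V] [DecidableEq V]

/-- `δ_x`. -/
def xyDel (x : V) : V → ℤ := Pi.single x 1

/-- the bond vector `δ_x - δ_y`. -/
def xyBond (p : V × V) : V → ℤ := xyDel p.1 - xyDel p.2

/-- character expectation of a pair system. -/
def xyCh (J : V × V → ℝ) (m : V → ℤ) : ℝ := xyChar xyBond J m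

/-- two point function `⟨cos(θ_u - θ_v)⟩`. -/
def xyTwo (J : V × V → ℝ) (u v : V) : ℝ := xyCh J (xyDel u - xyDel v)

/-- the couplings inside `A`. -/
def xyRes (J : V × V → ℝ) (A : Finset V) : V × V → ℝ := fun p => if p.1 ∈ A ∧ p.2 ∈ A then J p else 0

/-- inner boundary of `A`: vertices of `A` coupled to the outside. -/
def xyBdry (J : V × V → ℝ) (A : Finset V) : Finset V :=
  A.filter fun z => ∃ w, w ∉ A ∧ (J (z, w) ≠ 0 ∨ J (w, z) ≠ 0)

end Pair

/-! ## the combinatorial functional -/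

open Classical in
/-- `xyCnt l m = 2^{-|l|} #{s ∈ {±1}^l : ∑ s_i l_i = m}` `= (2π)^{-|V|} ∫ ∏_{d ∈ l} cos(d·θ) cos(m·θ)`. -/
def xyCnt {V : Type*} : List (V → ℤ) → (V → ℤ) → ℝ
  | [], m => if m = 0 then 1 else 0
  | d :: l, m => (xyCnt l (m + d) + xyCnt l (m - d)) / 2

/-- the same for lists of bonds. -/
def xyCntB {V : Type*} [DecidableEq V] (l : List (V × V)) (m : V → ℤ) : ℝ := xyCnt (l.map xyBond) m

/-! ## the lattice -/

/-- nearest neighbours in `ℤ²`. -/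
def latAdj (x y : ℤ × ℤ) : Prop := (x.1 - y.1).natAbs + (x.2 - y.2).natAbs = 1

instance (x y : ℤ × ℤ) : Decidable (latAdj x y) := by unfold latAdj; infer_instance

/-- nearest neighbour couplings on `Λ`: every unoriented bond has strength `b`. -/
def latJ (b : ℝ) (Λ : Finset (ℤ × ℤ)) : Λ × Λ → ℝ := fun p => if latAdj p.1.1 p.2.1 then b / 2 else 0

/-- free two point function of the induced subgraph `Λ ⊂ ℤ²` (zero if a point is outside). -/
def latTwo (b : ℝ) (Λ : Finset (ℤ × ℤ)) (x y : ℤ × ℤ) : ℝ :=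
  if h : x ∈ Λ ∧ y ∈ Λ then xyTwo (latJ b Λ) ⟨x, h.1⟩ ⟨y, h.2⟩ else 0

/-- charge two function `⟨cos 2(θ_x - θ_y)⟩`. -/
def latTwo2 (b : ℝ) (Λ : Finset (ℤ × ℤ)) (x y : ℤ × ℤ) : ℝ :=
  if h : x ∈ Λ ∧ y ∈ Λ then xyCh (latJ b Λ) (2 • (xyDel ⟨x, h.1⟩ - xyDel ⟨y, h.2⟩)) else 0

/-- the infinite volume free correlation. -/
def latCorr (b : ℝ) (x y : ℤ × ℤ) : ℝ := ⨆ Λ : Finset (ℤ × ℤ), latTwo b Λ x y

/-- inner vertex boundary in `ℤ²`. -/
def latBdry (H : Finset (ℤ × ℤ)) : Finset (ℤ × ℤ) :=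
  H.filter fun z => (z.1 + 1, z.2) ∉ H ∨ (z.1 - 1, z.2) ∉ H ∨ (z.1, z.2 + 1) ∉ H ∨ (z.1, z.2 - 1) ∉ H

/-- the finite size quantity `S_{r,b} = ∑_{z ∈ ∂H_r} C_{H_r,b}(0,z)` of [E] Lemma 6.6. -/
def latS (b : ℝ) (r : ℕ) : ℝ := ∑ z ∈ latBdry (xyBox r), latTwo b (xyBox r) (0, 0) z

end

end Claimed.Agent.R285
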