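import Claimed.Agent.R285.Xy.Vol
import Claimed.Agent.R285.Base.HeightDefs
import Claimed.Agent.R285.Rsd.Bes

/-!
# ROW 285, XY BASICS 7: spin-height duality ([C] Lemma 2.1, [F] Lemma 2.1 first half, [E] s2, s6.2) (owner helper177)

Step 1 (any finite oriented multigraph `G`, Fourier): `∫ cos(m·θ) exp(b ∑_e cos(θ_src - θ_tgt)) = (2π)^{|V|} e^{b|E|} ∑_{n : E → ℤ, div n = m} ∏_e p_b(n_e)`.
   In `LSys` language: `⟨cos((div α)·θ)⟩ = w(α)/w(0)` for the system `G.flowSys b` whose lattice is the group of divergence free integral flows.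
Step 2 (rectangles in `ℤ²`, discrete Poincare lemma): a flow on the rectangle is divergence free iff it is the gradient of a unique integer height on the dual graph (bounded faces + ONE exterior face pinned at zero;
   all dual edges are kept: a corner face has two edges to the exterior face).
Result: `xy_duality_rect`, `xy_duality_box`.
K1: [C] Lemma 2.1 OK.
-/

set_option autoImplicit false

namespace Claimed.Agent.R285

open MeasureTheory Filter Topology Claims.C0459

noncomputable section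

/-! ## 1. flows -/

namespace HGraph

variable (G : HGraph)

/-- the bond vector `δ_src - δ_tgt`. -/
def dvec (e : G.E) : G.V → ℤ := xyDel (G.src e) - xyDel (G.tgt e)

/-- the divergence (out minus in) of an integral flow. -/
def div (n : G.E → ℤ) : G.V → ℤ := ∑ e, n e • G.dvec e

/-- the gradient `h(tgt) - h(src)`. -/
def grad (h : G.V → ℤ) : G.E → ℤ := fun e => h (G.tgt e) - h (G.src e)

/-- `∑_{div n = m} ∏_e p_b(n_e)`. -/
def flowSum (b : ℝ) (m : G.V → ℤ) : ℝ := ∑' n : {n : G.E → ℤ // G.div n = m}, ∏ e, bes b (n.1 e)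

/-- the group of divergence free flows, in the ambient group of `LSys`. -/
def flowL : AddSubgroup ((G.E → ℤ) × (Empty → ℝ)) where
  carrier := {z | G.div z.1 = 0}
  zero_mem' := by simp [div]
  add_mem' := by
    intro a c ha hc
    simp only [Set.mem_ofPred_eq, div, Prod.fst_add, Pi.add_apply, add_smul, Finset.sum_add_distrib] at *
    rw [ha, hc, add_zero]
  neg_mem' := by
    intro a ha
    simp only [Set.mem_ofPred_eq, div, Prod.fst_neg, Pi.neg_apply, neg_smul, Finset.sum_neg_distrib] at *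
    rw [ha, neg_zero]

/-- the current system of the spin graph `G`. -/
def flowSys (b : ℝ) : LSys := { E := G.E, O := Empty, b := fun _ => b, L := G.flowL }

/-- spin character expectation on the graph `G` (every edge has strength `b`). -/
def spinCh (b : ℝ) (m : G.V → ℤ) : ℝ := xyChar G.dvec (fun _ => b) m

end HGraph

/-- product formula for sums over `Fin n → κ`. -/
theorem xy_hasSum_pi_fin {κ R : Type*} [NormedField R] [CompleteSpace R] (n : ℕ) (f : Fin n → κ → R)
    (hf : ∀ i, Summable fun k => ‖f i k‖) :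
    (Summable fun m : Fin n → κ => ‖∏ i, f i (m i)‖) ∧
      HasSum (fun m : Fin n → κ => ∏ i, f i (m i)) (∏ i, ∑' k, f i k) := by
  induction n with
  | zero =>
    refine ⟨(hasSum_unique _).summable, ?_⟩
    have := hasSum_unique (fun m : Fin 0 → κ => ∏ i, f i (m i))
    simp
  | succ n ih =>
    obtain ⟨h1, h2⟩ := ih (fun i => f i.succ) (fun i => hf i.succ)
    obtain ⟨e, he⟩ : ∃ e : κ × (Fin n → κ) ≃ (Fin (n + 1) → κ),
        ∀ x, e x 0 = x.1 ∧ ∀ i : Fin n, e x i.succ = x.2 i :=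
      ⟨Fin.consEquiv (fun _ : Fin (n + 1) => κ), fun x => ⟨rfl, fun i => rfl⟩⟩
    have e1 : ∀ x : κ × (Fin n → κ), ∏ i, f i (e x i) = f 0 x.1 * ∏ i : Fin n, f i.succ (x.2 i) := by
      intro x
      rw [Fin.prod_univ_succ, (he x).1]
      congr 1
      apply Finset.prod_congr rfl
      intro i _
      rw [(he x).2]
    constructor
    · have hs : Summable fun x : κ × (Fin n → κ) => ‖f 0 x.1 * ∏ i : Fin n, f i.succ (x.2 i)‖ :=
        Summable.mul_norm (f := f 0) (g := fun m : Fin n → κ => ∏ i : Fin n, f i.succ (m i)) (hf 0) h1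
      have hs2 : Summable ((fun m : Fin (n + 1) → κ => ‖∏ i, f i (m i)‖) ∘ e) :=
        hs.congr fun x => by simp only [Function.comp, e1]
      exact e.summable_iff.mp hs2
    · have hs : HasSum (fun x : κ × (Fin n → κ) => f 0 x.1 * ∏ i : Fin n, f i.succ (x.2 i))
          ((∑' k, f 0 k) * ∏ i : Fin n, ∑' k, f i.succ k) :=
        HasSum.mul (f := f 0) (g := fun m : Fin n → κ => ∏ i : Fin n, f i.succ (m i)) (hf 0).of_norm.hasSum h2
          (summable_mul_of_summable_norm (f := f 0) (g := fun m : Fin n → κ => ∏ i : Fin n, f i.succ (m i)) (hf 0) h1)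
      have hs2 : HasSum ((fun m : Fin (n + 1) → κ => ∏ i, f i (m i)) ∘ e)
          ((∑' k, f 0 k) * ∏ i : Fin n, ∑' k, f i.succ k) := by
        have : ((fun m : Fin (n + 1) → κ => ∏ i, f i (m i)) ∘ e)
            = fun x : κ × (Fin n → κ) => f 0 x.1 * ∏ i : Fin n, f i.succ (x.2 i) := by
          funext x
          exact e1 x
        rw [this]
        exact hs
      rw [Fin.prod_univ_succ]
      exact e.hasSum_iff.mp hs2

/-- product formula for sums over `ι → κ`. -/
theorem xy_hasSum_pi {ι κ R : Type*} [Fintype ι] [NormedField R] [CompleteSpace R] (f : ι → κ → R)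
    (hf : ∀ i, Summable fun k => ‖f i k‖) :
    (Summable fun m : ι → κ => ‖∏ i, f i (m i)‖) ∧
      HasSum (fun m : ι → κ => ∏ i, f i (m i)) (∏ i, ∑' k, f i k) := by
  obtain ⟨h1, h2⟩ := xy_hasSum_pi_fin (Fintype.card ι) (fun j => f ((Fintype.equivFin ι).symm j))
    (fun j => hf _)
  obtain ⟨e, he⟩ : ∃ e : (ι → κ) ≃ (Fin (Fintype.card ι) → κ), ∀ m j, e m j = m ((Fintype.equivFin ι).symm j) :=
    ⟨Equiv.arrowCongr (Fintype.equivFin ι) (Equiv.refl κ), fun m j => rfl⟩
  have e1 : ∀ m : ι → κ, ∏ j, f ((Fintype.equivFin ι).symm j) (e m j) = ∏ i, f i (m i) := by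
    intro m
    simp only [he]
    exact Equiv.prod_comp (Fintype.equivFin ι).symm (fun i => f i (m i))
  constructor
  · have := e.summable_iff.mpr h1
    refine this.congr fun m => ?_
    simp only [Function.comp, e1]
  · have := e.hasSum_iff.mpr h2
    have e2 : ∏ j, ∑' k, f ((Fintype.equivFin ι).symm j) k = ∏ i, ∑' k, f i k :=
      Equiv.prod_comp (Fintype.equivFin ι).symm (fun i => ∑' k, f i k)
    rw [e2] at this
    have e3 : ((fun m : Fin (Fintype.card ι) → κ => ∏ j, f ((Fintype.equivFin ι).symm j) (m j)) ∘ e)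
        = fun m : ι → κ => ∏ i, f i (m i) := by
      funext m
      exact e1 m
    rw [e3] at this
    exact this


theorem HGraph.div_add (G : HGraph) (n n' : G.E → ℤ) : G.div (n + n') = G.div n + G.div n' := by
  simp only [HGraph.div, Pi.add_apply, add_smul, Finset.sum_add_distrib]

theorem HGraph.div_neg (G : HGraph) (n : G.E → ℤ) : G.div (-n) = - G.div n := by
  simp only [HGraph.div, Pi.neg_apply, neg_smul, Finset.sum_neg_distrib]

theorem HGraph.div_sub (G : HGraph) (n n' : G.E → ℤ) : G.div (n - n') = G.div n - G.div n' := by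
  rw [sub_eq_add_neg, HGraph.div_add, HGraph.div_neg, ← sub_eq_add_neg]

/-- all integral flows are summable. -/
theorem xy_flow_summable_all (G : HGraph) (b : ℝ) : Summable fun n : G.E → ℤ => ∏ e, bes b (n e) :=
  (xy_hasSum_pi (fun (_ : G.E) (k : ℤ) => bes b k) (fun _ => bes_summable_abs b)).2.summable

/-- XY-D-1: all flows are summable (`∑_{n} ∏_e p_b(n_e) = ∏_e ∑_k p_b(k) = 1`; `bes_mgf` at `t = 0`, `bes_pos`/nonnegativity; a subfamily of a summable nonnegative family). -/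
theorem xy_flow_summable (G : HGraph) (b : ℝ) (hb : 0 ≤ b) (m : G.V → ℤ) :
    Summable fun n : {n : G.E → ℤ // G.div n = m} => ∏ e, bes b (n.1 e) := by
  exact (xy_flow_summable_all G b).subtype {n : G.E → ℤ | G.div n = m}

theorem xyPh_div (G : HGraph) (n : G.E → ℤ) (θ : G.V → ℝ) :
    xyPh (G.div n) θ = ∑ e, (n e : ℝ) * xyPh (G.dvec e) θ := by
  unfold HGraph.div xyPh
  simp only [Finset.sum_apply, Pi.smul_apply, smul_eq_mul]
  push_cast
  simp_rw [Finset.sum_mul, Finset.mul_sum]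
  rw [Finset.sum_comm]
  apply Finset.sum_congr rfl
  intro e _
  apply Finset.sum_congr rfl
  intro v _
  ring

/-- pointwise Fourier expansion of the Gibbs weight. -/
theorem xy_flow_pt (G : HGraph) (b : ℝ) (θ : G.V → ℝ) :
    HasSum (fun n : G.E → ℤ => (∏ e, bes b (n e)) * Real.cos (xyPh (G.div n) θ))
      (Real.exp (∑ e : G.E, b * (Real.cos (xyPh (G.dvec e) θ) - 1))) := by
  have h0 : ∀ e : G.E, HasSum (fun k : ℤ => (bes b k : ℂ) * Complex.exp (k * ((xyPh (G.dvec e) θ : ℝ) * Complex.I)))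
      (Complex.exp (b * (Complex.cosh ((xyPh (G.dvec e) θ : ℝ) * Complex.I) - 1))) :=
    fun e => bes_hasSum_cexp b _
  have hn : ∀ e : G.E, Summable fun k : ℤ => ‖(bes b k : ℂ) * Complex.exp (k * ((xyPh (G.dvec e) θ : ℝ) * Complex.I))‖ := by
    intro e
    refine (bes_summable_abs b).congr ?_
    intro k
    rw [norm_mul]
    have : (k : ℂ) * ((xyPh (G.dvec e) θ : ℝ) * Complex.I) = (((k : ℝ) * xyPh (G.dvec e) θ : ℝ) : ℂ) * Complex.I := by
      push_cast; ring
    rw [this, Complex.norm_exp_ofReal_mul_I, mul_one, Complex.norm_real, Real.norm_eq_abs]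
  have h1 := (xy_hasSum_pi (fun (e : G.E) (k : ℤ) => (bes b k : ℂ) * Complex.exp (k * ((xyPh (G.dvec e) θ : ℝ) * Complex.I))) hn).2
  have h2 := Complex.hasSum_re h1
  have e1 : ∀ n : G.E → ℤ, (∏ e, ((bes b (n e) : ℂ) * Complex.exp ((n e : ℂ) * ((xyPh (G.dvec e) θ : ℝ) * Complex.I)))).re
      = (∏ e, bes b (n e)) * Real.cos (xyPh (G.div n) θ) := by
    intro n
    rw [Finset.prod_mul_distrib, ← Complex.exp_sum]
    have : ∑ e, (n e : ℂ) * ((xyPh (G.dvec e) θ : ℝ) * Complex.I) = ((xyPh (G.div n) θ : ℝ) : ℂ) * Complex.I := by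
      rw [xyPh_div]
      push_cast
      rw [Finset.sum_mul]
      apply Finset.sum_congr rfl
      intro e _
      ring
    rw [this, ← Complex.ofReal_prod, Complex.re_ofReal_mul, Complex.exp_ofReal_mul_I_re]
  have e2 : (∏ e : G.E, ∑' k : ℤ, (bes b k : ℂ) * Complex.exp (k * ((xyPh (G.dvec e) θ : ℝ) * Complex.I))).re
      = Real.exp (∑ e : G.E, b * (Real.cos (xyPh (G.dvec e) θ) - 1)) := by
    have : ∀ e : G.E, ∑' k : ℤ, (bes b k : ℂ) * Complex.exp (k * ((xyPh (G.dvec e) θ : ℝ) * Complex.I))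
        = ((Real.exp (b * (Real.cos (xyPh (G.dvec e) θ) - 1)) : ℝ) : ℂ) := by
      intro e
      rw [(h0 e).tsum_eq, Complex.cosh_mul_I]
      push_cast
      rfl
    simp_rw [this]
    rw [← Complex.ofReal_prod, Complex.ofReal_re, Real.exp_sum]
  rw [e2] at h2
  have e3 : (fun n : G.E → ℤ => (∏ e, bes b (n e)) * Real.cos (xyPh (G.div n) θ))
      = fun n : G.E → ℤ => (∏ e, ((bes b (n e) : ℂ) * Complex.exp ((n e : ℂ) * ((xyPh (G.dvec e) θ : ℝ) * Complex.I)))).re := by
    funext n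
    exact (e1 n).symm
  rw [e3]
  exact h2

/-- termwise integration. -/
theorem xy_flow_int_aux (G : HGraph) (b : ℝ) (m : G.V → ℤ) :
    HasSum (fun n : G.E → ℤ => (∏ e, bes b (n e)) * ∫ θ, Real.cos (xyPh (G.div n) θ) * Real.cos (xyPh m θ) ∂xyAng G.V)
      (∫ θ, Real.exp (∑ e : G.E, b * (Real.cos (xyPh (G.dvec e) θ) - 1)) * Real.cos (xyPh m θ) ∂xyAng G.V) := by
  have hint : ∀ n : G.E → ℤ, Integrable (fun θ => (∏ e, bes b (n e)) * Real.cos (xyPh (G.div n) θ) * Real.cos (xyPh m θ)) (xyAng G.V) := by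
    intro n
    apply xy_integrable _ _ |∏ e, bes b (n e)|
    · intro θ
      rw [abs_mul, abs_mul]
      have h1 := Real.abs_cos_le_one (xyPh (G.div n) θ)
      have h2 := Real.abs_cos_le_one (xyPh m θ)
      have h3 := abs_nonneg (∏ e, bes b (n e))
      have h4 := abs_nonneg (Real.cos (xyPh (G.div n) θ))
      have h5 := abs_nonneg (Real.cos (xyPh m θ))
      calc |∏ e, bes b (n e)| * |Real.cos (xyPh (G.div n) θ)| * |Real.cos (xyPh m θ)|
          ≤ |∏ e, bes b (n e)| * 1 * 1 := by gcongr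
        _ = _ := by ring
    · exact (continuous_const.mul (Real.continuous_cos.comp (xyPh_continuous _))).mul (Real.continuous_cos.comp (xyPh_continuous _))
  have hsum : Summable fun n : G.E → ℤ => ∫ θ, ‖(∏ e, bes b (n e)) * Real.cos (xyPh (G.div n) θ) * Real.cos (xyPh m θ)‖ ∂xyAng G.V := by
    have hs : Summable fun n : G.E → ℤ => ‖∏ e, bes b (n e)‖ * (2 * Real.pi) ^ Fintype.card G.V :=
      ((xy_hasSum_pi (fun (_ : G.E) (k : ℤ) => bes b k) (fun _ => bes_summable_abs b)).1).mul_right _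
    refine Summable.of_nonneg_of_le (fun n => integral_nonneg fun θ => norm_nonneg _) (fun n => ?_) hs
    rw [← xy_int_one, ← integral_const_mul]
    apply integral_mono (hint n).norm
    · exact (integrable_const _)
    · intro θ
      show ‖(∏ e, bes b (n e)) * Real.cos (xyPh (G.div n) θ) * Real.cos (xyPh m θ)‖ ≤ ‖∏ e, bes b (n e)‖ * 1
      rw [norm_mul, norm_mul, Real.norm_eq_abs, Real.norm_eq_abs, Real.norm_eq_abs]
      have h1 := Real.abs_cos_le_one (xyPh (G.div n) θ)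
      have h2 := Real.abs_cos_le_one (xyPh m θ)
      have h3 := abs_nonneg (∏ e, bes b (n e))
      have h4 := abs_nonneg (Real.cos (xyPh (G.div n) θ))
      have h5 := abs_nonneg (Real.cos (xyPh m θ))
      calc |∏ e, bes b (n e)| * |Real.cos (xyPh (G.div n) θ)| * |Real.cos (xyPh m θ)|
          ≤ |∏ e, bes b (n e)| * 1 * 1 := by gcongr
        _ = _ := by ring
  have h := hasSum_integral_of_summable_integral_norm hint hsum
  have e1 : (fun n : G.E → ℤ => (∏ e, bes b (n e)) * ∫ θ, Real.cos (xyPh (G.div n) θ) * Real.cos (xyPh m θ) ∂xyAng G.V)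
      = fun n : G.E → ℤ => ∫ θ, (∏ e, bes b (n e)) * Real.cos (xyPh (G.div n) θ) * Real.cos (xyPh m θ) ∂xyAng G.V := by
    funext n
    rw [← integral_const_mul]
    congr 1
    funext θ
    ring
  have e2 : (∫ θ, Real.exp (∑ e : G.E, b * (Real.cos (xyPh (G.dvec e) θ) - 1)) * Real.cos (xyPh m θ) ∂xyAng G.V)
      = ∫ θ, ∑' n : G.E → ℤ, (∏ e, bes b (n e)) * Real.cos (xyPh (G.div n) θ) * Real.cos (xyPh m θ) ∂xyAng G.V := by
    congr 1
    funext θ
    exact (((xy_flow_pt G b θ).mul_right (Real.cos (xyPh m θ))).tsum_eq).symm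
  rw [e1, e2]
  exact h

theorem xy_int_cos_cos {V : Type*} [Fintype V] [DecidableEq V] (a m : V → ℤ) :
    ∫ θ, Real.cos (xyPh a θ) * Real.cos (xyPh m θ) ∂xyAng V
      = ((if a = m then 1 else 0) + (if a = -m then 1 else 0)) / 2 * (2 * Real.pi) ^ Fintype.card V := by
  have e : ∀ θ : V → ℝ, Real.cos (xyPh a θ) * Real.cos (xyPh m θ)
      = (1 / 2 : ℝ) * Real.cos (xyPh (a - m) θ) + (1 / 2 : ℝ) * Real.cos (xyPh (a + m) θ) := by
    intro θ
    rw [xyPh_sub, xyPh_add, Real.cos_sub, Real.cos_add]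
    ring
  simp_rw [e]
  have i1 : ∀ c : V → ℤ, Integrable (fun θ => (1 / 2 : ℝ) * Real.cos (xyPh c θ)) (xyAng V) := by
    intro c
    apply xy_integrable _ (continuous_const.mul (Real.continuous_cos.comp (xyPh_continuous _))) 1
    intro θ
    show |(1 / 2 : ℝ) * Real.cos (xyPh c θ)| ≤ 1
    rw [abs_mul]
    have h1 := Real.abs_cos_le_one (xyPh c θ)
    have : |(1 / 2 : ℝ)| = 1 / 2 := abs_of_pos (by norm_num)
    rw [this]
    linarith
  rw [integral_add (i1 _) (i1 _), integral_const_mul, integral_const_mul, xy_int_cos, xy_int_cos]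
  have c1 : (a - m = 0) ↔ a = m := sub_eq_zero
  have c2 : (a + m = 0) ↔ a = -m := add_eq_zero_iff_eq_neg
  simp only [c1, c2]
  split_ifs <;> ring

/-- XY-D-2 (**Fourier**).  `exp(b(cos φ - 1)) = ∑_k p_b(k) cos(kφ)` (`bes_char`), `p_b(-k) = p_b(k)`.  Induction over a finset `S` of edges, for all `m`:
`∫ ∏_{e∈S} exp(b(cos φ_e - 1)) cos(m·θ) = (2π)^{|V|} ∑_{n supported on S, div n = m} ∏_{e∈S} p_b(n_e)`, using `cos(kφ_e) cos(m·θ) = ½(cos((m + k d_e)·θ) + cos((m - k d_e)·θ))`, `integral_tsum` and `xy_int_cos` at the end.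
(Or: complex exponentials, product of the absolutely convergent series, termwise integration.) -/
theorem xy_flow_int (G : HGraph) (b : ℝ) (hb : 0 ≤ b) (m : G.V → ℤ) :
    xyInt G.dvec (fun _ => b) (fun θ => Real.cos (xyPh m θ)) =
      (2 * Real.pi) ^ Fintype.card G.V * Real.exp (b * Fintype.card G.E) * G.flowSum b m := by
  classical
  have h := xy_flow_int_aux G b m
  simp_rw [xy_int_cos_cos] at h
  -- the two indicator sums
  have hall := xy_flow_summable_all G b
  have s1 : HasSum (fun n : G.E → ℤ => (∏ e, bes b (n e)) * (if G.div n = m then (1 : ℝ) else 0)) (G.flowSum b m) := by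
    have h1 := (xy_flow_summable G b hb m).hasSum
    have h2 := (hasSum_subtype_iff_indicator (f := fun n : G.E → ℤ => ∏ e, bes b (n e)) (s := {n : G.E → ℤ | G.div n = m})).1 h1
    have e : (fun n : G.E → ℤ => (∏ e, bes b (n e)) * (if G.div n = m then (1 : ℝ) else 0))
        = {n : G.E → ℤ | G.div n = m}.indicator (fun n : G.E → ℤ => ∏ e, bes b (n e)) := by
      funext n
      by_cases hn : G.div n = m
      · rw [if_pos hn, mul_one, Set.indicator_of_mem (show n ∈ {n : G.E → ℤ | G.div n = m} from hn)]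
      · rw [if_neg hn, mul_zero, Set.indicator_of_notMem (show n ∉ {n : G.E → ℤ | G.div n = m} from hn)]
    rw [e]
    exact h2
  have s2 : HasSum (fun n : G.E → ℤ => (∏ e, bes b (n e)) * (if G.div n = -m then (1 : ℝ) else 0)) (G.flowSum b m) := by
    have h1 := (Equiv.neg (G.E → ℤ)).hasSum_iff.2 s1
    have e : (fun n : G.E → ℤ => (∏ e, bes b (n e)) * (if G.div n = -m then (1 : ℝ) else 0))
        = (fun n : G.E → ℤ => (∏ e, bes b (n e)) * (if G.div n = m then (1 : ℝ) else 0)) ∘ (Equiv.neg (G.E → ℤ)) := by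
      funext n
      simp only [Function.comp, Equiv.neg_apply, Pi.neg_apply, bes_neg, HGraph.div_neg, neg_eq_iff_eq_neg]
    rw [e]
    exact h1
  have s3 := ((s1.add s2).div_const 2).mul_right ((2 * Real.pi) ^ Fintype.card G.V)
  have e3 : (fun n : G.E → ℤ => (∏ e, bes b (n e)) * (((if G.div n = m then (1 : ℝ) else 0) + (if G.div n = -m then (1 : ℝ) else 0)) / 2 * (2 * Real.pi) ^ Fintype.card G.V))
      = fun n : G.E → ℤ => ((∏ e, bes b (n e)) * (if G.div n = m then (1 : ℝ) else 0) + (∏ e, bes b (n e)) * (if G.div n = -m then (1 : ℝ) else 0)) / 2 * (2 * Real.pi) ^ Fintype.card G.V := by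
    funext n
    ring
  rw [e3] at h
  have key := h.unique s3
  unfold xyInt
  have e4 : ∀ θ : G.V → ℝ, Real.cos (xyPh m θ) * Real.exp (xyEn G.dvec (fun _ => b) θ)
      = Real.exp (b * Fintype.card G.E) * (Real.exp (∑ e : G.E, b * (Real.cos (xyPh (G.dvec e) θ) - 1)) * Real.cos (xyPh m θ)) := by
    intro θ
    have : xyEn G.dvec (fun _ => b) θ = b * Fintype.card G.E + ∑ e : G.E, b * (Real.cos (xyPh (G.dvec e) θ) - 1) := by
      unfold xyEn
      simp only [mul_sub, Finset.sum_sub_distrib, mul_one, Finset.sum_const, Finset.card_univ, nsmul_eq_mul]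
      ring
    rw [this, Real.exp_add]
    ring
  simp_rw [e4]
  rw [integral_const_mul, key]
  ring

theorem xy_flow_pos (G : HGraph) (b : ℝ) (hb : 0 ≤ b) : 0 < G.flowSum b 0 := by
  have h := xy_flow_int G b hb 0
  have h1 : xyInt G.dvec (fun _ => b) (fun θ => Real.cos (xyPh (0 : G.V → ℤ) θ)) = xyPart G.dvec (fun _ => b) := by
    unfold xyPart; congr 1; funext θ; rw [xyPh_zero, Real.cos_zero]
  rw [h1] at h
  have h2 := xyPart_pos G.dvec (fun _ : G.E => b)
  rw [h] at h2
  have h3 : 0 < (2 * Real.pi) ^ Fintype.card G.V * Real.exp (b * Fintype.card G.E) := by positivity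
  exact (pos_iff_pos_of_mul_pos h2).1 h3

/-- spin characters are ratios of flow sums. -/
theorem xy_flow_ratio (G : HGraph) (b : ℝ) (hb : 0 ≤ b) (m : G.V → ℤ) : G.spinCh b m = G.flowSum b m / G.flowSum b 0 := by
  unfold HGraph.spinCh xyChar xyEx
  have h1 : xyPart G.dvec (fun _ => b) = xyInt G.dvec (fun _ => b) (fun θ => Real.cos (xyPh (0 : G.V → ℤ) θ)) := by
    unfold xyPart; congr 1; funext θ; rw [xyPh_zero, Real.cos_zero]
  rw [h1, xy_flow_int G b hb, xy_flow_int G b hb]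
  have h3 : (2 * Real.pi) ^ Fintype.card G.V * Real.exp (b * Fintype.card G.E) ≠ 0 := by positivity
  rw [mul_div_mul_left _ _ h3]

/-- the bijection `z ↦ z + α`. -/
def xyFlowEqv (G : HGraph) (α : G.E → ℤ) : G.flowL ≃ {n : G.E → ℤ // G.div n = G.div α} where
  toFun z := ⟨z.1.1 + α, by
    have h : G.div z.1.1 = 0 := z.2
    rw [HGraph.div_add, h, zero_add]⟩
  invFun n := ⟨(n.1 - α, 0), by
    show G.div (n.1 - α) = 0
    rw [HGraph.div_sub, n.2, sub_self]⟩
  left_inv z := by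
    apply Subtype.ext
    apply Prod.ext
    · simp
    · exact Subsingleton.elim _ _
  right_inv n := by
    apply Subtype.ext
    simp

/-- XY-D-3: the flow sum in `LSys` form (bijection `z ↦ z + α` from `flowL` onto `{div n = div α}`; the Gaussian factor is `exp 0 = 1`). -/
theorem xy_flow_lsys (G : HGraph) (b : ℝ) (α : G.E → ℤ) :
    (G.flowSys b).w (show (G.flowSys b).Amb from (α, 0)) = G.flowSum b (G.div α) := by
  unfold HGraph.flowSum
  rw [← (xyFlowEqv G α).tsum_eq]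
  unfold LSys.w LSys.Zf
  apply tsum_congr
  intro z
  unfold LSys.W
  rw [one_mul]
  have h1 : Real.exp (-(∑ o : (G.flowSys b).O, (((z : (G.flowSys b).Amb) + (show (G.flowSys b).Amb from (α, 0))).2 o) ^ 2) / 2) = 1 := by
    have : ∑ o : (G.flowSys b).O, (((z : (G.flowSys b).Amb) + (show (G.flowSys b).Amb from (α, 0))).2 o) ^ 2 = 0 := by
      apply Finset.sum_eq_zero
      intro o _
      exact o.elim
    rw [this]
    simp
  rw [h1, mul_one]
  rfl

/-- **duality, abstract form**: on ANY finite graph a spin character is a shifted-to-centred ratio of the current system. -/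
theorem xy_duality_lsys (G : HGraph) (b : ℝ) (hb : 0 ≤ b) (α : G.E → ℤ) :
    G.spinCh b (G.div α) = (G.flowSys b).w (show (G.flowSys b).Amb from (α, 0)) / (G.flowSys b).w 0 := by
  have h0 : (G.flowSys b).w 0 = G.flowSum b 0 := by
    have := xy_flow_lsys G b 0
    have e : G.div 0 = 0 := by simp [HGraph.div]
    rw [e] at this
    exact this
  rw [xy_flow_lsys, h0, xy_flow_ratio G b hb]

theorem xy_sum_ind {α : Type*} [DecidableEq α] (S : Finset α) (f : S → ℤ) (q : α) :
    ∑ p : S, f p * (if p.1 = q then 1 else 0) = if h : q ∈ S then f ⟨q, h⟩ else 0 := by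
  by_cases h : q ∈ S
  · rw [dif_pos h, Finset.sum_eq_single (⟨q, h⟩ : S)]
    · simp
    · intro p _ hp
      rw [if_neg (fun e => hp (Subtype.ext e)), mul_zero]
    · intro h'
      exact absurd (Finset.mem_univ _) h'
  · rw [dif_neg h]
    apply Finset.sum_eq_zero
    intro p _
    have hp : p.1 ≠ q := fun e => h (e ▸ p.2)
    rw [if_neg hp, mul_zero]

theorem xy_sum_Icc_succ (f : ℤ → ℤ) (a i : ℤ) (h : a ≤ i + 1) :
    ∑ k ∈ Finset.Icc a (i + 1), f k = ∑ k ∈ Finset.Icc a i, f k + f (i + 1) := by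
  have e : Finset.Icc a (i + 1) = insert (i + 1) (Finset.Icc a i) := by
    ext k
    simp only [Finset.mem_Icc, Finset.mem_insert]
    omega
  rw [e, Finset.sum_insert (by simp), add_comm]

/-- pointwise decomposition of the adjacency kernel. -/
theorem lat_adj_split (b : ℝ) (t : ℤ × ℤ → ℝ) (x y : ℤ × ℤ) :
    (if latAdj x y then b / 2 else 0) * Real.cos (t x - t y)
      = ((if y = (x.1 + 1, x.2) then b / 2 * Real.cos (t x - t y) else 0)
          + (if y = (x.1, x.2 + 1) then b / 2 * Real.cos (t x - t y) else 0))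
        + ((if x = (y.1 + 1, y.2) then b / 2 * Real.cos (t y - t x) else 0)
          + (if x = (y.1, y.2 + 1) then b / 2 * Real.cos (t y - t x) else 0)) := by
  have hc : Real.cos (t y - t x) = Real.cos (t x - t y) := by rw [← Real.cos_neg, neg_sub]
  rw [hc]
  obtain ⟨x1, x2⟩ := x
  obtain ⟨y1, y2⟩ := y
  simp only [Prod.mk.injEq]
  by_cases h : latAdj (x1, x2) (y1, y2)
  · rw [if_pos h]
    simp only [latAdj] at h
    split_ifs <;> first | (exfalso; omega) | ring
  · rw [if_neg h]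
    simp only [latAdj] at h
    split_ifs <;> first | (exfalso; omega) | ring

/-! ## 2. rectangles -/

section Rect

variable (x0 x1 y0 y1 : ℤ)

/-- the vertices `[x0,x1] × [y0,y1]`. -/
def latRect : Finset (ℤ × ℤ) := Finset.Icc x0 x1 ×ˢ Finset.Icc y0 y1

/-- horizontal edges, indexed by their left end point. -/
def rectH : Finset (ℤ × ℤ) := Finset.Ico x0 x1 ×ˢ Finset.Icc y0 y1

/-- vertical edges, indexed by their lower end point. -/
def rectV : Finset (ℤ × ℤ) := Finset.Icc x0 x1 ×ˢ Finset.Ico y0 y1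

/-- bounded faces, indexed by their lower left corner. -/
def rectF : Finset (ℤ × ℤ) := Finset.Ico x0 x1 ×ˢ Finset.Ico y0 y1

/-- the spin rectangle: horizontal edges point east, vertical edges point north. -/
abbrev rectG : HGraph where
  V := latRect x0 x1 y0 y1
  E := rectH x0 x1 y0 y1 ⊕ rectV x0 x1 y0 y1
  src e := match e with
    | Sum.inl p => ⟨p.1, by
        have := p.2; simp only [rectH, latRect, Finset.mem_product, Finset.mem_Ico, Finset.mem_Icc] at *; omega⟩
    | Sum.inr p => ⟨p.1, by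
        have := p.2; simp only [rectV, latRect, Finset.mem_product, Finset.mem_Ico, Finset.mem_Icc] at *; omega⟩
  tgt e := match e with
    | Sum.inl p => ⟨(p.1.1 + 1, p.1.2), by
        have := p.2; simp only [rectH, latRect, Finset.mem_product, Finset.mem_Ico, Finset.mem_Icc] at *; omega⟩
    | Sum.inr p => ⟨(p.1.1, p.1.2 + 1), by
        have := p.2; simp only [rectV, latRect, Finset.mem_product, Finset.mem_Ico, Finset.mem_Icc] at *; omega⟩

/-- the face with lower left corner `p`; `none` is the exterior face. -/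
def rectFace (p : ℤ × ℤ) : Option (rectF x0 x1 y0 y1) := if h : p ∈ rectF x0 x1 y0 y1 then some ⟨p, h⟩ else none

/-- the dual graph: bounded faces and ONE exterior face; same edge set; the dual edge of `e` goes from the face on the RIGHT of `e` to the face on the LEFT of `e`. -/
abbrev rectD : HGraph where
  V := Option (rectF x0 x1 y0 y1)
  E := rectH x0 x1 y0 y1 ⊕ rectV x0 x1 y0 y1
  src e := match e with
    | Sum.inl p => rectFace x0 x1 y0 y1 (p.1.1, p.1.2 - 1)
    | Sum.inr p => rectFace x0 x1 y0 y1 p.1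
  tgt e := match e with
    | Sum.inl p => rectFace x0 x1 y0 y1 p.1
    | Sum.inr p => rectFace x0 x1 y0 y1 (p.1.1 - 1, p.1.2)

/-- extension by zero of the horizontal part of a flow. -/
def rectNH (n : (rectG x0 x1 y0 y1).E → ℤ) (p : ℤ × ℤ) : ℤ :=
  if h : p ∈ rectH x0 x1 y0 y1 then n (Sum.inl ⟨p, h⟩) else 0

/-- extension by zero of the vertical part of a flow. -/
def rectNV (n : (rectG x0 x1 y0 y1).E → ℤ) (p : ℤ × ℤ) : ℤ :=
  if h : p ∈ rectV x0 x1 y0 y1 then n (Sum.inr ⟨p, h⟩) else 0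

theorem rect_div_apply (n : (rectG x0 x1 y0 y1).E → ℤ) (v : latRect x0 x1 y0 y1) :
    (rectG x0 x1 y0 y1).div n v = rectNH x0 x1 y0 y1 n v.1 - rectNH x0 x1 y0 y1 n (v.1.1 - 1, v.1.2)
      + rectNV x0 x1 y0 y1 n v.1 - rectNV x0 x1 y0 y1 n (v.1.1, v.1.2 - 1) := by
  unfold HGraph.div HGraph.dvec xyDel
  simp only [Finset.sum_apply, Pi.smul_apply, Pi.sub_apply, smul_eq_mul, Pi.single_apply]
  rw [Fintype.sum_sum_type]
  simp only [mul_sub, Finset.sum_sub_distrib]
  have a1 : ∀ p : rectH x0 x1 y0 y1, (v = (rectG x0 x1 y0 y1).src (Sum.inl p)) ↔ p.1 = v.1 := by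
    intro p
    constructor
    · intro h; rw [h]
    · intro h; exact Subtype.ext h.symm
  have a2 : ∀ p : rectH x0 x1 y0 y1, (v = (rectG x0 x1 y0 y1).tgt (Sum.inl p)) ↔ p.1 = (v.1.1 - 1, v.1.2) := by
    intro p
    constructor
    · intro h; rw [h]; ext <;> simp
    · intro h; apply Subtype.ext; show v.1 = (p.1.1 + 1, p.1.2); rw [h]; ext <;> simp
  have a3 : ∀ p : rectV x0 x1 y0 y1, (v = (rectG x0 x1 y0 y1).src (Sum.inr p)) ↔ p.1 = v.1 := by
    intro p
    constructor
    · intro h; rw [h]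
    · intro h; exact Subtype.ext h.symm
  have a4 : ∀ p : rectV x0 x1 y0 y1, (v = (rectG x0 x1 y0 y1).tgt (Sum.inr p)) ↔ p.1 = (v.1.1, v.1.2 - 1) := by
    intro p
    constructor
    · intro h; rw [h]; ext <;> simp
    · intro h; apply Subtype.ext; show v.1 = (p.1.1, p.1.2 + 1); rw [h]; ext <;> simp
  simp only [a1, a2, a3, a4]
  rw [xy_sum_ind, xy_sum_ind, xy_sum_ind, xy_sum_ind]
  unfold rectNH rectNV
  ring

theorem rectFace_none {p : ℤ × ℤ} (h : p ∉ rectF x0 x1 y0 y1) : rectFace x0 x1 y0 y1 p = none := dif_neg h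

theorem rectFace_some {p : ℤ × ℤ} (h : p ∈ rectF x0 x1 y0 y1) : rectFace x0 x1 y0 y1 p = some ⟨p, h⟩ := dif_pos h

theorem rectNH_grad (h : (rectD x0 x1 y0 y1).V → ℤ) (p : ℤ × ℤ) :
    rectNH x0 x1 y0 y1 ((rectD x0 x1 y0 y1).grad h) p
      = h (rectFace x0 x1 y0 y1 p) - h (rectFace x0 x1 y0 y1 (p.1, p.2 - 1)) := by
  unfold rectNH
  by_cases hp : p ∈ rectH x0 x1 y0 y1
  · rw [dif_pos hp]
    rfl
  · rw [dif_neg hp, rectFace_none, rectFace_none, sub_self]
    · simp only [rectH, rectF, Finset.mem_product, Finset.mem_Ico, Finset.mem_Icc] at *; omega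
    · simp only [rectH, rectF, Finset.mem_product, Finset.mem_Ico, Finset.mem_Icc] at *; omega

theorem rectNV_grad (h : (rectD x0 x1 y0 y1).V → ℤ) (p : ℤ × ℤ) :
    rectNV x0 x1 y0 y1 ((rectD x0 x1 y0 y1).grad h) p
      = h (rectFace x0 x1 y0 y1 (p.1 - 1, p.2)) - h (rectFace x0 x1 y0 y1 p) := by
  unfold rectNV
  by_cases hp : p ∈ rectV x0 x1 y0 y1
  · rw [dif_pos hp]
    rfl
  · rw [dif_neg hp, rectFace_none, rectFace_none, sub_self]
    · simp only [rectV, rectF, Finset.mem_product, Finset.mem_Ico, Finset.mem_Icc] at *; omega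
    · simp only [rectV, rectF, Finset.mem_product, Finset.mem_Ico, Finset.mem_Icc] at *; omega

/-- XY-D-4: gradients of dual heights are divergence free (at the vertex `(i,j)` the four contributions telescope; boundary vertices: the missing faces are all `none`). -/
theorem rect_div_grad (h : (rectD x0 x1 y0 y1).V → ℤ) :
    (rectG x0 x1 y0 y1).div ((rectD x0 x1 y0 y1).grad h) = 0 := by
  funext v
  rw [rect_div_apply, rectNH_grad, rectNH_grad, rectNV_grad, rectNV_grad]
  simp only [Pi.zero_apply]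
  ring

theorem rectNH_zero (n : (rectG x0 x1 y0 y1).E → ℤ) {p : ℤ × ℤ} (h : p ∉ rectH x0 x1 y0 y1) :
    rectNH x0 x1 y0 y1 n p = 0 := dif_neg h

theorem rectNV_zero (n : (rectG x0 x1 y0 y1).E → ℤ) {p : ℤ × ℤ} (h : p ∉ rectV x0 x1 y0 y1) :
    rectNV x0 x1 y0 y1 n p = 0 := dif_neg h

/-- the divergence equation on all of `ℤ²`. -/
theorem rect_div_all (n : (rectG x0 x1 y0 y1).E → ℤ) (hn : (rectG x0 x1 y0 y1).div n = 0) (i j : ℤ) :
    rectNH x0 x1 y0 y1 n (i, j) - rectNH x0 x1 y0 y1 n (i - 1, j)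
      + rectNV x0 x1 y0 y1 n (i, j) - rectNV x0 x1 y0 y1 n (i, j - 1) = 0 := by
  by_cases hp : (i, j) ∈ latRect x0 x1 y0 y1
  · have := rect_div_apply x0 x1 y0 y1 n ⟨(i, j), hp⟩
    rw [hn] at this
    exact this.symm
  · rw [rectNH_zero, rectNH_zero, rectNV_zero, rectNV_zero]
    · ring
    all_goals
      simp only [rectH, rectV, latRect, Finset.mem_product, Finset.mem_Ico, Finset.mem_Icc] at *; omega

/-- the height: minus the flux through the dual path from the west. -/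
def rectS (n : (rectG x0 x1 y0 y1).E → ℤ) (i j : ℤ) : ℤ := ∑ k ∈ Finset.Icc x0 i, rectNV x0 x1 y0 y1 n (k, j)

theorem rectS_succ (n : (rectG x0 x1 y0 y1).E → ℤ) (i j : ℤ) (h : x0 ≤ i + 1) :
    rectS x0 x1 y0 y1 n (i + 1) j = rectS x0 x1 y0 y1 n i j + rectNV x0 x1 y0 y1 n (i + 1, j) :=
  xy_sum_Icc_succ (fun k => rectNV x0 x1 y0 y1 n (k, j)) x0 i h

theorem rectS_west (n : (rectG x0 x1 y0 y1).E → ℤ) (i j : ℤ) (h : i < x0) : rectS x0 x1 y0 y1 n i j = 0 := by
  unfold rectS
  rw [Finset.Icc_eq_empty (by omega), Finset.sum_empty]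

theorem rectS_row (n : (rectG x0 x1 y0 y1).E → ℤ) (i j : ℤ) (h : j < y0 ∨ y1 ≤ j) : rectS x0 x1 y0 y1 n i j = 0 := by
  unfold rectS
  apply Finset.sum_eq_zero
  intro k _
  apply rectNV_zero
  simp only [rectV, Finset.mem_product, Finset.mem_Ico, Finset.mem_Icc]; omega

theorem rectS_diff (n : (rectG x0 x1 y0 y1).E → ℤ) (hn : (rectG x0 x1 y0 y1).div n = 0) (i j : ℤ) :
    rectS x0 x1 y0 y1 n i (j - 1) - rectS x0 x1 y0 y1 n i j = rectNH x0 x1 y0 y1 n (i, j) := by
  have key : ∀ i : ℤ, x0 - 1 ≤ i →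
      rectS x0 x1 y0 y1 n i (j - 1) - rectS x0 x1 y0 y1 n i j = rectNH x0 x1 y0 y1 n (i, j) := by
    intro i hi'
    induction i, hi' using Int.leInduction with
    | base =>
      rw [rectS_west _ _ _ _ _ _ _ (by omega), rectS_west _ _ _ _ _ _ _ (by omega), rectNH_zero]
      · ring
      · simp only [rectH, Finset.mem_product, Finset.mem_Ico, Finset.mem_Icc]; omega
    | succ i hi2 ih =>
      rw [rectS_succ _ _ _ _ _ _ _ (by omega), rectS_succ _ _ _ _ _ _ _ (by omega)]
      have := rect_div_all x0 x1 y0 y1 n hn (i + 1) j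
      rw [add_sub_cancel_right] at this
      linarith
  by_cases hi : i < x0
  · rw [rectS_west _ _ _ _ _ _ _ hi, rectS_west _ _ _ _ _ _ _ hi, rectNH_zero]
    · ring
    · simp only [rectH, Finset.mem_product, Finset.mem_Ico, Finset.mem_Icc]; omega
  · exact key i (by omega)

theorem rectS_east (n : (rectG x0 x1 y0 y1).E → ℤ) (hn : (rectG x0 x1 y0 y1).div n = 0) (i j : ℤ) (hi : x1 ≤ i) :
    rectS x0 x1 y0 y1 n i j = 0 := by
  have key : ∀ j : ℤ, y0 - 1 ≤ j → rectS x0 x1 y0 y1 n i j = 0 := by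
    intro j hj
    induction j, hj using Int.leInduction with
    | base => exact rectS_row _ _ _ _ _ _ _ (Or.inl (by omega))
    | succ j hj2 ih =>
      have h1 := rectS_diff x0 x1 y0 y1 n hn i (j + 1)
      rw [add_sub_cancel_right, ih, rectNH_zero] at h1
      · linarith
      · simp only [rectH, Finset.mem_product, Finset.mem_Ico, Finset.mem_Icc]; omega
  by_cases hj : j < y0
  · exact rectS_row _ _ _ _ _ _ _ (Or.inl hj)
  · exact key j (by omega)

theorem rectS_out (n : (rectG x0 x1 y0 y1).E → ℤ) (hn : (rectG x0 x1 y0 y1).div n = 0) (p : ℤ × ℤ)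
    (hp : p ∉ rectF x0 x1 y0 y1) : rectS x0 x1 y0 y1 n p.1 p.2 = 0 := by
  simp only [rectF, Finset.mem_product, Finset.mem_Ico] at hp
  by_cases h1 : p.1 < x0
  · exact rectS_west _ _ _ _ _ _ _ h1
  by_cases h2 : x1 ≤ p.1
  · exact rectS_east _ _ _ _ _ hn _ _ h2
  · exact rectS_row _ _ _ _ _ _ _ (by omega)

/-- the height function of a divergence free flow. -/
def rectHt (n : (rectG x0 x1 y0 y1).E → ℤ) : (rectD x0 x1 y0 y1).V → ℤ :=
  fun o => o.elim 0 fun p => - rectS x0 x1 y0 y1 n p.1.1 p.1.2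

theorem rectHt_face (n : (rectG x0 x1 y0 y1).E → ℤ) (hn : (rectG x0 x1 y0 y1).div n = 0) (p : ℤ × ℤ) :
    rectHt x0 x1 y0 y1 n (rectFace x0 x1 y0 y1 p) = - rectS x0 x1 y0 y1 n p.1 p.2 := by
  by_cases hp : p ∈ rectF x0 x1 y0 y1
  · rw [rectFace_some _ _ _ _ hp]
    rfl
  · rw [rectFace_none _ _ _ _ hp, rectS_out _ _ _ _ _ hn _ hp]
    rfl

theorem rectHt_grad (n : (rectG x0 x1 y0 y1).E → ℤ) (hn : (rectG x0 x1 y0 y1).div n = 0) :
    (rectD x0 x1 y0 y1).grad (rectHt x0 x1 y0 y1 n) = n := by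
  funext e
  rcases e with p | p
  · show rectHt x0 x1 y0 y1 n (rectFace x0 x1 y0 y1 p.1) - rectHt x0 x1 y0 y1 n (rectFace x0 x1 y0 y1 (p.1.1, p.1.2 - 1)) = _
    rw [rectHt_face _ _ _ _ _ hn, rectHt_face _ _ _ _ _ hn]
    have h1 := rectS_diff x0 x1 y0 y1 n hn p.1.1 p.1.2
    have h2 : rectNH x0 x1 y0 y1 n (p.1.1, p.1.2) = n (Sum.inl p) := dif_pos p.2
    rw [h2] at h1
    rw [← h1]
    ring
  · show rectHt x0 x1 y0 y1 n (rectFace x0 x1 y0 y1 (p.1.1 - 1, p.1.2)) - rectHt x0 x1 y0 y1 n (rectFace x0 x1 y0 y1 p.1) = _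
    rw [rectHt_face _ _ _ _ _ hn, rectHt_face _ _ _ _ _ hn]
    have hp := p.2
    simp only [rectV, Finset.mem_product, Finset.mem_Ico, Finset.mem_Icc] at hp
    have h1 := rectS_succ x0 x1 y0 y1 n (p.1.1 - 1) p.1.2 (by omega)
    rw [sub_add_cancel] at h1
    have h2 : rectNV x0 x1 y0 y1 n (p.1.1, p.1.2) = n (Sum.inr p) := dif_pos p.2
    rw [h2] at h1
    show - rectS x0 x1 y0 y1 n (p.1.1 - 1) p.1.2 - - rectS x0 x1 y0 y1 n p.1.1 p.1.2 = _
    rw [h1]
    ring

/-- a dual height is determined by its gradient and its value on the exterior face. -/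
theorem rect_grad_inj (h h' : (rectD x0 x1 y0 y1).V → ℤ) (h0 : h none = h' none)
    (hg : (rectD x0 x1 y0 y1).grad h = (rectD x0 x1 y0 y1).grad h') : h = h' := by
  have key : ∀ j : ℤ, ∀ i : ℤ, x0 - 1 ≤ i → h (rectFace x0 x1 y0 y1 (i, j)) = h' (rectFace x0 x1 y0 y1 (i, j)) := by
    intro j i hi
    induction i, hi using Int.leInduction with
    | base =>
      rw [rectFace_none, h0]
      simp only [rectF, Finset.mem_product, Finset.mem_Ico]; omega
    | succ i hi2 ih =>
      by_cases hp : (i + 1, j) ∈ rectF x0 x1 y0 y1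
      · have hp2 : (i + 1, j) ∈ rectV x0 x1 y0 y1 := by
          simp only [rectF, rectV, Finset.mem_product, Finset.mem_Ico, Finset.mem_Icc] at *; omega
        have h1 := congrFun hg (Sum.inr ⟨(i + 1, j), hp2⟩)
        have h2 : h (rectFace x0 x1 y0 y1 (i + 1 - 1, j)) - h (rectFace x0 x1 y0 y1 (i + 1, j))
            = h' (rectFace x0 x1 y0 y1 (i + 1 - 1, j)) - h' (rectFace x0 x1 y0 y1 (i + 1, j)) := h1
        rw [add_sub_cancel_right, ih] at h2
        linarith
      · rw [rectFace_none _ _ _ _ hp, h0]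
  funext o
  rcases o with _ | p
  · exact h0
  · have hp := p.2
    simp only [rectF, Finset.mem_product, Finset.mem_Ico] at hp
    have := key p.1.2 p.1.1 (by omega)
    rw [rectFace_some _ _ _ _ (show (p.1.1, p.1.2) ∈ rectF x0 x1 y0 y1 from p.2)] at this
    exact this

/-- XY-D-5 (**discrete Poincare lemma**).  Existence: `h(i,j) = - ∑_{i' ∈ [x0, i]} n(vertical edge at (i',j))` [dual path from the west], `h none = 0`;
the vertical edges are right by construction (for `i = x1` one needs `∑_{i' ∈ [x0,x1]} n_v(i',j) = 0`: sum of `div n` over the rows `≤ j`); horizontal edges: `h(i,j) - h(i,j-1)` telescopes by `div n = 0` on the vertices `(i',j)`, `i' ≤ i`.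
(Fix the sign so that `n = grad h` in the conventions of `rectD`.)  Uniqueness: the dual graph is connected to `none` (induction on `i` from the west). -/
theorem rect_poincare (n : (rectG x0 x1 y0 y1).E → ℤ) (hn : (rectG x0 x1 y0 y1).div n = 0) :
    ∃! h : (rectD x0 x1 y0 y1).V → ℤ, h none = 0 ∧ (rectD x0 x1 y0 y1).grad h = n := by
  refine ⟨rectHt x0 x1 y0 y1 n, ⟨rfl, rectHt_grad x0 x1 y0 y1 n hn⟩, ?_⟩
  rintro h ⟨h0, hg⟩
  apply rect_grad_inj x0 x1 y0 y1 h _ h0
  rw [hg, rectHt_grad x0 x1 y0 y1 n hn]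

/-- the bijection `h ↦ grad h + τ`. -/
def rectEqv (τ : (rectD x0 x1 y0 y1).E → ℤ) :
    (rectD x0 x1 y0 y1).Conf {none} ≃ {n : (rectG x0 x1 y0 y1).E → ℤ // (rectG x0 x1 y0 y1).div n = (rectG x0 x1 y0 y1).div τ} where
  toFun h := ⟨(rectD x0 x1 y0 y1).grad h.1 + τ, by
    rw [HGraph.div_add, rect_div_grad, zero_add]⟩
  invFun n := ⟨rectHt x0 x1 y0 y1 (n.1 - τ), by
    intro v hv
    rw [Set.mem_singleton_iff.1 hv]
    rfl⟩
  left_inv h := by
    apply Subtype.ext
    show rectHt x0 x1 y0 y1 ((rectD x0 x1 y0 y1).grad h.1 + τ - τ) = h.1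
    rw [add_sub_cancel_right]
    apply rect_grad_inj
    · exact (h.2 none rfl).symm
    · exact rectHt_grad x0 x1 y0 y1 _ (rect_div_grad x0 x1 y0 y1 h.1)
  right_inv n := by
    apply Subtype.ext
    show (rectD x0 x1 y0 y1).grad (rectHt x0 x1 y0 y1 (n.1 - τ)) + τ = n.1
    rw [rectHt_grad x0 x1 y0 y1 _ (by rw [HGraph.div_sub, n.2, sub_self]), sub_add_cancel]

/-- XY-D-6: the height partition sum of `Top.lean` is a flow sum (bijection `h ↦ grad h + τ` from `Conf {none}` onto `{div n = div τ}`: `rect_div_grad`, `rect_poincare`; the penalty is `exp 0 = 1`). -/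
theorem rect_Zs_eq (b : ℝ) (τ : (rectD x0 x1 y0 y1).E → ℤ) :
    (rectD x0 x1 y0 y1).Zs b {none} τ 0 (fun _ => 1) = (rectG x0 x1 y0 y1).flowSum b ((rectG x0 x1 y0 y1).div τ) := by
  unfold HGraph.flowSum HGraph.Zs
  rw [← (rectEqv x0 x1 y0 y1 τ).tsum_eq]
  apply tsum_congr
  intro h
  simp only [Pi.zero_apply, neg_zero, zero_div, Real.exp_zero, mul_one, one_mul]
  rfl

/-- the lattice of the dual height law IS the lattice of divergence free flows. -/
theorem rect_lattice_eq (b : ℝ) :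
    ((HLaw.plain (rectD x0 x1 y0 y1) {none}).sys b).L = (rectG x0 x1 y0 y1).flowL := by
  ext z
  constructor
  · intro hz
    obtain ⟨h, hh, rfl⟩ := AddSubgroup.mem_map.1 hz
    exact rect_div_grad x0 x1 y0 y1 h
  · intro hz
    have hz' : (rectG x0 x1 y0 y1).div z.1 = 0 := hz
    apply AddSubgroup.mem_map.2
    refine ⟨rectHt x0 x1 y0 y1 z.1, ?_, ?_⟩
    · intro v hv
      rw [Set.mem_singleton_iff.1 hv]
      rfl
    · apply Prod.ext
      · exact rectHt_grad x0 x1 y0 y1 z.1 hz'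
      · funext o
        exact o.elim

theorem rect_energy_eq (b : ℝ) (θ : latRect x0 x1 y0 y1 → ℝ) :
    xyEn (rectG x0 x1 y0 y1).dvec (fun _ => b) θ = xyEn xyBond (latJ b (latRect x0 x1 y0 y1)) θ := by
  obtain ⟨t, ht⟩ : ∃ t : ℤ × ℤ → ℝ, ∀ x : latRect x0 x1 y0 y1, θ x = t x.1 :=
    ⟨fun p => if h : p ∈ latRect x0 x1 y0 y1 then θ ⟨p, h⟩ else 0, fun x => by simp only [dif_pos x.2]⟩
  unfold xyEn
  simp only [HGraph.dvec, xyBond, xyPh_sub, xyPh_del, ht]
  rw [Fintype.sum_sum_type, Fintype.sum_prod_type]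
  show (∑ a : rectH x0 x1 y0 y1, b * Real.cos (t a.1 - t (a.1.1 + 1, a.1.2)))
      + (∑ a : rectV x0 x1 y0 y1, b * Real.cos (t a.1 - t (a.1.1, a.1.2 + 1)))
    = ∑ x : latRect x0 x1 y0 y1, ∑ y : latRect x0 x1 y0 y1,
        (if latAdj x.1 y.1 then b / 2 else 0) * Real.cos (t x.1 - t y.1)
  rw [Finset.sum_coe_sort (rectH x0 x1 y0 y1) (fun p => b * Real.cos (t p - t (p.1 + 1, p.2))),
    Finset.sum_coe_sort (rectV x0 x1 y0 y1) (fun p => b * Real.cos (t p - t (p.1, p.2 + 1)))]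
  have i1 : ∀ x : ℤ × ℤ, ∑ y : latRect x0 x1 y0 y1, (if latAdj x y.1 then b / 2 else 0) * Real.cos (t x - t y.1)
      = ∑ y ∈ latRect x0 x1 y0 y1, (if latAdj x y then b / 2 else 0) * Real.cos (t x - t y) := fun x =>
    Finset.sum_coe_sort (latRect x0 x1 y0 y1) (fun y => (if latAdj x y then b / 2 else 0) * Real.cos (t x - t y))
  simp_rw [i1]
  rw [Finset.sum_coe_sort (latRect x0 x1 y0 y1)
    (fun x => ∑ y ∈ latRect x0 x1 y0 y1, (if latAdj x y then b / 2 else 0) * Real.cos (t x - t y))]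
  simp_rw [lat_adj_split]
  simp_rw [Finset.sum_add_distrib]
  rw [Finset.sum_comm (f := fun x y : ℤ × ℤ => if x = (y.1 + 1, y.2) then b / 2 * Real.cos (t y - t x) else 0),
    Finset.sum_comm (f := fun x y : ℤ × ℤ => if x = (y.1, y.2 + 1) then b / 2 * Real.cos (t y - t x) else 0)]
  simp_rw [Finset.sum_ite_eq']
  rw [← Finset.sum_filter, ← Finset.sum_filter]
  have f1 : (latRect x0 x1 y0 y1).filter (fun x => (x.1 + 1, x.2) ∈ latRect x0 x1 y0 y1) = rectH x0 x1 y0 y1 := by
    ext p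
    simp only [rectH, latRect, Finset.mem_filter, Finset.mem_product, Finset.mem_Ico, Finset.mem_Icc]
    omega
  have f2 : (latRect x0 x1 y0 y1).filter (fun x => (x.1, x.2 + 1) ∈ latRect x0 x1 y0 y1) = rectV x0 x1 y0 y1 := by
    ext p
    simp only [rectV, latRect, Finset.mem_filter, Finset.mem_product, Finset.mem_Ico, Finset.mem_Icc]
    omega
  rw [f1, f2]
  simp_rw [← Finset.mul_sum]
  ring

/-- XY-D-7: the graph `rectG` is the induced subgraph of `ℤ²`: `∑_e b cos(θ_src - θ_tgt) = ∑_{(x,y)} latJ b Λ (x,y) cos(θ_x - θ_y)` (each bond once vs. twice with `b/2`), hence equal integrals. -/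
theorem rect_spinCh_eq (b : ℝ) (m : latRect x0 x1 y0 y1 → ℤ) :
    (rectG x0 x1 y0 y1).spinCh b m = xyCh (latJ b (latRect x0 x1 y0 y1)) m := by
  have e : xyEn (rectG x0 x1 y0 y1).dvec (fun _ => b) = xyEn xyBond (latJ b (latRect x0 x1 y0 y1)) :=
    funext fun θ => rect_energy_eq x0 x1 y0 y1 b θ
  unfold HGraph.spinCh xyCh xyChar xyEx xyPart xyInt
  rw [e]

/-- **free boundary duality for an arbitrary integral connection** `τ`: the shifted-to-centred ratio is the spin character with charges `div τ`. -/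
theorem xy_duality_rect_ch (b : ℝ) (hb : 0 ≤ b) (τ : (rectD x0 x1 y0 y1).E → ℤ) :
    xyCh (latJ b (latRect x0 x1 y0 y1)) ((rectG x0 x1 y0 y1).div τ) = (rectD x0 x1 y0 y1).ratio b {none} τ := by
  have e0 : (rectG x0 x1 y0 y1).div (0 : (rectD x0 x1 y0 y1).E → ℤ) = 0 := by
    unfold HGraph.div; exact Finset.sum_eq_zero fun e _ => zero_smul _ _
  unfold HGraph.ratio
  rw [← rect_spinCh_eq, xy_flow_ratio _ b hb, rect_Zs_eq, rect_Zs_eq, e0]

/-- **free boundary duality** ([C] Lemma 2.1): `τ` is any integral flow from `u` to `v` (= connection with circulations `±1` around the two sources). -/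
theorem xy_duality_rect (b : ℝ) (hb : 0 ≤ b) (u v : latRect x0 x1 y0 y1) (τ : (rectD x0 x1 y0 y1).E → ℤ)
    (hτ : (rectG x0 x1 y0 y1).div τ = xyDel u - xyDel v) :
    latTwo b (latRect x0 x1 y0 y1) u.1 v.1 = (rectD x0 x1 y0 y1).ratio b {none} τ := by
  have h1 : latTwo b (latRect x0 x1 y0 y1) u.1 v.1 = xyTwo (latJ b (latRect x0 x1 y0 y1)) u v := by
    unfold latTwo; rw [dif_pos ⟨u.2, v.2⟩]
  have e0 : (rectG x0 x1 y0 y1).div (0 : (rectD x0 x1 y0 y1).E → ℤ) = 0 := by
    unfold HGraph.div; exact Finset.sum_eq_zero fun e _ => zero_smul _ _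
  rw [h1]
  unfold xyTwo HGraph.ratio
  rw [← rect_spinCh_eq, xy_flow_ratio _ b hb, rect_Zs_eq, rect_Zs_eq, hτ, e0]

end Rect

/-! ## 3. the frozen box -/

/-- the unit flow along the axis from `(0,0)` to `(r,0)`. -/
def axisTau (R r : ℕ) : (rectD (-(R : ℤ)) R (-(R : ℤ)) R).E → ℤ := fun e =>
  match e with
  | Sum.inl p => if p.1.2 = 0 ∧ 0 ≤ p.1.1 ∧ p.1.1 < r then 1 else 0
  | Sum.inr _ => 0

theorem axisTau_NH (R r : ℕ) (h : r ≤ R) (p : ℤ × ℤ) :
    rectNH (-(R : ℤ)) R (-(R : ℤ)) R (axisTau R r) p = if p.2 = 0 ∧ 0 ≤ p.1 ∧ p.1 < r then 1 else 0 := by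
  unfold rectNH
  by_cases hp : p ∈ rectH (-(R : ℤ)) R (-(R : ℤ)) R
  · rw [dif_pos hp]
    rfl
  · rw [dif_neg hp, if_neg]
    simp only [rectH, Finset.mem_product, Finset.mem_Ico, Finset.mem_Icc] at hp
    omega

theorem axisTau_NV (R r : ℕ) (p : ℤ × ℤ) :
    rectNV (-(R : ℤ)) R (-(R : ℤ)) R (axisTau R r) p = 0 := by
  unfold rectNV
  by_cases hp : p ∈ rectV (-(R : ℤ)) R (-(R : ℤ)) R
  · rw [dif_pos hp]
    rfl
  · rw [dif_neg hp]

/-- XY-D-8: its divergence (telescoping sum). -/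
theorem axisTau_div (R r : ℕ) (h : r ≤ R) (h0 : ((0 : ℤ), (0 : ℤ)) ∈ latRect (-(R : ℤ)) R (-(R : ℤ)) R)
    (hr : ((r : ℤ), (0 : ℤ)) ∈ latRect (-(R : ℤ)) R (-(R : ℤ)) R) :
    (rectG (-(R : ℤ)) R (-(R : ℤ)) R).div (axisTau R r) = xyDel ⟨_, h0⟩ - xyDel ⟨_, hr⟩ := by
  funext v
  rw [rect_div_apply, axisTau_NH R r h, axisTau_NH R r h, axisTau_NV, axisTau_NV]
  obtain ⟨⟨i, j⟩, hv⟩ := v
  simp only [xyDel, Pi.sub_apply, Pi.single_apply, Subtype.mk.injEq, Prod.mk.injEq]
  split_ifs <;> omega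

/-- **the frozen box correlation is a height partition ratio.** -/
theorem xy_duality_box (b : ℝ) (hb : 0 ≤ b) (R r : ℕ) (h : r ≤ R) :
    xyBoxCorr b R r = (rectD (-(R : ℤ)) R (-(R : ℤ)) R).ratio b {none} (axisTau R r) := by
  have h0 : ((0 : ℤ), (0 : ℤ)) ∈ latRect (-(R : ℤ)) R (-(R : ℤ)) R := by
    simp only [latRect, Finset.mem_product, Finset.mem_Icc]; omega
  have hr : ((r : ℤ), (0 : ℤ)) ∈ latRect (-(R : ℤ)) R (-(R : ℤ)) R := by
    simp only [latRect, Finset.mem_product, Finset.mem_Icc]; omega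
  rw [xyBoxCorr_eq b R r h]
  exact xy_duality_rect _ _ _ _ b hb ⟨_, h0⟩ ⟨_, hr⟩ (axisTau R r) (axisTau_div R r h h0 hr)

end

end Claimed.Agent.R285
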