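import Claimed.Agent.R285.Xy.Base

/-!
# ROW 285, XY BASICS 1: the sign-count functional `xyCnt` and the TRAIL LEMMA (owner helper177)

Pure finite combinatorics, paper-free.  `xyCnt l m = 2^{-|l|} #{s ∈ {±1}^l : ∑ s_i l_i = m}`.
For a list of bonds this is the normalised number of ORIENTATIONS of the multigraph `l` with divergence `m`.

**Trail lemma** `xyCntB_trail` (replaces Rivasseau's proof of Lieb's conjecture AND the conditional Ising argument of [E] Lemma 6.1):
if `m u ≥ 1` and `m x ≥ 0` for all `x ∉ B ∪ {u}` then `O(m) ≤ ∑_{z ∈ B} O(2δ_u - 2δ_z - m)`.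
Idea: in an orientation with divergence `m` start a random trail at `u` (always leave through a uniformly chosen unused outgoing bond); it can only get stuck in `B`;
stop it at the first visit of `B`, at `z`, and reverse all bonds NOT on the trail.  In formulas this is the one-step recursion `xyCntB_step` + induction on `|l|`:
 * `u ∈ B`: the term `z = u` is `O(-m) = O(m)`, the other terms are `≥ 0`.
 * `u ∉ B`: `(deg u + m u) O_l(m) = ∑_{i : l_i ∋ u} O_{l∖i}(m - δ_u + δ_{x_i})`; the vector `m' = m - δ_u + δ_x` satisfies the hypotheses with start `x`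
   (`m' x = m x + 1 ≥ 1` if `x ∉ B`; if `x ∈ B` no hypothesis is needed; `m' u = m u - 1 ≥ 0`); induction gives `O_{l∖i}(m') ≤ ∑_z O_{l∖i}(2δ_x - 2δ_z - m')` and `2δ_x - 2δ_z - m' = m''_z - δ_u + δ_x` with
   `m''_z = 2δ_u - 2δ_z - m`; the recursion for `m''_z` (`m''_z u = 2 - m u`, as `z ≠ u`) gives `(deg u + m u) O_l(m) ≤ (deg u + 2 - m u) ∑_z O_l(m''_z) ≤ (deg u + m u) ∑_z O_l(m''_z)`, and `deg u + m u > 0`.
-/

set_option autoImplicit false

namespace Claimed.Agent.R285

noncomputable section

section Gen

variable {V : Type*}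

theorem xyCnt_nonneg (l : List (V → ℤ)) (m : V → ℤ) : 0 ≤ xyCnt l m := by
  induction l generalizing m with
  | nil => unfold xyCnt; split_ifs <;> norm_num
  | cons d l ih => unfold xyCnt; have := ih (m + d); have := ih (m - d); linarith

theorem xyCnt_le_one (l : List (V → ℤ)) (m : V → ℤ) : xyCnt l m ≤ 1 := by
  induction l generalizing m with
  | nil => unfold xyCnt; split_ifs <;> norm_num
  | cons d l ih => unfold xyCnt; have := ih (m + d); have := ih (m - d); linarith

/-- reversal of all signs. -/
theorem xyCnt_neg (l : List (V → ℤ)) (m : V → ℤ) : xyCnt l (-m) = xyCnt l m := by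
  induction l generalizing m with
  | nil => by_cases h : m = 0 <;> simp [xyCnt, h]
  | cons d l ih =>
    unfold xyCnt
    have h1 : -m + d = -(m - d) := by abel
    have h2 : -m - d = -(m + d) := by abel
    rw [h1, h2, ih, ih]; ring

/-- XY-CNT-1: any entry can be split off (induction on `l`; the two splittings commute). -/
theorem xyCnt_erase (l : List (V → ℤ)) (i : Fin l.length) (m : V → ℤ) :
    xyCnt l m = (xyCnt (l.eraseIdx i) (m + l.get i) + xyCnt (l.eraseIdx i) (m - l.get i)) / 2 := by
  induction l generalizing m with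
  | nil => exact i.elim0
  | cons d l ih =>
    refine Fin.cases ?_ (fun j => ?_) i
    · show xyCnt (d :: l) m = (xyCnt l (m + d) + xyCnt l (m - d)) / 2
      rw [xyCnt]
    · show xyCnt (d :: l) m = (xyCnt (d :: l.eraseIdx j) (m + l.get j) + xyCnt (d :: l.eraseIdx j) (m - l.get j)) / 2
      rw [xyCnt, xyCnt, xyCnt, ih j (m + d), ih j (m - d)]
      have e1 : m + d + l.get j = m + l.get j + d := by abel
      have e2 : m + d - l.get j = m - l.get j + d := by abel
      have e3 : m - d + l.get j = m + l.get j - d := by abel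
      have e4 : m - d - l.get j = m - l.get j - d := by abel
      rw [e1, e2, e3, e4]
      ring

/-- XY-CNT-2: "integration by parts": on `{∑ s_i l_i = m}` one has `m u = ∑ s_i l_i u`.
Induction on `l`: for `d :: l`, `m u * cnt (d::l) m = ½[(m+d) u cnt l (m+d) + (m-d) u cnt l (m-d)] - ½ d u [cnt l (m+d) - cnt l (m-d)]`, `Fin.sum_univ_succ`. -/
theorem xyCnt_ibp (l : List (V → ℤ)) (m : V → ℤ) (u : V) :
    (m u : ℝ) * xyCnt l m = ∑ i : Fin l.length, ((l.get i) u : ℝ) *
      ((xyCnt (l.eraseIdx i) (m - l.get i) - xyCnt (l.eraseIdx i) (m + l.get i)) / 2) := by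
  induction l generalizing m with
  | nil =>
    by_cases h : m = 0
    · simp [h]
    · simp [xyCnt, h]
  | cons d l ih =>
    have hs : ∑ i : Fin (d :: l).length, (((d :: l).get i) u : ℝ) *
        ((xyCnt ((d :: l).eraseIdx i) (m - (d :: l).get i) - xyCnt ((d :: l).eraseIdx i) (m + (d :: l).get i)) / 2)
        = (d u : ℝ) * ((xyCnt l (m - d) - xyCnt l (m + d)) / 2) +
          ∑ j : Fin l.length, ((l.get j) u : ℝ) *
            ((xyCnt (d :: l.eraseIdx j) (m - l.get j) - xyCnt (d :: l.eraseIdx j) (m + l.get j)) / 2) :=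
      Fin.sum_univ_succ _
    rw [hs]
    have h1 := ih (m + d)
    have h2 := ih (m - d)
    have hterm : ∀ j : Fin l.length, ((l.get j) u : ℝ) *
        ((xyCnt (d :: l.eraseIdx j) (m - l.get j) - xyCnt (d :: l.eraseIdx j) (m + l.get j)) / 2)
        = (((l.get j) u : ℝ) * ((xyCnt (l.eraseIdx j) (m + d - l.get j) - xyCnt (l.eraseIdx j) (m + d + l.get j)) / 2)
          + ((l.get j) u : ℝ) * ((xyCnt (l.eraseIdx j) (m - d - l.get j) - xyCnt (l.eraseIdx j) (m - d + l.get j)) / 2)) / 2 := by
      intro j
      rw [xyCnt, xyCnt]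
      have e1 : m + d + l.get j = m + l.get j + d := by abel
      have e2 : m + d - l.get j = m - l.get j + d := by abel
      have e3 : m - d + l.get j = m + l.get j - d := by abel
      have e4 : m - d - l.get j = m - l.get j - d := by abel
      rw [e1, e2, e3, e4]
      ring
    rw [Finset.sum_congr rfl fun j _ => hterm j, ← Finset.sum_div, Finset.sum_add_distrib, ← h1, ← h2, xyCnt]
    simp only [Pi.add_apply, Pi.sub_apply]
    push_cast
    ring

/-- XY-CNT-3: an additive invariant which vanishes on all entries vanishes on `m`, or the count is zero. -/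
theorem xyCnt_eq_zero_of_hom (φ : (V → ℤ) →+ ℤ) (l : List (V → ℤ)) (hl : ∀ d ∈ l, φ d = 0) (m : V → ℤ) (hm : φ m ≠ 0) :
    xyCnt l m = 0 := by
  induction l generalizing m with
  | nil =>
    unfold xyCnt
    rw [if_neg]
    rintro rfl
    exact hm (map_zero φ)
  | cons d l ih =>
    unfold xyCnt
    have hd : φ d = 0 := hl d (by simp)
    have hl' : ∀ d' ∈ l, φ d' = 0 := fun d' h => hl d' (by simp [h])
    rw [ih hl' (m + d) (by rw [map_add, hd, add_zero]; exact hm), ih hl' (m - d) (by rw [map_sub, hd, sub_zero]; exact hm)]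
    simp

/-- XY-CNT-4: transport along an injective additive map. -/
theorem xyCnt_map {W : Type*} (φ : (V → ℤ) →+ (W → ℤ)) (hφ : Function.Injective φ) (l : List (V → ℤ)) (m : V → ℤ) :
    xyCnt (l.map φ) (φ m) = xyCnt l m := by
  induction l generalizing m with
  | nil =>
    have : φ m = 0 ↔ m = 0 := by rw [← map_zero φ]; exact hφ.eq_iff
    by_cases h : m = 0 <;> simp [xyCnt, h, this]
  | cons d l ih =>
    simp only [List.map_cons]
    unfold xyCnt
    rw [← map_add, ← map_sub, ih, ih]

/-- the diagonal count is positive. -/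
theorem xyCnt_single_pos (d : V → ℤ) : 0 < xyCnt [d] d := by
  unfold xyCnt
  have h := xyCnt_nonneg ([] : List (V → ℤ)) (d + d)
  have h2 : xyCnt ([] : List (V → ℤ)) (d - d) = 1 := by unfold xyCnt; simp
  rw [h2]; linarith

end Gen

section Bond

variable {V : Type*} [DecidableEq V]

theorem xyCntB_nonneg (l : List (V × V)) (m : V → ℤ) : 0 ≤ xyCntB l m := xyCnt_nonneg _ _

theorem xyCntB_neg (l : List (V × V)) (m : V → ℤ) : xyCntB l (-m) = xyCntB l m := xyCnt_neg _ _

/-- `p` is a bond at `u` which is not a loop. -/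
def xyAt (u : V) (p : V × V) : Prop := p.1 ≠ p.2 ∧ (p.1 = u ∨ p.2 = u)

instance (u : V) (p : V × V) : Decidable (xyAt u p) := by unfold xyAt; infer_instance

/-- the other end of a bond at `u`. -/
def xyOther (u : V) (p : V × V) : V := if p.1 = u then p.2 else p.1

/-- the degree of `u` in the multigraph `l` (loops are not counted). -/
def xyDeg (l : List (V × V)) (u : V) : ℕ := (Finset.univ.filter fun i : Fin l.length => xyAt u (l.get i)).card

/-- `xyCnt_erase` for lists of bonds. -/
theorem xyCntB_erase (l : List (V × V)) (i : Fin l.length) (m : V → ℤ) :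
    xyCntB l m = (xyCntB (l.eraseIdx i) (m + xyBond (l.get i)) + xyCntB (l.eraseIdx i) (m - xyBond (l.get i))) / 2 := by
  unfold xyCntB
  have h := xyCnt_erase (l.map xyBond) (i.cast (List.length_map xyBond).symm) m
  rw [h]
  simp only [Fin.val_cast, List.eraseIdx_map, List.get_eq_getElem, List.getElem_map]

/-- `xyCnt_ibp` for lists of bonds. -/
theorem xyCntB_ibp (l : List (V × V)) (m : V → ℤ) (u : V) :
    (m u : ℝ) * xyCntB l m = ∑ i : Fin l.length, (xyBond (l.get i) u : ℝ) *
      ((xyCntB (l.eraseIdx i) (m - xyBond (l.get i)) - xyCntB (l.eraseIdx i) (m + xyBond (l.get i))) / 2) := by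
  unfold xyCntB
  rw [xyCnt_ibp (l.map xyBond) m u]
  refine Fintype.sum_equiv (finCongr (List.length_map xyBond)) _ _ ?_
  intro i
  simp only [finCongr_apply, Fin.val_cast, List.eraseIdx_map, List.get_eq_getElem, List.getElem_map]

/-- XY-CNT-5: the one-step recursion (choose the first bond of the trail).  From `xyCnt_erase` (summed over the bonds at `u`) plus `xyCnt_ibp`:
a bond `(u,x)` has `d u = 1` and `cnt l m + ½[cnt(m-d) - cnt(m+d)] = cnt_{l∖i}(m - d)`, `m - d = m - δ_u + δ_x`;
a bond `(x,u)` has `d u = -1` and `cnt l m - ½[cnt(m-d) - cnt(m+d)] = cnt_{l∖i}(m + d)`, `m + d = m - δ_u + δ_x`;  all other bonds have `d u = 0`. -/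
theorem xyCntB_step (l : List (V × V)) (m : V → ℤ) (u : V) :
    ((xyDeg l u : ℝ) + (m u : ℝ)) * xyCntB l m =
      ∑ i : Fin l.length, if xyAt u (l.get i) then
        xyCntB (l.eraseIdx i) (m - xyDel u + xyDel (xyOther u (l.get i))) else 0 := by
  have hdeg : (xyDeg l u : ℝ) * xyCntB l m = ∑ i : Fin l.length, if xyAt u (l.get i) then
      (xyCntB (l.eraseIdx i) (m + xyBond (l.get i)) + xyCntB (l.eraseIdx i) (m - xyBond (l.get i))) / 2 else 0 := by
    unfold xyDeg
    rw [Finset.card_filter]
    push_cast
    rw [Finset.sum_mul]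
    apply Finset.sum_congr rfl
    intro i _
    split_ifs with h
    · rw [one_mul]
      exact xyCntB_erase l i m
    · rw [zero_mul]
  rw [add_mul, hdeg, xyCntB_ibp l m u, ← Finset.sum_add_distrib]
  apply Finset.sum_congr rfl
  intro i _
  obtain ⟨p, hp⟩ : ∃ p, p = l.get i := ⟨_, rfl⟩
  rw [← hp]
  obtain ⟨a, b⟩ := p
  by_cases hat : xyAt u (a, b)
  · rw [if_pos hat, if_pos hat]
    obtain ⟨hne, hor⟩ := hat
    simp only at hne hor
    by_cases ha : a = u
    · subst ha
      have hd : xyBond (a, b) a = 1 := by
        simp [xyBond, xyDel, Pi.single_apply, hne]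
      have ho : xyOther a (a, b) = b := by simp [xyOther]
      have hv : m - xyDel a + xyDel b = m - xyBond (a, b) := by
        unfold xyBond
        simp only
        abel
      rw [hd, ho, hv]
      push_cast
      ring
    · have hb : b = u := by
        rcases hor with h | h
        · exact absurd h ha
        · exact h
      subst hb
      have hd : xyBond (a, b) b = -1 := by
        simp [xyBond, xyDel, Pi.single_apply, hne]
      have ho : xyOther b (a, b) = a := by simp [xyOther, ha]
      have hv : m - xyDel b + xyDel a = m + xyBond (a, b) := by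
        unfold xyBond
        simp only
        abel
      rw [hd, ho, hv]
      push_cast
      ring
  · rw [if_neg hat, if_neg hat]
    have hd : xyBond (a, b) u = 0 := by
      unfold xyAt at hat
      simp only at hat
      by_cases hab : a = b
      · subst hab
        simp [xyBond]
      · have h2 : ¬ (a = u ∨ b = u) := fun h => hat ⟨hab, h⟩
        push Not at h2
        simp [xyBond, xyDel, Pi.single_apply, h2.1.symm, h2.2.symm]
    rw [hd]
    simp

/-- XY-CNT-6: **the trail lemma** (proof in the header; strong induction on `l.length`, from `xyCntB_step`, `xyCntB_neg`, `xyCntB_nonneg`). -/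
theorem xyCntB_trail (B : Finset V) (l : List (V × V)) (u : V) (m : V → ℤ) (hu : u ∈ B ∨ 1 ≤ m u)
    (hm : ∀ x, x ∉ B → x ≠ u → 0 ≤ m x) :
    xyCntB l m ≤ ∑ z ∈ B, xyCntB l (2 • xyDel u - 2 • xyDel z - m) := by
  induction hn : l.length using Nat.strong_induction_on generalizing l u m with
  | _ n ih =>
  by_cases huB : u ∈ B
  · have h1 : xyCntB l (2 • xyDel u - 2 • xyDel u - m) = xyCntB l m := by
      rw [sub_self, zero_sub, xyCntB_neg]
    rw [← h1]
    exact Finset.single_le_sum (f := fun z => xyCntB l (2 • xyDel u - 2 • xyDel z - m))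
      (fun z _ => xyCntB_nonneg _ _) huB
  · have hmu : 1 ≤ m u := by
      rcases hu with h | h
      · exact absurd h huB
      · exact h
    have hmuR : (1 : ℝ) ≤ (m u : ℝ) := by exact_mod_cast hmu
    have hpos : (0 : ℝ) < (xyDeg l u : ℝ) + (m u : ℝ) := by
      have : (0 : ℝ) ≤ (xyDeg l u : ℝ) := Nat.cast_nonneg _
      linarith
    -- one term
    have hterm : ∀ i : Fin l.length, (if xyAt u (l.get i) then
        xyCntB (l.eraseIdx i) (m - xyDel u + xyDel (xyOther u (l.get i))) else 0)
        ≤ ∑ z ∈ B, (if xyAt u (l.get i) then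
          xyCntB (l.eraseIdx i) ((2 • xyDel u - 2 • xyDel z - m) - xyDel u + xyDel (xyOther u (l.get i))) else 0) := by
      intro i
      by_cases hat : xyAt u (l.get i)
      · simp only [if_pos hat]
        obtain ⟨x, hx⟩ : ∃ x, x = xyOther u (l.get i) := ⟨_, rfl⟩
        have hxu : x ≠ u := by
          rw [hx]
          obtain ⟨hne, hor⟩ := hat
          unfold xyOther
          split_ifs with h
          · rw [← h]
            exact fun h' => hne h'.symm
          · exact h
        rw [← hx]
        have hlen : (l.eraseIdx i).length < n := by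
          rw [List.length_eraseIdx_of_lt i.2, hn]
          have := i.2
          omega
        have hdu : xyDel u x = 0 := by simp [xyDel, hxu]
        have hdx : xyDel x x = 1 := by simp [xyDel]
        have key := ih _ hlen (l.eraseIdx i) x (m - xyDel u + xyDel x) ?_ ?_ rfl
        · refine key.trans (le_of_eq ?_)
          apply Finset.sum_congr rfl
          intro z _
          congr 1
          have e2 : (2 : ℕ) • xyDel x = xyDel x + xyDel x := two_nsmul _
          have e3 : (2 : ℕ) • xyDel u = xyDel u + xyDel u := two_nsmul _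
          rw [e2, e3]
          abel
        · by_cases hxB : x ∈ B
          · exact Or.inl hxB
          · right
            have := hm x hxB hxu
            simp only [Pi.add_apply, Pi.sub_apply, hdu, hdx]
            omega
        · intro y hyB hyx
          have hdxy : xyDel x y = 0 := by simp [xyDel, hyx]
          by_cases hyu : y = u
          · subst hyu
            have : xyDel y y = 1 := by simp [xyDel]
            simp only [Pi.add_apply, Pi.sub_apply, hdxy, this]
            omega
          · have h0 : xyDel u y = 0 := by simp [xyDel, hyu]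
            have := hm y hyB hyu
            simp only [Pi.add_apply, Pi.sub_apply, hdxy, h0]
            omega
      · simp only [if_neg hat]
        simp
    have hstep := xyCntB_step l m u
    have hsum : ((xyDeg l u : ℝ) + (m u : ℝ)) * xyCntB l m
        ≤ ∑ z ∈ B, ((xyDeg l u : ℝ) + ((2 • xyDel u - 2 • xyDel z - m) u : ℤ)) * xyCntB l (2 • xyDel u - 2 • xyDel z - m) := by
      rw [hstep]
      refine (Finset.sum_le_sum fun i _ => hterm i).trans (le_of_eq ?_)
      rw [Finset.sum_comm]
      apply Finset.sum_congr rfl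
      intro z _
      rw [xyCntB_step l _ u]
    have hz : ∀ z ∈ B, ((xyDeg l u : ℝ) + ((2 • xyDel u - 2 • xyDel z - m) u : ℤ)) * xyCntB l (2 • xyDel u - 2 • xyDel z - m)
        ≤ ((xyDeg l u : ℝ) + (m u : ℝ)) * xyCntB l (2 • xyDel u - 2 • xyDel z - m) := by
      intro z hzB
      apply mul_le_mul_of_nonneg_right _ (xyCntB_nonneg _ _)
      have hzu : u ≠ z := fun h => huB (h ▸ hzB)
      have h1 : xyDel u u = 1 := by simp [xyDel]
      have h2 : xyDel z u = 0 := by simp [xyDel, hzu]
      have h3 : (2 • xyDel u - 2 • xyDel z - m) u = 2 - m u := by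
        simp only [Pi.sub_apply, Pi.smul_apply, h1, h2]
        simp
      rw [h3]
      push_cast
      linarith
    have hfin := hsum.trans (Finset.sum_le_sum hz)
    rw [← Finset.mul_sum] at hfin
    exact le_of_mul_le_mul_left hfin hpos

/-- neutrality: bonds have total charge zero. -/
theorem xyCntB_eq_zero_of_sum [Fintype V] (l : List (V × V)) (m : V → ℤ) (hm : ∑ v, m v ≠ 0) : xyCntB l m = 0 := by
  let φ : (V → ℤ) →+ ℤ :=
    { toFun := fun m => ∑ v, m v
      map_zero' := by simp
      map_add' := fun a b => by simp [Finset.sum_add_distrib] }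
  refine xyCnt_eq_zero_of_hom φ _ ?_ m hm
  intro d hd
  obtain ⟨p, -, rfl⟩ := List.mem_map.1 hd
  show ∑ v, xyBond p v = 0
  simp [xyBond, xyDel, Finset.sum_sub_distrib, Pi.single_apply]

/-- a charge at a vertex which no bond of `l` touches kills the count. -/
theorem xyCntB_eq_zero_of_isolated (l : List (V × V)) (w : V) (hl : ∀ p ∈ l, p.1 ≠ w ∧ p.2 ≠ w) (m : V → ℤ) (hm : m w ≠ 0) :
    xyCntB l m = 0 := by
  let φ : (V → ℤ) →+ ℤ :=
    { toFun := fun m => m w
      map_zero' := rfl
      map_add' := fun a b => rfl }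
  refine xyCnt_eq_zero_of_hom φ _ ?_ m hm
  intro d hd
  obtain ⟨p, hp, rfl⟩ := List.mem_map.1 hd
  show xyBond p w = 0
  have := hl p hp
  simp [xyBond, xyDel, this.1.symm, this.2.symm]

end Bond

end

end Claimed.Agent.R285
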