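import Claimed.Agent.R285.Xy.Cnt

/-!
# ROW 285, XY BASICS 2: the analytic kit (owner helper177)

Everything the correlation inequalities need from analysis; paper-free, Mathlib only.
 * `xy_exp_hasSum`, `xy_exp_pos`, `xy_exp_zero`: expansion of `exp(∑ a_e c_e)` under an integral (abstract finite measure space).
 * `xy_int_cos`, `xy_int_sin`, `xy_int_mono_cos`, `xy_int_mono_sin`: integrals of trigonometric monomials `= (2π)^|V| xyCnt`.
 * `xy_dup`: Ginibre's change of variables `(θ,θ') = (x+y, x-y)` on the torus.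
 * `xy_reflect`: reflection of one angle.
-/

set_option autoImplicit false

namespace Claimed.Agent.R285

open MeasureTheory Filter Topology

noncomputable section

/-! ## 1. expansion of the exponential -/

section Exp

variable {Ω : Type*} [MeasurableSpace Ω] (μ : Measure Ω) [IsFiniteMeasure μ] {E : Type*} [Fintype E]

omit [IsFiniteMeasure μ] [Fintype E] in
/-- a monomial in the `c_e` times `g` is integrable. -/
theorem xy_exp_mono_integrable (c : E → Ω → ℝ) (hc : ∀ e, Measurable (c e)) (hc1 : ∀ e ω, |c e ω| ≤ 1)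
    (g : Ω → ℝ) (hg : Integrable g μ) (l : List E) :
    Integrable (fun ω => (l.map fun e => c e ω).prod * g ω) μ := by
  induction l with
  | nil => simpa using hg
  | cons e l ih =>
    have : (fun ω => ((e :: l).map fun e => c e ω).prod * g ω)
        = fun ω => c e ω * ((l.map fun e => c e ω).prod * g ω) := by
      funext ω
      simp [mul_assoc]
    rw [this]
    exact ih.bdd_mul (c := 1) (hc e).aestronglyMeasurable
      (Filter.Eventually.of_forall fun ω => by simpa using hc1 e ω)

/-- XY-AN-1.  `exp(∑ a_e c_e) = ∑_k (1/k!) ∑_{f : Fin k → E} ∏_i a_{f i} c_{f i}` (`Finset.sum_pow'`/`Finset.prod_univ_sum`, `Real.hasSum_exp`...), and the sum is exchanged with the integral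
(`hasSum_integral_of_summable_integral_norm`; the `k`-th term is bounded by `(∑|a_e|)^k / k! * |g|`). -/
theorem xy_exp_hasSum (c : E → Ω → ℝ) (hc : ∀ e, Measurable (c e)) (hc1 : ∀ e ω, |c e ω| ≤ 1) (a : E → ℝ)
    (g : Ω → ℝ) (hg : Integrable g μ) :
    HasSum (fun k : ℕ => (1 / (k.factorial : ℝ)) * ∑ f : Fin k → E,
        (∏ i, a (f i)) * ∫ ω, ((List.ofFn f).map fun e => c e ω).prod * g ω ∂μ)
      (∫ ω, Real.exp (∑ e, a e * c e ω) * g ω ∂μ) := by
  obtain ⟨A, hA⟩ : ∃ A : ℝ, A = ∑ e, |a e| := ⟨_, rfl⟩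
  have hA0 : 0 ≤ A := by rw [hA]; exact Finset.sum_nonneg fun e _ => abs_nonneg _
  have hs : ∀ ω, |∑ e, a e * c e ω| ≤ A := by
    intro ω
    rw [hA]
    refine (Finset.abs_sum_le_sum_abs _ _).trans (Finset.sum_le_sum fun e _ => ?_)
    rw [abs_mul]
    exact mul_le_of_le_one_right (abs_nonneg _) (hc1 e ω)
  have hsm : Measurable fun ω => ∑ e, a e * c e ω :=
    Finset.measurable_sum _ fun e _ => (hc e).const_mul _
  -- the terms
  have hFb : ∀ (k : ℕ) (ω : Ω), ‖(∑ e, a e * c e ω) ^ k / (k.factorial : ℝ)‖ ≤ A ^ k / (k.factorial : ℝ) := by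
    intro k ω
    rw [norm_div, norm_pow, Real.norm_eq_abs, Real.norm_of_nonneg (by positivity : (0 : ℝ) ≤ (k.factorial : ℝ))]
    exact div_le_div_of_nonneg_right (pow_le_pow_left₀ (abs_nonneg _) (hs ω) k) (by positivity)
  have hFint : ∀ k : ℕ, Integrable (fun ω => (∑ e, a e * c e ω) ^ k / (k.factorial : ℝ) * g ω) μ := by
    intro k
    exact hg.bdd_mul (c := A ^ k / (k.factorial : ℝ)) ((hsm.pow_const k).div_const _).aestronglyMeasurable
      (Filter.Eventually.of_forall (hFb k))
  have hsum : Summable fun k : ℕ => ∫ ω, ‖(∑ e, a e * c e ω) ^ k / (k.factorial : ℝ) * g ω‖ ∂μ := by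
    refine Summable.of_nonneg_of_le (fun k => integral_nonneg fun ω => norm_nonneg _) (fun k => ?_)
      ((Real.summable_pow_div_factorial A).mul_right (∫ ω, ‖g ω‖ ∂μ))
    rw [← integral_const_mul]
    refine integral_mono (hFint k).norm (hg.norm.const_mul _) fun ω => ?_
    show ‖(∑ e, a e * c e ω) ^ k / (k.factorial : ℝ) * g ω‖ ≤ A ^ k / (k.factorial : ℝ) * ‖g ω‖
    rw [norm_mul]
    exact mul_le_mul_of_nonneg_right (hFb k ω) (norm_nonneg _)
  have key := hasSum_integral_of_summable_integral_norm hFint hsum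
  have hval : ∀ ω, ∑' k : ℕ, (∑ e, a e * c e ω) ^ k / (k.factorial : ℝ) * g ω
      = Real.exp (∑ e, a e * c e ω) * g ω := by
    intro ω
    have h1 := (NormedSpace.expSeries_div_hasSum_exp (∑ e, a e * c e ω)).mul_right (g ω)
    rw [← Real.exp_eq_exp_ℝ] at h1
    exact h1.tsum_eq
  simp only [hval] at key
  have hfun : (fun k : ℕ => (1 / (k.factorial : ℝ)) * ∑ f : Fin k → E,
        (∏ i, a (f i)) * ∫ ω, ((List.ofFn f).map fun e => c e ω).prod * g ω ∂μ)
      = fun k : ℕ => ∫ ω, (∑ e, a e * c e ω) ^ k / (k.factorial : ℝ) * g ω ∂μ := by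
    funext k
    symm
    -- the `k`-th term
    have h2 : ∀ ω, (∑ e, a e * c e ω) ^ k / (k.factorial : ℝ) * g ω
        = (1 / (k.factorial : ℝ)) * ∑ f : Fin k → E,
          (∏ i, a (f i)) * (((List.ofFn f).map fun e => c e ω).prod * g ω) := by
      intro ω
      rw [Fintype.sum_pow, div_mul_eq_mul_div, Finset.sum_mul, one_div, inv_mul_eq_div]
      congr 1
      apply Finset.sum_congr rfl
      intro f _
      rw [List.map_ofFn, List.prod_ofFn, Finset.prod_mul_distrib, mul_assoc]
      rfl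
    simp only [h2]
    rw [integral_const_mul, integral_finsetSum]
    · congr 1
      apply Finset.sum_congr rfl
      intro f _
      rw [integral_const_mul]
    · intro f _
      exact (xy_exp_mono_integrable μ c hc hc1 g hg _).const_mul _
  rw [hfun]
  exact key

/-- positivity transfer: it suffices to test the monomials in the `c_e` with `a_e > 0`. -/
theorem xy_exp_pos (c : E → Ω → ℝ) (hc : ∀ e, Measurable (c e)) (hc1 : ∀ e ω, |c e ω| ≤ 1) (a : E → ℝ) (ha : ∀ e, 0 ≤ a e)
    (g : Ω → ℝ) (hg : Integrable g μ)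
    (h : ∀ l : List E, (∀ e ∈ l, 0 < a e) → 0 ≤ ∫ ω, (l.map fun e => c e ω).prod * g ω ∂μ) :
    0 ≤ ∫ ω, Real.exp (∑ e, a e * c e ω) * g ω ∂μ := by
  refine (xy_exp_hasSum μ c hc hc1 a g hg).nonneg fun k => ?_
  refine mul_nonneg (by positivity) (Finset.sum_nonneg fun f _ => ?_)
  by_cases hf : ∀ i, 0 < a (f i)
  · refine mul_nonneg (Finset.prod_nonneg fun i _ => ha _) (h _ ?_)
    intro e he
    obtain ⟨i, rfl⟩ := (List.mem_ofFn' f e).1 he
    exact hf i
  · push Not at hf
    obtain ⟨i, hi⟩ := hf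
    have : a (f i) = 0 := le_antisymm hi (ha _)
    rw [Finset.prod_eq_zero (Finset.mem_univ i) this, zero_mul]

/-- vanishing transfer. -/
theorem xy_exp_zero (c : E → Ω → ℝ) (hc : ∀ e, Measurable (c e)) (hc1 : ∀ e ω, |c e ω| ≤ 1) (a : E → ℝ) (ha : ∀ e, 0 ≤ a e)
    (g : Ω → ℝ) (hg : Integrable g μ)
    (h : ∀ l : List E, (∀ e ∈ l, 0 < a e) → ∫ ω, (l.map fun e => c e ω).prod * g ω ∂μ = 0) :
    ∫ ω, Real.exp (∑ e, a e * c e ω) * g ω ∂μ = 0 := by
  refine le_antisymm ?_ (xy_exp_pos μ c hc hc1 a ha g hg fun l hl => (h l hl).ge)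
  have := xy_exp_pos μ c hc hc1 a ha (fun ω => - g ω) hg.neg fun l hl => by
    have := h l hl
    simp only [mul_neg, integral_neg, this, neg_zero, le_refl]
  simp only [mul_neg, integral_neg] at this
  linarith

/-- strict positivity: all monomials are nonnegative and one of them, with positive coefficients, is positive. -/
theorem xy_exp_pos' (c : E → Ω → ℝ) (hc : ∀ e, Measurable (c e)) (hc1 : ∀ e ω, |c e ω| ≤ 1) (a : E → ℝ) (ha : ∀ e, 0 ≤ a e)
    (g : Ω → ℝ) (hg : Integrable g μ)
    (h : ∀ l : List E, (∀ e ∈ l, 0 < a e) → 0 ≤ ∫ ω, (l.map fun e => c e ω).prod * g ω ∂μ)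
    (l0 : List E) (hl0 : ∀ e ∈ l0, 0 < a e) (h0 : 0 < ∫ ω, (l0.map fun e => c e ω).prod * g ω ∂μ) :
    0 < ∫ ω, Real.exp (∑ e, a e * c e ω) * g ω ∂μ := by
  have hterm : ∀ (k : ℕ) (f : Fin k → E),
      0 ≤ (∏ i, a (f i)) * ∫ ω, ((List.ofFn f).map fun e => c e ω).prod * g ω ∂μ := by
    intro k f
    by_cases hf : ∀ i, 0 < a (f i)
    · refine mul_nonneg (Finset.prod_nonneg fun i _ => ha _) (h _ ?_)
      intro e he
      obtain ⟨i, rfl⟩ := (List.mem_ofFn' f e).1 he
      exact hf i
    · push Not at hf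
      obtain ⟨i, hi⟩ := hf
      have : a (f i) = 0 := le_antisymm hi (ha _)
      rw [Finset.prod_eq_zero (Finset.mem_univ i) this, zero_mul]
  have hS := xy_exp_hasSum μ c hc hc1 a g hg
  refine lt_of_lt_of_le ?_ (le_hasSum hS l0.length fun k _ =>
    mul_nonneg (by positivity) (Finset.sum_nonneg fun f _ => hterm k f))
  apply mul_pos (by positivity)
  refine lt_of_lt_of_le ?_ (Finset.single_le_sum (fun f _ => hterm l0.length f) (Finset.mem_univ l0.get))
  apply mul_pos
  · exact Finset.prod_pos fun i _ => hl0 _ (List.get_mem l0 i)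
  · rw [List.ofFn_get]
    exact h0

end Exp

/-! ## 2. trigonometric monomials -/

section Mono

variable {V : Type*} [Fintype V]

/-- the monomial `∏_{d ∈ l} cos(d·θ)`. -/
def xyMono (l : List (V → ℤ)) (θ : V → ℝ) : ℝ := (l.map fun d => Real.cos (xyPh d θ)).prod

instance : IsFiniteMeasure (xyAng V) := by unfold xyAng; infer_instance

theorem xyPh_continuous (m : V → ℤ) : Continuous (xyPh m) := by
  unfold xyPh; fun_prop

theorem xyPh_add (m m' : V → ℤ) (θ : V → ℝ) : xyPh (m + m') θ = xyPh m θ + xyPh m' θ := by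
  simp [xyPh, add_mul, Finset.sum_add_distrib]

theorem xyPh_sub (m m' : V → ℤ) (θ : V → ℝ) : xyPh (m - m') θ = xyPh m θ - xyPh m' θ := by
  simp [xyPh, sub_mul, Finset.sum_sub_distrib]

theorem xyPh_neg (m : V → ℤ) (θ : V → ℝ) : xyPh (-m) θ = - xyPh m θ := by
  simp [xyPh]

theorem xyPh_zero (θ : V → ℝ) : xyPh (0 : V → ℤ) θ = 0 := by simp [xyPh]

theorem xyPh_add_right (m : V → ℤ) (θ θ' : V → ℝ) : xyPh m (θ + θ') = xyPh m θ + xyPh m θ' := by
  simp [xyPh, mul_add, Finset.sum_add_distrib]

theorem xyPh_sub_right (m : V → ℤ) (θ θ' : V → ℝ) : xyPh m (θ - θ') = xyPh m θ - xyPh m θ' := by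
  simp [xyPh, mul_sub, Finset.sum_sub_distrib]

theorem xyMono_continuous (l : List (V → ℤ)) : Continuous (xyMono l) := by
  induction l with
  | nil =>
    have : xyMono ([] : List (V → ℤ)) = fun _ => 1 := by funext θ; simp [xyMono]
    rw [this]; exact continuous_const
  | cons d l ih =>
    have : xyMono (d :: l) = fun θ => Real.cos (xyPh d θ) * xyMono l θ := by
      funext θ; simp [xyMono]
    rw [this]
    exact (Real.continuous_cos.comp (xyPh_continuous d)).mul ih

theorem xyMono_abs_le (l : List (V → ℤ)) (θ : V → ℝ) : |xyMono l θ| ≤ 1 := by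
  induction l with
  | nil => simp [xyMono]
  | cons d l ih =>
    have : xyMono (d :: l) θ = Real.cos (xyPh d θ) * xyMono l θ := by simp [xyMono]
    rw [this, abs_mul]
    exact mul_le_one₀ (Real.abs_cos_le_one _) (abs_nonneg _) ih

/-- XY-AN-2: bounded continuous functions are integrable. -/
theorem xy_integrable (f : (V → ℝ) → ℝ) (hf : Continuous f) (C : ℝ) (hC : ∀ θ, |f θ| ≤ C) : Integrable f (xyAng V) :=
  Integrable.of_bound hf.aestronglyMeasurable C (Filter.Eventually.of_forall fun θ => by simpa using hC θ)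

/-- one period of a character. -/
theorem xy_int_exp1 (n : ℤ) :
    ∫ t in Set.Ico (0 : ℝ) (2 * Real.pi), Complex.exp (Complex.I * (((n : ℝ) * t : ℝ) : ℂ))
      = if n = 0 then ((2 * Real.pi : ℝ) : ℂ) else 0 := by
  have hpi : (0 : ℝ) ≤ 2 * Real.pi := by positivity
  rw [integral_Ico_eq_integral_Ioc, ← intervalIntegral.integral_of_le hpi]
  by_cases hn : n = 0
  · subst hn
    simp
  · rw [if_neg hn]
    have hc : Complex.I * (n : ℂ) ≠ 0 := by
      apply mul_ne_zero Complex.I_ne_zero
      exact_mod_cast hn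
    have h1 : ∀ t : ℝ, Complex.exp (Complex.I * (((n : ℝ) * t : ℝ) : ℂ))
        = Complex.exp ((Complex.I * (n : ℂ)) * (t : ℂ)) := by
      intro t
      congr 1
      push_cast
      ring
    simp only [h1]
    rw [integral_exp_mul_complex hc]
    have h2 : Complex.I * (n : ℂ) * ((2 * Real.pi : ℝ) : ℂ) = (n : ℂ) * (2 * (Real.pi : ℂ) * Complex.I) := by
      push_cast
      ring
    rw [h2, Complex.exp_int_mul_two_pi_mul_I]
    simp

open Classical in
/-- orthogonality, complex form. -/
theorem xy_int_exp (m : V → ℤ) :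
    ∫ θ, Complex.exp (Complex.I * ((xyPh m θ : ℝ) : ℂ)) ∂xyAng V
      = if m = 0 then (((2 * Real.pi) ^ Fintype.card V : ℝ) : ℂ) else 0 := by
  have h1 : ∀ θ : V → ℝ, Complex.exp (Complex.I * ((xyPh m θ : ℝ) : ℂ))
      = ∏ v, Complex.exp (Complex.I * ((((m v : ℤ) : ℝ) * θ v : ℝ) : ℂ)) := by
    intro θ
    rw [← Complex.exp_sum, ← Finset.mul_sum]
    congr 2
    unfold xyPh
    push_cast
    rfl
  simp only [h1]
  unfold xyAng
  rw [integral_fintype_prod_eq_prod (fun (v : V) (t : ℝ) => Complex.exp (Complex.I * ((((m v : ℤ) : ℝ) * t : ℝ) : ℂ)))]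
  simp only [xy_int_exp1]
  by_cases hm : m = 0
  · subst hm
    simp
  · rw [if_neg hm]
    have : ∃ v, m v ≠ 0 := by
      by_contra hcon
      push Not at hcon
      exact hm (funext hcon)
    obtain ⟨v, hv⟩ := this
    apply Finset.prod_eq_zero (Finset.mem_univ v)
    rw [if_neg hv]

/-- real and imaginary part. -/
theorem xy_int_exp_split (m : V → ℤ) :
    ∫ θ, Complex.exp (Complex.I * ((xyPh m θ : ℝ) : ℂ)) ∂xyAng V
      = ((∫ θ, Real.cos (xyPh m θ) ∂xyAng V : ℝ) : ℂ) + ((∫ θ, Real.sin (xyPh m θ) ∂xyAng V : ℝ) : ℂ) * Complex.I := by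
  have hc : Integrable (fun θ => Real.cos (xyPh m θ)) (xyAng V) :=
    xy_integrable _ (Real.continuous_cos.comp (xyPh_continuous m)) 1 (fun θ => Real.abs_cos_le_one _)
  have hs : Integrable (fun θ => Real.sin (xyPh m θ)) (xyAng V) :=
    xy_integrable _ (Real.continuous_sin.comp (xyPh_continuous m)) 1 (fun θ => Real.abs_sin_le_one _)
  have h1 : ∀ θ : V → ℝ, Complex.exp (Complex.I * ((xyPh m θ : ℝ) : ℂ))
      = ((Real.cos (xyPh m θ) : ℝ) : ℂ) + ((Real.sin (xyPh m θ) : ℝ) : ℂ) * Complex.I := by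
    intro θ
    rw [mul_comm, Complex.exp_mul_I]
    push_cast
    rfl
  simp only [h1]
  rw [integral_add hc.ofReal (hs.ofReal.mul_const _), integral_complex_ofReal, integral_mul_const, integral_complex_ofReal]

/-- total mass. -/
theorem xy_int_one : ∫ _θ : V → ℝ, (1 : ℝ) ∂xyAng V = (2 * Real.pi) ^ Fintype.card V := by
  have h := xy_int_exp (V := V) 0
  rw [xy_int_exp_split, if_pos rfl] at h
  have h2 := congrArg Complex.re h
  simp only [Complex.add_re, Complex.ofReal_re, Complex.mul_re, Complex.I_re, mul_zero, Complex.ofReal_im,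
    Complex.I_im, mul_one, sub_self, add_zero, xyPh_zero, Real.cos_zero] at h2
  exact h2

open Classical in
/-- XY-AN-3 (orthogonality).  Complex form: `∫ ∏_v e^{i m_v θ_v} = ∏_v ∫_0^{2π} e^{i m_v t} dt` (`MeasureTheory.integral_fintype_prod_eq_prod`), take real parts. -/
theorem xy_int_cos (m : V → ℤ) :
    ∫ θ, Real.cos (xyPh m θ) ∂xyAng V = if m = 0 then (2 * Real.pi) ^ Fintype.card V else 0 := by
  have h := xy_int_exp m
  rw [xy_int_exp_split] at h
  have h2 := congrArg Complex.re h
  simp only [Complex.add_re, Complex.ofReal_re, Complex.mul_re, Complex.I_re, mul_zero, Complex.ofReal_im,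
    Complex.I_im, mul_one, sub_self, add_zero] at h2
  rw [h2]
  split_ifs
  · exact Complex.ofReal_re _
  · rfl

/-- XY-AN-3' (imaginary part of the same computation). -/
theorem xy_int_sin (m : V → ℤ) : ∫ θ, Real.sin (xyPh m θ) ∂xyAng V = 0 := by
  classical
  have h := xy_int_exp m
  rw [xy_int_exp_split] at h
  have h2 := congrArg Complex.im h
  simp only [Complex.add_im, Complex.ofReal_im, Complex.mul_im, Complex.I_re, mul_zero, Complex.ofReal_re,
    Complex.I_im, mul_one, zero_add, add_zero] at h2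
  rw [h2]
  split_ifs
  · exact Complex.ofReal_im _
  · rfl

theorem xyMono_cons (d : V → ℤ) (l : List (V → ℤ)) (θ : V → ℝ) :
    xyMono (d :: l) θ = Real.cos (xyPh d θ) * xyMono l θ := by simp [xyMono]

theorem xy_integrable_mono_cos (l : List (V → ℤ)) (m : V → ℤ) :
    Integrable (fun θ => xyMono l θ * Real.cos (xyPh m θ)) (xyAng V) := by
  apply xy_integrable _ ((xyMono_continuous l).mul (Real.continuous_cos.comp (xyPh_continuous m))) 1
  intro θ
  show |xyMono l θ * Real.cos (xyPh m θ)| ≤ 1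
  rw [abs_mul]
  exact mul_le_one₀ (xyMono_abs_le l θ) (abs_nonneg _) (Real.abs_cos_le_one _)

theorem xy_integrable_mono_sin (l : List (V → ℤ)) (m : V → ℤ) :
    Integrable (fun θ => xyMono l θ * Real.sin (xyPh m θ)) (xyAng V) := by
  apply xy_integrable _ ((xyMono_continuous l).mul (Real.continuous_sin.comp (xyPh_continuous m))) 1
  intro θ
  show |xyMono l θ * Real.sin (xyPh m θ)| ≤ 1
  rw [abs_mul]
  exact mul_le_one₀ (xyMono_abs_le l θ) (abs_nonneg _) (Real.abs_sin_le_one _)

/-- XY-AN-4: induction on `l`, `cos d cos m = ½(cos(m+d) + cos(m-d))`, from `xy_int_cos`, `xy_integrable`. -/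
theorem xy_int_mono_cos (l : List (V → ℤ)) (m : V → ℤ) :
    ∫ θ, xyMono l θ * Real.cos (xyPh m θ) ∂xyAng V = (2 * Real.pi) ^ Fintype.card V * xyCnt l m := by
  induction l generalizing m with
  | nil =>
    have : ∀ θ : V → ℝ, xyMono ([] : List (V → ℤ)) θ * Real.cos (xyPh m θ) = Real.cos (xyPh m θ) := by
      intro θ
      simp [xyMono]
    simp only [this]
    rw [xy_int_cos, xyCnt]
    split_ifs <;> simp
  | cons d l ih =>
    have h1 : ∀ θ : V → ℝ, xyMono (d :: l) θ * Real.cos (xyPh m θ)
        = (xyMono l θ * Real.cos (xyPh (m + d) θ) + xyMono l θ * Real.cos (xyPh (m - d) θ)) / 2 := by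
      intro θ
      rw [xyMono_cons, xyPh_add, xyPh_sub, Real.cos_add, Real.cos_sub]
      ring
    simp only [h1]
    rw [integral_div, integral_add (xy_integrable_mono_cos l _) (xy_integrable_mono_cos l _), ih, ih, xyCnt]
    ring

/-- XY-AN-4': induction on `l`, `cos d sin m = ½(sin(m+d) + sin(m-d))`, from `xy_int_sin`. -/
theorem xy_int_mono_sin (l : List (V → ℤ)) (m : V → ℤ) :
    ∫ θ, xyMono l θ * Real.sin (xyPh m θ) ∂xyAng V = 0 := by
  induction l generalizing m with
  | nil =>
    have : ∀ θ : V → ℝ, xyMono ([] : List (V → ℤ)) θ * Real.sin (xyPh m θ) = Real.sin (xyPh m θ) := by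
      intro θ
      simp [xyMono]
    simp only [this]
    exact xy_int_sin m
  | cons d l ih =>
    have h1 : ∀ θ : V → ℝ, xyMono (d :: l) θ * Real.sin (xyPh m θ)
        = (xyMono l θ * Real.sin (xyPh (m + d) θ) + xyMono l θ * Real.sin (xyPh (m - d) θ)) / 2 := by
      intro θ
      rw [xyMono_cons, xyPh_add, xyPh_sub, Real.sin_add, Real.sin_sub]
      ring
    simp only [h1]
    rw [integral_div, integral_add (xy_integrable_mono_sin l _) (xy_integrable_mono_sin l _), ih, ih]
    simp

/-- XY-AN-5: two copies: `cos(α·x + β·y) = cos cos - sin sin`, `integral_prod_mul`. -/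
theorem xy_int_mono_two (l : List (V → ℤ)) (α β : V → ℤ) :
    ∫ p : (V → ℝ) × (V → ℝ), xyMono l p.1 * xyMono l p.2 * Real.cos (xyPh α p.1 + xyPh β p.2) ∂((xyAng V).prod (xyAng V))
      = ((2 * Real.pi) ^ Fintype.card V) ^ 2 * (xyCnt l α * xyCnt l β) := by
  have h1 : ∀ p : (V → ℝ) × (V → ℝ), xyMono l p.1 * xyMono l p.2 * Real.cos (xyPh α p.1 + xyPh β p.2)
      = (xyMono l p.1 * Real.cos (xyPh α p.1)) * (xyMono l p.2 * Real.cos (xyPh β p.2))
        - (xyMono l p.1 * Real.sin (xyPh α p.1)) * (xyMono l p.2 * Real.sin (xyPh β p.2)) := by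
    intro p
    rw [Real.cos_add]
    ring
  simp only [h1]
  rw [integral_sub ((xy_integrable_mono_cos l α).mul_prod (xy_integrable_mono_cos l β))
    ((xy_integrable_mono_sin l α).mul_prod (xy_integrable_mono_sin l β))]
  rw [integral_prod_mul (fun θ => xyMono l θ * Real.cos (xyPh α θ)) (fun θ => xyMono l θ * Real.cos (xyPh β θ)),
    integral_prod_mul (fun θ => xyMono l θ * Real.sin (xyPh α θ)) (fun θ => xyMono l θ * Real.sin (xyPh β θ)),
    xy_int_mono_cos, xy_int_mono_cos, xy_int_mono_sin]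
  ring

end Mono

/-! ## 3. symmetries of the torus -/

section Sym

variable {V : Type*} [Fintype V] [DecidableEq V]

/-- `2π`-periodic in every coordinate. -/
def XyPer (F : (V → ℝ) → ℝ) : Prop := ∀ θ v, F (Function.update θ v (θ v + 2 * Real.pi)) = F θ

theorem xyPh_update (m : V → ℤ) (θ : V → ℝ) (v : V) (c : ℝ) :
    xyPh m (Function.update θ v (θ v + c)) = xyPh m θ + (m v : ℝ) * c := by
  have h : Function.update θ v (θ v + c) = θ + Pi.single v c := by
    funext w
    by_cases hw : w = v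
    · subst hw
      simp
    · simp [hw]
  rw [h, xyPh_add_right]
  congr 1
  unfold xyPh
  rw [Finset.sum_eq_single v]
  · simp
  · intro w _ hw
    simp [hw]
  · intro hv
    exact absurd (Finset.mem_univ v) hv

theorem xyPer_cos (m : V → ℤ) : XyPer fun θ => Real.cos (xyPh m θ) := by
  intro θ v
  show Real.cos (xyPh m (Function.update θ v (θ v + 2 * Real.pi))) = Real.cos (xyPh m θ)
  rw [xyPh_update]
  exact Real.cos_add_int_mul_two_pi _ _

theorem xyPer_sin (m : V → ℤ) : XyPer fun θ => Real.sin (xyPh m θ) := by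
  intro θ v
  show Real.sin (xyPh m (Function.update θ v (θ v + 2 * Real.pi))) = Real.sin (xyPh m θ)
  rw [xyPh_update]
  exact Real.sin_add_int_mul_two_pi _ _

/-- integer multiples of the period, one coordinate. -/
theorem xyPer_int {G : (V → ℝ) → ℝ} (hG : XyPer G) (θ : V → ℝ) (v : V) (k : ℤ) :
    G (Function.update θ v (θ v + (k : ℝ) * (2 * Real.pi))) = G θ := by
  induction k using Int.induction_on with
  | zero => simp
  | succ k ih =>
    have h := hG (Function.update θ v (θ v + ((k : ℤ) : ℝ) * (2 * Real.pi))) v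
    rw [Function.update_idem, Function.update_self, ih] at h
    rw [← h]
    congr 2
    push_cast
    ring
  | pred k ih =>
    have h := hG (Function.update θ v (θ v + ((-(k : ℤ) - 1 : ℤ) : ℝ) * (2 * Real.pi))) v
    rw [Function.update_idem, Function.update_self] at h
    rw [← h, ← ih]
    congr 2
    push_cast
    ring

/-- integer multiples of the period, all coordinates. -/
theorem xyPer_shift {G : (V → ℝ) → ℝ} (hG : XyPer G) (θ : V → ℝ) (n : V → ℤ) :
    G (fun v => θ v + (n v : ℝ) * (2 * Real.pi)) = G θ := by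
  have key : ∀ S : Finset V, G (fun v => θ v + if v ∈ S then (n v : ℝ) * (2 * Real.pi) else 0) = G θ := by
    intro S
    induction S using Finset.induction_on with
    | empty => simp
    | insert a S ha ih =>
      rw [← ih, ← xyPer_int hG (fun v => θ v + if v ∈ S then (n v : ℝ) * (2 * Real.pi) else 0) a (n a)]
      congr 1
      funext v
      by_cases hv : v = a
      · subst hv
        simp [ha]
      · simp [hv]
  simpa using key Finset.univ

/-- the period is positive. -/
instance xyFactTwoPi : Fact (0 < 2 * Real.pi) := ⟨Real.two_pi_pos⟩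

/-- the circle. -/
abbrev XyT : Type := AddCircle (2 * Real.pi)

/-- a measurable section of `ℝ → XyT`. -/
def xySec (x : XyT) : ℝ := ((AddCircle.measurableEquivIco (2 * Real.pi) 0 x : Set.Ico (0 : ℝ) (0 + 2 * Real.pi)) : ℝ)

theorem xySec_measurable : Measurable xySec :=
  measurable_subtype_coe.comp (AddCircle.measurableEquivIco (2 * Real.pi) 0).measurable

theorem xySec_mk (x : XyT) : ((xySec x : ℝ) : XyT) = x :=
  (AddCircle.equivIco (2 * Real.pi) 0).symm_apply_apply x

/-- a periodic function only depends on the classes of the angles. -/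
theorem xyPer_congr {G : (V → ℝ) → ℝ} (hG : XyPer G) (θ θ' : V → ℝ) (h : ∀ v, ((θ v : ℝ) : XyT) = ((θ' v : ℝ) : XyT)) :
    G θ = G θ' := by
  have h1 : ∀ v, ∃ n : ℤ, θ v = θ' v + (n : ℝ) * (2 * Real.pi) := by
    intro v
    have h2 : (((θ v - θ' v : ℝ)) : XyT) = 0 := by
      rw [AddCircle.coe_sub, h v, sub_self]
    obtain ⟨n, hn⟩ := (AddCircle.coe_eq_zero_iff (2 * Real.pi)).mp h2
    refine ⟨n, ?_⟩
    rw [zsmul_eq_mul] at hn
    linarith
  choose n hn using h1
  rw [← xyPer_shift hG θ' n]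
  congr 1
  funext v
  exact hn v

/-- the projection to the torus. -/
def xyMk (θ : V → ℝ) : V → XyT := fun v => ((θ v : ℝ) : XyT)

omit [DecidableEq V] in
theorem xyMk_mp : MeasurePreserving (xyMk (V := V)) (xyAng V) (Measure.pi fun _ => (volume : Measure XyT)) := by
  unfold xyAng xyMk
  apply measurePreserving_pi
  intro v
  have := AddCircle.measurePreserving_mk (2 * Real.pi) 0
  rw [zero_add] at this
  rw [restrict_Ico_eq_restrict_Ioc]
  exact this

omit [Fintype V] [DecidableEq V] in
theorem xyMk_add (θ θ' : V → ℝ) : xyMk (θ + θ') = xyMk θ + xyMk θ' := by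
  funext v
  exact AddCircle.coe_add _ _ _

omit [Fintype V] [DecidableEq V] in
theorem xyMk_sub (θ θ' : V → ℝ) : xyMk (θ - θ') = xyMk θ - xyMk θ' := by
  funext v
  exact AddCircle.coe_sub _ _ _

/-- change of variables along a measure preserving map. -/
theorem xy_mp_integral {α β : Type*} [MeasurableSpace α] [MeasurableSpace β] {μ : Measure α} {ν : Measure β}
    {f : α → β} (h : MeasurePreserving f μ ν) {g : β → ℝ} (hg : Measurable g) :
    ∫ x, g (f x) ∂μ = ∫ y, g y ∂ν := by
  rw [← h.map_eq, integral_map h.aemeasurable hg.aestronglyMeasurable]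

/-- Ginibre's endomorphism of the torus. -/
def xyGin (V : Type*) : (V → XyT) × (V → XyT) →+ (V → XyT) × (V → XyT) :=
  AddMonoidHom.mk' (fun q => (q.1 + q.2, q.1 - q.2)) (fun q q' => by
    ext v
    · simp only [Prod.fst_add, Prod.snd_add, Pi.add_apply]
      abel
    · simp only [Prod.fst_add, Prod.snd_add, Pi.add_apply, Pi.sub_apply]
      abel)

omit [DecidableEq V] in
theorem xyGin_mp : MeasurePreserving (xyGin V)
    ((Measure.pi fun _ : V => (volume : Measure XyT)).prod (Measure.pi fun _ : V => (volume : Measure XyT)))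
    ((Measure.pi fun _ : V => (volume : Measure XyT)).prod (Measure.pi fun _ : V => (volume : Measure XyT))) := by
  have : BorelSpace ((V → XyT) × (V → XyT)) := Prod.borelSpace
  have : ((Measure.pi fun _ : V => (volume : Measure XyT)).prod
      (Measure.pi fun _ : V => (volume : Measure XyT))).IsAddHaarMeasure := Measure.prod.instIsAddHaarMeasure _ _
  apply AddMonoidHom.measurePreserving
  · exact (continuous_fst.add continuous_snd).prodMk (continuous_fst.sub continuous_snd)
  · rintro ⟨a, b⟩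
    refine ⟨(fun v => DivisibleBy.div (a v + b v) (2 : ℤ), fun v => a v - DivisibleBy.div (a v + b v) (2 : ℤ)), ?_⟩
    have h2 : ∀ v, DivisibleBy.div (a v + b v) (2 : ℤ) + DivisibleBy.div (a v + b v) (2 : ℤ) = a v + b v := by
      intro v
      have := DivisibleBy.div_cancel (a v + b v) (two_ne_zero : (2 : ℤ) ≠ 0)
      rwa [two_zsmul] at this
    show ((fun v => DivisibleBy.div (a v + b v) (2 : ℤ)) + (fun v => a v - DivisibleBy.div (a v + b v) (2 : ℤ)),
      (fun v => DivisibleBy.div (a v + b v) (2 : ℤ)) - (fun v => a v - DivisibleBy.div (a v + b v) (2 : ℤ))) = (a, b)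
    ext v
    · simp
    · simp only [Pi.sub_apply]
      have := h2 v
      calc DivisibleBy.div (a v + b v) (2 : ℤ) - (a v - DivisibleBy.div (a v + b v) (2 : ℤ))
          = (DivisibleBy.div (a v + b v) (2 : ℤ) + DivisibleBy.div (a v + b v) (2 : ℤ)) - a v := by abel
        _ = b v := by rw [this]; abel
  · rfl

/-- XY-AN-6 (**Ginibre's change of variables**).  Route A: push everything to `V → AddCircle (2π)` (`AddCircle.measurePreserving_mk`, `restrict_Ico_eq_restrict_Ioc`, `measurePreserving_pi`);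
`(x,y) ↦ (x+y, x-y)` is a continuous surjective endomorphism of a compact group, hence preserves Haar measure (`AddMonoidHom.measurePreserving`).
Route B: Fubini + three invariances for periodic functions on `[0,2π)^V`: translation, negation, doubling:
`∫_y ∫_x F(x+y, x-y) = ∫_y ∫_s F(s, s-2y) = ∫_s ∫_y F(s, s-2y) = ∫_s ∫_t F(s,t)`. -/
theorem xy_dup (F : (V → ℝ) × (V → ℝ) → ℝ) (hF : Continuous F)
    (h1 : ∀ θ', XyPer fun θ => F (θ, θ')) (h2 : ∀ θ, XyPer fun θ' => F (θ, θ')) :
    ∫ p, F p ∂((xyAng V).prod (xyAng V)) = ∫ p, F (p.1 + p.2, p.1 - p.2) ∂((xyAng V).prod (xyAng V)) := by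
  obtain ⟨Ft, hFt⟩ : ∃ Ft : (V → XyT) × (V → XyT) → ℝ,
      Ft = fun q => F (fun v => xySec (q.1 v), fun v => xySec (q.2 v)) := ⟨_, rfl⟩
  have hmeas : Measurable Ft := by
    rw [hFt]
    apply hF.measurable.comp
    apply Measurable.prodMk
    · exact measurable_pi_lambda _ fun v => xySec_measurable.comp ((measurable_pi_apply v).comp measurable_fst)
    · exact measurable_pi_lambda _ fun v => xySec_measurable.comp ((measurable_pi_apply v).comp measurable_snd)
  have hmk : ∀ θ θ' : V → ℝ, Ft (xyMk θ, xyMk θ') = F (θ, θ') := by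
    intro θ θ'
    rw [hFt]
    show F (fun v => xySec (xyMk θ v), fun v => xySec (xyMk θ' v)) = F (θ, θ')
    rw [xyPer_congr (h1 (fun v => xySec (xyMk θ' v))) (fun v => xySec (xyMk θ v)) θ (fun v => xySec_mk _),
      xyPer_congr (h2 θ) (fun v => xySec (xyMk θ' v)) θ' (fun v => xySec_mk _)]
  have hMK := (xyMk_mp (V := V)).prod (xyMk_mp (V := V))
  have e1 : ∫ p, F p ∂((xyAng V).prod (xyAng V)) = ∫ p, Ft (Prod.map xyMk xyMk p) ∂((xyAng V).prod (xyAng V)) := by
    congr 1
    funext p
    exact (hmk p.1 p.2).symm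
  have e2 : ∫ p, F (p.1 + p.2, p.1 - p.2) ∂((xyAng V).prod (xyAng V))
      = ∫ p, (fun q => Ft (xyGin V q)) (Prod.map xyMk xyMk p) ∂((xyAng V).prod (xyAng V)) := by
    congr 1
    funext p
    show F (p.1 + p.2, p.1 - p.2) = Ft (xyMk p.1 + xyMk p.2, xyMk p.1 - xyMk p.2)
    rw [← xyMk_add, ← xyMk_sub, hmk]
  have hm2 : Measurable fun q => Ft (xyGin V q) := hmeas.comp xyGin_mp.measurable
  rw [e1, e2, xy_mp_integral hMK hmeas, xy_mp_integral hMK hm2, xy_mp_integral xyGin_mp hmeas]

/-- reflection of one coordinate of the torus. -/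
def xyRefl (v : V) : (V → XyT) →+ (V → XyT) :=
  AddMonoidHom.mk' (fun x => Function.update x v (- x v)) (fun x y => by
    funext w
    by_cases hw : w = v
    · subst hw
      simp only [Function.update_self, Pi.add_apply]
      abel
    · simp only [Function.update_of_ne hw, Pi.add_apply])

theorem xyRefl_mp (v : V) : MeasurePreserving (xyRefl v)
    (Measure.pi fun _ : V => (volume : Measure XyT)) (Measure.pi fun _ : V => (volume : Measure XyT)) := by
  apply AddMonoidHom.measurePreserving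
  · show Continuous fun x : V → XyT => Function.update x v (- x v)
    exact continuous_id.update v (continuous_apply v).neg
  · intro y
    refine ⟨Function.update y v (- y v), ?_⟩
    show Function.update (Function.update y v (- y v)) v (- (Function.update y v (- y v)) v) = y
    rw [Function.update_idem, Function.update_self, neg_neg, Function.update_eq_self]
  · rfl

/-- XY-AN-7: reflection of one angle. -/
theorem xy_reflect (F : (V → ℝ) → ℝ) (hF : Continuous F) (hp : XyPer F) (v : V) :
    ∫ θ, F (Function.update θ v (- θ v)) ∂xyAng V = ∫ θ, F θ ∂xyAng V := by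
  obtain ⟨Ft, hFt⟩ : ∃ Ft : (V → XyT) → ℝ, Ft = fun q => F (fun v => xySec (q v)) := ⟨_, rfl⟩
  have hmeas : Measurable Ft := by
    rw [hFt]
    apply hF.measurable.comp
    exact measurable_pi_lambda _ fun v => xySec_measurable.comp (measurable_pi_apply v)
  have hmk : ∀ θ : V → ℝ, Ft (xyMk θ) = F θ := by
    intro θ
    rw [hFt]
    exact xyPer_congr hp (fun v => xySec (xyMk θ v)) θ (fun v => xySec_mk _)
  have e1 : ∫ θ, F θ ∂xyAng V = ∫ θ, Ft (xyMk θ) ∂xyAng V := by
    congr 1
    funext θ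
    exact (hmk θ).symm
  have e2 : ∫ θ, F (Function.update θ v (- θ v)) ∂xyAng V
      = ∫ θ, (fun q => Ft (xyRefl v q)) (xyMk θ) ∂xyAng V := by
    congr 1
    funext θ
    show F (Function.update θ v (- θ v)) = Ft (Function.update (xyMk θ) v (- xyMk θ v))
    rw [← hmk]
    congr 1
    funext w
    by_cases hw : w = v
    · subst hw
      simp only [xyMk, Function.update_self]
      exact AddCircle.coe_neg _
    · simp only [xyMk, Function.update_of_ne hw]
  have hm2 : Measurable fun q => Ft (xyRefl v q) := hmeas.comp (xyRefl_mp v).measurable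
  rw [e1, e2, xy_mp_integral xyMk_mp hmeas, xy_mp_integral xyMk_mp hm2, xy_mp_integral (xyRefl_mp v) hmeas]

end Sym

end

end Claimed.Agent.R285
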