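import Claimed.Agent.R285.Xy.Four

/-!
# ROW 285, XY BASICS 3: Ginibre's inequalities for a general character Hamiltonian (owner helper177)

`⟨f⟩ = xyEx d J f`, weight `exp(∑_e J_e cos(d_e·θ))`, `J ≥ 0`.  Paper-free; uses only `Xy/Four.lean` (black boxes) and `Xy/Cnt.lean`.
-/

set_option autoImplicit false
set_option linter.unusedSectionVars false

namespace Claimed.Agent.R285

open MeasureTheory Filter Topology

noncomputable section

variable {V : Type*} [Fintype V] {E : Type*} [Fintype E] (d : E → V → ℤ) (J : E → ℝ)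

/-- bounded continuous test functions. -/
def XyNice (f : (V → ℝ) → ℝ) : Prop := Continuous f ∧ ∃ C, ∀ θ, |f θ| ≤ C

theorem xyNice_cos (m : V → ℤ) : XyNice fun θ => Real.cos (xyPh m θ) :=
  ⟨Real.continuous_cos.comp (xyPh_continuous m), 1, fun _ => Real.abs_cos_le_one _⟩

theorem xyNice_sin (m : V → ℤ) : XyNice fun θ => Real.sin (xyPh m θ) :=
  ⟨Real.continuous_sin.comp (xyPh_continuous m), 1, fun _ => Real.abs_sin_le_one _⟩

theorem xyNice_mono (l : List (V → ℤ)) : XyNice (xyMono l) := ⟨xyMono_continuous l, 1, xyMono_abs_le l⟩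

theorem XyNice.mul {f g : (V → ℝ) → ℝ} (hf : XyNice f) (hg : XyNice g) : XyNice fun θ => f θ * g θ := by
  obtain ⟨hf, C, hC⟩ := hf
  obtain ⟨hg, D, hD⟩ := hg
  refine ⟨hf.mul hg, C * D, fun θ => ?_⟩
  rw [abs_mul]
  exact mul_le_mul (hC θ) (hD θ) (abs_nonneg _) ((abs_nonneg _).trans (hC θ))

theorem XyNice.add {f g : (V → ℝ) → ℝ} (hf : XyNice f) (hg : XyNice g) : XyNice fun θ => f θ + g θ := by
  obtain ⟨hf, C, hC⟩ := hf
  obtain ⟨hg, D, hD⟩ := hg
  exact ⟨hf.add hg, C + D, fun θ => (abs_add_le _ _).trans (add_le_add (hC θ) (hD θ))⟩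

theorem XyNice.const_mul {f : (V → ℝ) → ℝ} (hf : XyNice f) (c : ℝ) : XyNice fun θ => c * f θ := by
  obtain ⟨hf, C, hC⟩ := hf
  refine ⟨continuous_const.mul hf, |c| * C, fun θ => ?_⟩
  rw [abs_mul]
  exact mul_le_mul_of_nonneg_left (hC θ) (abs_nonneg _)

theorem xyEn_continuous : Continuous (xyEn d J) := by
  unfold xyEn
  exact continuous_finsetSum _ fun e _ => continuous_const.mul (Real.continuous_cos.comp (xyPh_continuous _))

theorem xyEn_abs_le (θ : V → ℝ) : |xyEn d J θ| ≤ ∑ e, |J e| := by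
  unfold xyEn
  refine (Finset.abs_sum_le_sum_abs _ _).trans (Finset.sum_le_sum fun e _ => ?_)
  rw [abs_mul]
  exact mul_le_of_le_one_right (abs_nonneg _) (Real.abs_cos_le_one _)

theorem xyNice_exp : XyNice fun θ => Real.exp (xyEn d J θ) := by
  refine ⟨Real.continuous_exp.comp (xyEn_continuous d J), Real.exp (∑ e, |J e|), fun θ => ?_⟩
  rw [abs_of_pos (Real.exp_pos _)]
  exact Real.exp_le_exp.2 ((le_abs_self _).trans (xyEn_abs_le d J θ))

theorem XyNice.integrable {f : (V → ℝ) → ℝ} (hf : XyNice f) : Integrable f (xyAng V) := by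
  obtain ⟨hf, C, hC⟩ := hf
  exact xy_integrable f hf C hC

theorem xyNice_one : XyNice fun _ : V → ℝ => (1 : ℝ) := ⟨continuous_const, 1, fun _ => by simp⟩

/-- XY-G-0: the partition function is positive (`exp ≥ exp(-∑|J|)`, total mass `(2π)^|V| > 0`: `xy_int_one`). -/
theorem xyPart_pos : 0 < xyPart d J := by
  unfold xyPart xyInt
  have hc : (0 : ℝ) < Real.exp (-∑ e, |J e|) * (2 * Real.pi) ^ Fintype.card V := by
    have := Real.pi_pos
    positivity
  refine lt_of_lt_of_le hc ?_
  rw [← xy_int_one, ← integral_const_mul]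
  refine integral_mono ((integrable_const (1 : ℝ)).const_mul _)
    ((xyNice_one.mul (xyNice_exp d J)).integrable) fun θ => ?_
  show Real.exp (-∑ e, |J e|) * 1 ≤ 1 * Real.exp (xyEn d J θ)
  rw [mul_one, one_mul]
  apply Real.exp_le_exp.2
  have := xyEn_abs_le d J θ
  exact (abs_le.mp this).1

theorem xyInt_add {f g : (V → ℝ) → ℝ} (hf : XyNice f) (hg : XyNice g) :
    xyInt d J (fun θ => f θ + g θ) = xyInt d J f + xyInt d J g := by
  unfold xyInt
  rw [← integral_add (hf.mul (xyNice_exp d J)).integrable (hg.mul (xyNice_exp d J)).integrable]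
  congr 1; funext θ; ring

theorem xyInt_const_mul (c : ℝ) (f : (V → ℝ) → ℝ) : xyInt d J (fun θ => c * f θ) = c * xyInt d J f := by
  unfold xyInt
  rw [← integral_const_mul]
  congr 1; funext θ; ring

theorem xyEx_add {f g : (V → ℝ) → ℝ} (hf : XyNice f) (hg : XyNice g) :
    xyEx d J (fun θ => f θ + g θ) = xyEx d J f + xyEx d J g := by
  unfold xyEx; rw [xyInt_add d J hf hg, add_div]

theorem xyEx_const_mul (c : ℝ) (f : (V → ℝ) → ℝ) : xyEx d J (fun θ => c * f θ) = c * xyEx d J f := by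
  unfold xyEx; rw [xyInt_const_mul, mul_div_assoc]

/-- XY-G-0': `|⟨cos⟩| ≤ 1`. -/
theorem xyChar_le_one (m : V → ℤ) : xyChar d J m ≤ 1 := by
  unfold xyChar xyEx
  rw [div_le_one (xyPart_pos d J)]
  unfold xyPart xyInt
  refine integral_mono ((xyNice_cos m).mul (xyNice_exp d J)).integrable
    ((xyNice_one.mul (xyNice_exp d J)).integrable) fun θ => ?_
  exact mul_le_mul_of_nonneg_right (Real.cos_le_one _) (Real.exp_pos _).le

theorem xyChar_zero : xyChar d J 0 = 1 := by
  unfold xyChar xyEx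
  have : (fun θ : V → ℝ => Real.cos (xyPh (0 : V → ℤ) θ)) = fun _ => 1 := by
    funext θ; rw [xyPh_zero, Real.cos_zero]
  rw [this]
  exact div_self (xyPart_pos d J).ne'

theorem xyChar_neg (m : V → ℤ) : xyChar d J (-m) = xyChar d J m := by
  unfold xyChar
  congr 1; funext θ; rw [xyPh_neg, Real.cos_neg]

/-- the monomial integrals against the weight: `xy_exp_*` applied with `c_e = cos(d_e·θ)`.  Bridge lemma used by all single-copy arguments:
`xyInt d J g ≥ 0` as soon as `∫ xyMono (l.map d) * g ≥ 0` for all lists `l` of bonds with `J > 0`. -/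
theorem xyInt_nonneg_of_mono (hJ : ∀ e, 0 ≤ J e) (g : (V → ℝ) → ℝ) (hg : XyNice g)
    (h : ∀ l : List E, (∀ e ∈ l, 0 < J e) → 0 ≤ ∫ θ, xyMono (l.map d) θ * g θ ∂xyAng V) : 0 ≤ xyInt d J g := by
  have := xy_exp_pos (xyAng V) (fun e θ => Real.cos (xyPh (d e) θ))
    (fun e => (Real.continuous_cos.comp (xyPh_continuous _)).measurable) (fun e θ => Real.abs_cos_le_one _) J hJ g hg.integrable
    (fun l hl => by
      have := h l hl
      simpa [xyMono, List.map_map, Function.comp_def] using this)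
  unfold xyInt xyEn
  simpa [mul_comm] using this

theorem xyInt_zero_of_mono (hJ : ∀ e, 0 ≤ J e) (g : (V → ℝ) → ℝ) (hg : XyNice g)
    (h : ∀ l : List E, (∀ e ∈ l, 0 < J e) → ∫ θ, xyMono (l.map d) θ * g θ ∂xyAng V = 0) : xyInt d J g = 0 := by
  have := xy_exp_zero (xyAng V) (fun e θ => Real.cos (xyPh (d e) θ))
    (fun e => (Real.continuous_cos.comp (xyPh_continuous _)).measurable) (fun e θ => Real.abs_cos_le_one _) J hJ g hg.integrable
    (fun l hl => by
      have := h l hl
      simpa [xyMono, List.map_map, Function.comp_def] using this)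
  unfold xyInt xyEn
  simpa [mul_comm] using this

/-- **Ginibre I**. -/
theorem xyChar_nonneg (hJ : ∀ e, 0 ≤ J e) (m : V → ℤ) : 0 ≤ xyChar d J m := by
  unfold xyChar xyEx
  refine div_nonneg (xyInt_nonneg_of_mono d J hJ _ (xyNice_cos m) fun l _ => ?_) (xyPart_pos d J).le
  rw [xy_int_mono_cos]
  exact mul_nonneg (by positivity) (xyCnt_nonneg _ _)

/-- comparison of two characters, bond list by bond list. -/
theorem xyChar_le_of_cnt (hJ : ∀ e, 0 ≤ J e) (m m' : V → ℤ)
    (h : ∀ l : List E, (∀ e ∈ l, 0 < J e) → xyCnt (l.map d) m ≤ xyCnt (l.map d) m') : xyChar d J m ≤ xyChar d J m' := by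
  have key : 0 ≤ xyInt d J fun θ => Real.cos (xyPh m' θ) + (-1) * Real.cos (xyPh m θ) := by
    refine xyInt_nonneg_of_mono d J hJ _ ((xyNice_cos m').add ((xyNice_cos m).const_mul _)) fun l hl => ?_
    have e1 : ∀ θ : V → ℝ, xyMono (l.map d) θ * (Real.cos (xyPh m' θ) + (-1) * Real.cos (xyPh m θ)) =
        xyMono (l.map d) θ * Real.cos (xyPh m' θ) - xyMono (l.map d) θ * Real.cos (xyPh m θ) := fun θ => by ring
    simp only [e1]
    rw [integral_sub ((xyNice_mono _).mul (xyNice_cos m')).integrable ((xyNice_mono _).mul (xyNice_cos m)).integrable,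
      xy_int_mono_cos, xy_int_mono_cos, ← mul_sub]
    exact mul_nonneg (by positivity) (sub_nonneg.2 (h l hl))
  rw [xyInt_add d J (xyNice_cos m') ((xyNice_cos m).const_mul _), xyInt_const_mul] at key
  unfold xyChar xyEx
  exact div_le_div_of_nonneg_right (by linarith) (xyPart_pos d J).le

theorem xyChar_eq_zero_of_cnt (hJ : ∀ e, 0 ≤ J e) (m : V → ℤ)
    (h : ∀ l : List E, (∀ e ∈ l, 0 < J e) → xyCnt (l.map d) m = 0) : xyChar d J m = 0 := by
  unfold xyChar xyEx
  rw [xyInt_zero_of_mono d J hJ _ (xyNice_cos m) fun l hl => by rw [xy_int_mono_cos, h l hl, mul_zero], zero_div]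

/-- strict positivity from one bond list. -/
theorem xyChar_pos_of_cnt (hJ : ∀ e, 0 ≤ J e) (m : V → ℤ) (l : List E) (hl : ∀ e ∈ l, 0 < J e) (h : 0 < xyCnt (l.map d) m) :
    0 < xyChar d J m := by
  have hpi : (0 : ℝ) < (2 * Real.pi) ^ Fintype.card V := by
    have := Real.pi_pos
    positivity
  have hbridge : ∀ l' : List E, ∫ θ, (l'.map fun e => Real.cos (xyPh (d e) θ)).prod * Real.cos (xyPh m θ) ∂xyAng V
      = (2 * Real.pi) ^ Fintype.card V * xyCnt (l'.map d) m := by
    intro l'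
    rw [← xy_int_mono_cos]
    simp [xyMono, List.map_map, Function.comp_def]
  have := xy_exp_pos' (xyAng V) (fun e θ => Real.cos (xyPh (d e) θ))
    (fun e => (Real.continuous_cos.comp (xyPh_continuous _)).measurable) (fun e θ => Real.abs_cos_le_one _) J hJ
    (fun θ => Real.cos (xyPh m θ)) (xyNice_cos m).integrable
    (fun l' _ => by
      rw [hbridge]
      exact mul_nonneg hpi.le (xyCnt_nonneg _ _))
    l hl (by
      rw [hbridge]
      exact mul_pos hpi h)
  unfold xyChar xyEx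
  apply div_pos _ (xyPart_pos d J)
  unfold xyInt xyEn
  simpa [mul_comm] using this

theorem xyEn_per [DecidableEq V] (θ : V → ℝ) (v : V) :
    xyEn d J (Function.update θ v (θ v + 2 * Real.pi)) = xyEn d J θ := by
  unfold xyEn
  apply Finset.sum_congr rfl
  intro e _
  have := xyPer_cos (d e) θ v
  simp only at this
  rw [this]

/-- the product of the monomials of two copies. -/
theorem xyMono_two (l : List E) (x y : V → ℝ) :
    (l.map fun e => Real.cos (xyPh (d e) x) * Real.cos (xyPh (d e) y)).prod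
      = xyMono (l.map d) x * xyMono (l.map d) y := by
  rw [List.prod_map_mul]
  simp [xyMono, List.map_map, Function.comp_def]

/-- the duplicated integral is nonnegative. -/
theorem xyGin_dup_nonneg (hJ : ∀ e, 0 ≤ J e) (a b : V → ℤ) :
    0 ≤ ∫ p : (V → ℝ) × (V → ℝ), Real.exp (∑ e, (2 * J e) * (Real.cos (xyPh (d e) p.1) * Real.cos (xyPh (d e) p.2))) *
      (4 * ((Real.sin (xyPh a p.1) * Real.sin (xyPh b p.1)) * (Real.sin (xyPh a p.2) * Real.sin (xyPh b p.2))))
      ∂((xyAng V).prod (xyAng V)) := by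
  have hφ : XyNice fun θ : V → ℝ => Real.sin (xyPh a θ) * Real.sin (xyPh b θ) := (xyNice_sin a).mul (xyNice_sin b)
  refine xy_exp_pos ((xyAng V).prod (xyAng V))
    (fun e p => Real.cos (xyPh (d e) p.1) * Real.cos (xyPh (d e) p.2)) ?_ ?_ (fun e => 2 * J e) ?_
    (fun p => 4 * ((Real.sin (xyPh a p.1) * Real.sin (xyPh b p.1)) * (Real.sin (xyPh a p.2) * Real.sin (xyPh b p.2))))
    ?_ ?_
  · intro e
    exact (((Real.continuous_cos.comp (xyPh_continuous _)).comp continuous_fst).mul
      ((Real.continuous_cos.comp (xyPh_continuous _)).comp continuous_snd)).measurable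
  · intro e p
    rw [abs_mul]
    exact mul_le_one₀ (Real.abs_cos_le_one _) (abs_nonneg _) (Real.abs_cos_le_one _)
  · intro e
    have := hJ e
    positivity
  · exact (hφ.integrable.mul_prod hφ.integrable).const_mul 4
  · intro l _
    have h1 : ∀ p : (V → ℝ) × (V → ℝ),
        (l.map fun e => Real.cos (xyPh (d e) p.1) * Real.cos (xyPh (d e) p.2)).prod *
        (4 * ((Real.sin (xyPh a p.1) * Real.sin (xyPh b p.1)) * (Real.sin (xyPh a p.2) * Real.sin (xyPh b p.2))))
        = 4 * ((xyMono (l.map d) p.1 * (Real.sin (xyPh a p.1) * Real.sin (xyPh b p.1))) *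
          (xyMono (l.map d) p.2 * (Real.sin (xyPh a p.2) * Real.sin (xyPh b p.2)))) := by
      intro p
      rw [xyMono_two]
      ring
    simp only [h1]
    rw [integral_const_mul, integral_prod_mul
      (fun θ => xyMono (l.map d) θ * (Real.sin (xyPh a θ) * Real.sin (xyPh b θ)))
      (fun θ => xyMono (l.map d) θ * (Real.sin (xyPh a θ) * Real.sin (xyPh b θ)))]
    have := mul_self_nonneg (∫ θ, xyMono (l.map d) θ * (Real.sin (xyPh a θ) * Real.sin (xyPh b θ)) ∂xyAng V)
    linarith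

/-- Ginibre II, unnormalised. -/
theorem xyGin_int [DecidableEq V] (hJ : ∀ e, 0 ≤ J e) (a b : V → ℤ) :
    xyInt d J (fun θ => Real.cos (xyPh a θ)) * xyInt d J (fun θ => Real.cos (xyPh b θ))
      ≤ xyPart d J * xyInt d J (fun θ => Real.cos (xyPh a θ) * Real.cos (xyPh b θ)) := by
  obtain ⟨w, hw⟩ : ∃ w : (V → ℝ) → ℝ, w = fun θ => Real.exp (xyEn d J θ) := ⟨_, rfl⟩
  obtain ⟨ca, hca⟩ : ∃ ca : (V → ℝ) → ℝ, ca = fun θ => Real.cos (xyPh a θ) := ⟨_, rfl⟩
  obtain ⟨cb, hcb⟩ : ∃ cb : (V → ℝ) → ℝ, cb = fun θ => Real.cos (xyPh b θ) := ⟨_, rfl⟩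
  have nw : XyNice w := by rw [hw]; exact xyNice_exp d J
  have na : XyNice ca := by rw [hca]; exact xyNice_cos a
  have nb : XyNice cb := by rw [hcb]; exact xyNice_cos b
  have pw : XyPer w := by
    intro θ v
    rw [hw]
    show Real.exp (xyEn d J _) = Real.exp (xyEn d J θ)
    rw [xyEn_per]
  have pa : XyPer ca := by rw [hca]; exact xyPer_cos a
  have pb : XyPer cb := by rw [hcb]; exact xyPer_cos b
  obtain ⟨F, hF⟩ : ∃ F : (V → ℝ) × (V → ℝ) → ℝ,
      F = fun p => w p.1 * w p.2 * (ca p.1 - ca p.2) * (cb p.1 - cb p.2) := ⟨_, rfl⟩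
  have hFc : Continuous F := by
    rw [hF]
    exact (((nw.1.comp continuous_fst).mul (nw.1.comp continuous_snd)).mul
      ((na.1.comp continuous_fst).sub (na.1.comp continuous_snd))).mul
      ((nb.1.comp continuous_fst).sub (nb.1.comp continuous_snd))
  have h1 : ∀ θ', XyPer fun θ => F (θ, θ') := by
    intro θ' θ v
    rw [hF]
    show w _ * w θ' * (ca _ - ca θ') * (cb _ - cb θ') = w θ * w θ' * (ca θ - ca θ') * (cb θ - cb θ')
    rw [pw θ v, pa θ v, pb θ v]
  have h2 : ∀ θ, XyPer fun θ' => F (θ, θ') := by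
    intro θ θ' v
    rw [hF]
    show w θ * w _ * (ca θ - ca _) * (cb θ - cb _) = w θ * w θ' * (ca θ - ca θ') * (cb θ - cb θ')
    rw [pw θ' v, pa θ' v, pb θ' v]
  have hdup := xy_dup F hFc h1 h2
  -- the right-hand side
  have hR : 0 ≤ ∫ p, F (p.1 + p.2, p.1 - p.2) ∂((xyAng V).prod (xyAng V)) := by
    refine le_of_le_of_eq (xyGin_dup_nonneg d J hJ a b) ?_
    congr 1
    funext p
    rw [hF, hw, hca, hcb]
    simp only [xyPh_add_right, xyPh_sub_right, Real.cos_add, Real.cos_sub]
    rw [← Real.exp_add]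
    have e1 : xyEn d J (p.1 + p.2) + xyEn d J (p.1 - p.2)
        = ∑ e, (2 * J e) * (Real.cos (xyPh (d e) p.1) * Real.cos (xyPh (d e) p.2)) := by
      unfold xyEn
      rw [← Finset.sum_add_distrib]
      apply Finset.sum_congr rfl
      intro e _
      rw [xyPh_add_right, xyPh_sub_right, Real.cos_add, Real.cos_sub]
      ring
    rw [e1]
    ring
  -- the left-hand side
  have i1 : Integrable (fun θ => 1 * w θ) (xyAng V) := (xyNice_one.mul nw).integrable
  have ia : Integrable (fun θ => ca θ * w θ) (xyAng V) := (na.mul nw).integrable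
  have ib : Integrable (fun θ => cb θ * w θ) (xyAng V) := (nb.mul nw).integrable
  have iab : Integrable (fun θ => ca θ * cb θ * w θ) (xyAng V) := ((na.mul nb).mul nw).integrable
  have hL : ∫ p, F p ∂((xyAng V).prod (xyAng V))
      = 2 * ((∫ θ, 1 * w θ ∂xyAng V) * (∫ θ, ca θ * cb θ * w θ ∂xyAng V)
        - (∫ θ, ca θ * w θ ∂xyAng V) * (∫ θ, cb θ * w θ ∂xyAng V)) := by
    have e1 : ∀ p : (V → ℝ) × (V → ℝ), F p
        = (ca p.1 * cb p.1 * w p.1) * (1 * w p.2) - (ca p.1 * w p.1) * (cb p.2 * w p.2)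
          - (cb p.1 * w p.1) * (ca p.2 * w p.2) + (1 * w p.1) * (ca p.2 * cb p.2 * w p.2) := by
      intro p
      rw [hF]
      ring
    simp only [e1]
    have j1 : Integrable (fun p : (V → ℝ) × (V → ℝ) => (ca p.1 * cb p.1 * w p.1) * (1 * w p.2))
        ((xyAng V).prod (xyAng V)) := iab.mul_prod i1
    have j2 : Integrable (fun p : (V → ℝ) × (V → ℝ) => (ca p.1 * w p.1) * (cb p.2 * w p.2))
        ((xyAng V).prod (xyAng V)) := ia.mul_prod ib
    have j3 : Integrable (fun p : (V → ℝ) × (V → ℝ) => (cb p.1 * w p.1) * (ca p.2 * w p.2))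
        ((xyAng V).prod (xyAng V)) := ib.mul_prod ia
    have j4 : Integrable (fun p : (V → ℝ) × (V → ℝ) => (1 * w p.1) * (ca p.2 * cb p.2 * w p.2))
        ((xyAng V).prod (xyAng V)) := i1.mul_prod iab
    have j12 : Integrable (fun p : (V → ℝ) × (V → ℝ) => (ca p.1 * cb p.1 * w p.1) * (1 * w p.2)
        - (ca p.1 * w p.1) * (cb p.2 * w p.2)) ((xyAng V).prod (xyAng V)) := j1.sub j2
    have j123 : Integrable (fun p : (V → ℝ) × (V → ℝ) => (ca p.1 * cb p.1 * w p.1) * (1 * w p.2)
        - (ca p.1 * w p.1) * (cb p.2 * w p.2) - (cb p.1 * w p.1) * (ca p.2 * w p.2))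
        ((xyAng V).prod (xyAng V)) := j12.sub j3
    rw [integral_add j123 j4, integral_sub j12 j3, integral_sub j1 j2,
      integral_prod_mul (fun θ => ca θ * cb θ * w θ) (fun θ => 1 * w θ),
      integral_prod_mul (fun θ => ca θ * w θ) (fun θ => cb θ * w θ),
      integral_prod_mul (fun θ => cb θ * w θ) (fun θ => ca θ * w θ),
      integral_prod_mul (fun θ => 1 * w θ) (fun θ => ca θ * cb θ * w θ)]
    ring
  rw [← hdup, hL] at hR
  unfold xyPart xyInt
  rw [hw, hca, hcb] at hR
  linarith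

/-- XY-G-2 (**Ginibre II**): `⟨cos a⟩⟨cos b⟩ ≤ ⟨cos a cos b⟩ = ½(⟨cos(a+b)⟩ + ⟨cos(a-b)⟩)`.
Proof.  `w = exp(xyEn)`, `Z = xyPart`.  `F(θ,θ') = w(θ) w(θ') (cos aθ - cos aθ')(cos bθ - cos bθ')`; Fubini (`integral_prod_mul`): `∫∫F = 2 (Z ∫ w cos a cos b - ∫ w cos a ∫ w cos b)`.
`xy_dup`: `∫∫F = ∫∫ F(x+y,x-y)`, and `F(x+y,x-y) = exp(∑_e 2 J_e cos(d_e x) cos(d_e y)) · 4 φ(x) φ(y)`, `φ = sin(a·) sin(b·)`
(`cos(A+B)+cos(A-B) = 2 cos A cos B`, `cos(A+B)-cos(A-B) = -2 sin A sin B`, `xyPh_add_right`, `xyPh_sub_right`).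
`xy_exp_pos` on the product space with `c_e(p) = cos(d_e p.1) cos(d_e p.2)`, `a_e = 2 J_e`, `g(p) = 4 φ(p.1) φ(p.2)`: the monomial integral is `4 (∫ xyMono (l.map d) φ)² ≥ 0`. -/
theorem xyChar_mul_le [DecidableEq V] (hJ : ∀ e, 0 ≤ J e) (a b : V → ℤ) :
    xyChar d J a * xyChar d J b ≤ (xyChar d J (a + b) + xyChar d J (a - b)) / 2 := by
  have hZ := xyPart_pos d J
  have h := xyGin_int d J hJ a b
  have hsum : xyInt d J (fun θ => Real.cos (xyPh (a + b) θ)) + xyInt d J (fun θ => Real.cos (xyPh (a - b) θ))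
      = 2 * xyInt d J (fun θ => Real.cos (xyPh a θ) * Real.cos (xyPh b θ)) := by
    rw [← xyInt_add d J (xyNice_cos _) (xyNice_cos _), ← xyInt_const_mul]
    congr 1
    funext θ
    rw [xyPh_add, xyPh_sub, Real.cos_add, Real.cos_sub]
    ring
  unfold xyChar xyEx
  rw [← add_div, hsum, div_mul_div_comm, div_div, div_le_div_iff₀ (by positivity) (by positivity)]
  have := mul_le_mul_of_nonneg_right h (by positivity : 0 ≤ xyPart d J * 2)
  nlinarith

/-- XY-G-3: Ginibre II against a monomial.  Induction on `l` (generalising `m`) from `xyChar_mul_le`: `xyMono (d'::l) cos m = ½ xyMono l (cos(m+d') + cos(m-d'))`; linearity `xyEx_add`, `xyEx_const_mul`. -/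
theorem xyEx_mono_ge [DecidableEq V] (hJ : ∀ e, 0 ≤ J e) (a : V → ℤ) (l : List (V → ℤ)) (m : V → ℤ) :
    xyChar d J a * xyEx d J (fun θ => xyMono l θ * Real.cos (xyPh m θ)) ≤
      xyEx d J fun θ => Real.cos (xyPh a θ) * (xyMono l θ * Real.cos (xyPh m θ)) := by
  induction l generalizing m with
  | nil =>
    have e1 : (fun θ : V → ℝ => xyMono ([] : List (V → ℤ)) θ * Real.cos (xyPh m θ))
        = fun θ => Real.cos (xyPh m θ) := by
      funext θ
      simp [xyMono]
    have e2 : (fun θ : V → ℝ => Real.cos (xyPh a θ) * (xyMono ([] : List (V → ℤ)) θ * Real.cos (xyPh m θ)))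
        = fun θ => (1 / 2) * (Real.cos (xyPh (a + m) θ) + Real.cos (xyPh (a - m) θ)) := by
      funext θ
      rw [xyPh_add, xyPh_sub, Real.cos_add, Real.cos_sub]
      have : xyMono ([] : List (V → ℤ)) θ = 1 := by simp [xyMono]
      rw [this]
      ring
    rw [e1, e2, xyEx_const_mul, xyEx_add d J (xyNice_cos _) (xyNice_cos _)]
    have := xyChar_mul_le d J hJ a m
    unfold xyChar at this ⊢
    linarith
  | cons d' l ih =>
    have n1 : ∀ m' : V → ℤ, XyNice fun θ => xyMono l θ * Real.cos (xyPh m' θ) :=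
      fun m' => (xyNice_mono l).mul (xyNice_cos m')
    have n2 : ∀ m' : V → ℤ, XyNice fun θ => Real.cos (xyPh a θ) * (xyMono l θ * Real.cos (xyPh m' θ)) :=
      fun m' => (xyNice_cos a).mul (n1 m')
    have e1 : (fun θ : V → ℝ => xyMono (d' :: l) θ * Real.cos (xyPh m θ))
        = fun θ => (1 / 2) * (xyMono l θ * Real.cos (xyPh (m + d') θ) + xyMono l θ * Real.cos (xyPh (m - d') θ)) := by
      funext θ
      rw [xyMono_cons, xyPh_add, xyPh_sub, Real.cos_add, Real.cos_sub]
      ring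
    have e2 : (fun θ : V → ℝ => Real.cos (xyPh a θ) * (xyMono (d' :: l) θ * Real.cos (xyPh m θ)))
        = fun θ => (1 / 2) * (Real.cos (xyPh a θ) * (xyMono l θ * Real.cos (xyPh (m + d') θ))
          + Real.cos (xyPh a θ) * (xyMono l θ * Real.cos (xyPh (m - d') θ))) := by
      funext θ
      rw [xyMono_cons, xyPh_add, xyPh_sub, Real.cos_add, Real.cos_sub]
      ring
    rw [e1, e2, xyEx_const_mul, xyEx_const_mul, xyEx_add d J (n1 _) (n1 _), xyEx_add d J (n2 _) (n2 _)]
    have h1 := ih (m + d')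
    have h2 := ih (m - d')
    linarith

/-- XY-G-4 (**monotonicity in the couplings**).  `J' = J + K`, `K ≥ 0`, `t = xyChar d J a`.  `xyInt d J' (cos a - t) = ∫ exp(∑ K_e cos(d_e θ)) g`, `g = (cos a - t) exp(xyEn d J)`;
`xy_exp_pos` with `a_e = K_e`: the monomial integrals are `xyPart d J * (⟨cos a · xyMono⟩_J - t ⟨xyMono⟩_J) ≥ 0` by `xyEx_mono_ge` with `m = 0`.  Divide by `xyPart d J' > 0`. -/
theorem xyChar_mono [DecidableEq V] (hJ : ∀ e, 0 ≤ J e) (J' : E → ℝ) (hJJ : ∀ e, J e ≤ J' e) (a : V → ℤ) :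
    xyChar d J a ≤ xyChar d J' a := by
  obtain ⟨t, ht⟩ : ∃ t, t = xyChar d J a := ⟨_, rfl⟩
  have hZ := xyPart_pos d J
  have hZ' := xyPart_pos d J'
  have nf : XyNice fun θ : V → ℝ => Real.cos (xyPh a θ) + (-t) * 1 :=
    (xyNice_cos a).add (xyNice_one.const_mul _)
  -- the key positivity
  have key : 0 ≤ xyInt d J' fun θ => Real.cos (xyPh a θ) + (-t) * 1 := by
    have h1 := xy_exp_pos (xyAng V) (fun e θ => Real.cos (xyPh (d e) θ))
      (fun e => (Real.continuous_cos.comp (xyPh_continuous _)).measurable) (fun e θ => Real.abs_cos_le_one _)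
      (fun e => J' e - J e) (fun e => sub_nonneg.2 (hJJ e))
      (fun θ => (Real.cos (xyPh a θ) + (-t) * 1) * Real.exp (xyEn d J θ)) (nf.mul (xyNice_exp d J)).integrable ?_
    · refine le_of_le_of_eq h1 ?_
      unfold xyInt
      congr 1
      funext θ
      have : xyEn d J' θ = (∑ e, (J' e - J e) * Real.cos (xyPh (d e) θ)) + xyEn d J θ := by
        unfold xyEn
        rw [← Finset.sum_add_distrib]
        apply Finset.sum_congr rfl
        intro e _
        ring
      rw [this, Real.exp_add]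
      ring
    · intro l _
      have nM : XyNice fun θ => xyMono (l.map d) θ * Real.cos (xyPh (0 : V → ℤ) θ) :=
        (xyNice_mono _).mul (xyNice_cos _)
      have e1 : ∫ θ, (l.map fun e => Real.cos (xyPh (d e) θ)).prod *
          ((Real.cos (xyPh a θ) + (-t) * 1) * Real.exp (xyEn d J θ)) ∂xyAng V
          = xyInt d J (fun θ => Real.cos (xyPh a θ) * (xyMono (l.map d) θ * Real.cos (xyPh (0 : V → ℤ) θ))
            + (-t) * (xyMono (l.map d) θ * Real.cos (xyPh (0 : V → ℤ) θ))) := by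
        unfold xyInt
        congr 1
        funext θ
        have : (l.map fun e => Real.cos (xyPh (d e) θ)).prod = xyMono (l.map d) θ := by
          simp [xyMono, List.map_map, Function.comp_def]
        rw [this]
        beta_reduce
        rw [xyPh_zero, Real.cos_zero]
        ring
      rw [e1, xyInt_add d J ((xyNice_cos a).mul nM) (nM.const_mul _), xyInt_const_mul]
      have h2 := xyEx_mono_ge d J hJ a (l.map d) 0
      unfold xyEx at h2
      rw [← ht, ← mul_div_assoc, div_le_div_iff_of_pos_right hZ] at h2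
      linarith
  rw [xyInt_add d J' (xyNice_cos a) (xyNice_one.const_mul _), xyInt_const_mul] at key
  rw [← ht]
  unfold xyChar xyEx
  rw [le_div_iff₀ hZ']
  unfold xyPart
  linarith

/-- continuity of the unnormalised integral in the couplings. -/
theorem xyInt_continuous {f : (V → ℝ) → ℝ} (hf : XyNice f) : Continuous fun J : E → ℝ => xyInt d J f := by
  obtain ⟨hfc, C, hC⟩ := hf
  rw [continuous_iff_continuousAt]
  intro J₀
  unfold xyInt
  apply continuousAt_of_dominated (bound := fun _ => C * Real.exp (∑ e, (|J₀ e| + 1)))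
  · exact Filter.Eventually.of_forall fun J =>
      (hfc.mul (xyNice_exp d J).1).aestronglyMeasurable
  · have hball : Metric.ball J₀ 1 ∈ 𝓝 J₀ := Metric.ball_mem_nhds _ one_pos
    filter_upwards [hball] with J hJ
    refine Filter.Eventually.of_forall fun θ => ?_
    rw [norm_mul, Real.norm_eq_abs, Real.norm_eq_abs, abs_of_pos (Real.exp_pos _)]
    have hC0 : 0 ≤ C := (abs_nonneg _).trans (hC θ)
    apply mul_le_mul (hC θ) _ (Real.exp_pos _).le hC0
    apply Real.exp_le_exp.2
    refine ((le_abs_self _).trans (xyEn_abs_le d J θ)).trans (Finset.sum_le_sum fun e _ => ?_)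
    have h1 : dist (J e) (J₀ e) < 1 := lt_of_le_of_lt (dist_le_pi_dist J J₀ e) (Metric.mem_ball.mp hJ)
    rw [Real.dist_eq] at h1
    have h2 : |J e| ≤ |J e - J₀ e| + |J₀ e| := by
      have := abs_add_le (J e - J₀ e) (J₀ e)
      simpa using this
    linarith
  · exact integrable_const _
  · refine Filter.Eventually.of_forall fun θ => ?_
    apply Continuous.continuousAt
    apply continuous_const.mul
    apply Real.continuous_exp.comp
    unfold xyEn
    exact continuous_finsetSum _ fun e _ => (continuous_apply e).mul continuous_const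

/-- XY-G-5: continuity in the couplings (`continuous_of_dominated` locally, quotient of continuous functions, `xyPart_pos`). -/
theorem xyChar_continuous (m : V → ℤ) : Continuous fun J : E → ℝ => xyChar d J m := by
  unfold xyChar xyEx
  exact (xyInt_continuous d (xyNice_cos m)).div (xyInt_continuous d xyNice_one) fun J => (xyPart_pos d J).ne'

end

end Claimed.Agent.R285
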