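import Claimed.Agent.R285.Xy.Gin

/-!
# ROW 285, XY BASICS 4: pair systems: supermultiplicativity and the Lieb-Rivasseau inequality (owner helper177)

`J : V × V → ℝ`, `J ≥ 0`, energy `∑_{(x,y)} J(x,y) cos(θ_x - θ_y)`.  Paper-free.  NEW PROOFS (the papers cite Ginibre, vEL Lemma 19, Lieb, Rivasseau): everything follows from the trail lemma `xyCntB_trail`.
-/

set_option autoImplicit false
set_option linter.unusedSectionVars false

namespace Claimed.Agent.R285

open MeasureTheory Filter Topology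

noncomputable section

variable {V : Type*} [Fintype V] [DecidableEq V] (J : V × V → ℝ)

theorem xyCh_nonneg (hJ : ∀ p, 0 ≤ J p) (m : V → ℤ) : 0 ≤ xyCh J m := xyChar_nonneg _ _ hJ m

theorem xyCh_le_one (m : V → ℤ) : xyCh J m ≤ 1 := xyChar_le_one _ _ m

theorem xyCh_neg (m : V → ℤ) : xyCh J (-m) = xyCh J m := xyChar_neg _ _ m

theorem xyCh_zero : xyCh J 0 = 1 := xyChar_zero _ _

theorem xyTwo_nonneg (hJ : ∀ p, 0 ≤ J p) (u v : V) : 0 ≤ xyTwo J u v := xyCh_nonneg J hJ _

theorem xyTwo_le_one (u v : V) : xyTwo J u v ≤ 1 := xyCh_le_one J _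

theorem xyTwo_symm (u v : V) : xyTwo J u v = xyTwo J v u := by
  unfold xyTwo; rw [← xyCh_neg, neg_sub]

theorem xyTwo_self (u : V) : xyTwo J u u = 1 := by
  unfold xyTwo; rw [sub_self, xyCh_zero]

theorem xyTwo_mono (hJ : ∀ p, 0 ≤ J p) (J' : V × V → ℝ) (hJJ : ∀ p, J p ≤ J' p) (u v : V) : xyTwo J u v ≤ xyTwo J' u v :=
  xyChar_mono _ _ hJ J' hJJ _

/-- neutrality. -/
theorem xyCh_eq_zero_of_sum (hJ : ∀ p, 0 ≤ J p) (m : V → ℤ) (hm : ∑ v, m v ≠ 0) : xyCh J m = 0 :=
  xyChar_eq_zero_of_cnt _ _ hJ m fun l _ => xyCntB_eq_zero_of_sum l m hm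

/-- a charge at an isolated vertex. -/
theorem xyCh_eq_zero_of_isolated (hJ : ∀ p, 0 ≤ J p) (w : V) (hw : ∀ p : V × V, p.1 = w ∨ p.2 = w → J p = 0) (m : V → ℤ)
    (hm : m w ≠ 0) : xyCh J m = 0 := by
  refine xyChar_eq_zero_of_cnt _ _ hJ m fun l hl => xyCntB_eq_zero_of_isolated l w (fun p hp => ?_) m hm
  have h0 := hl p hp
  constructor
  · intro h; rw [hw p (Or.inl h)] at h0; exact lt_irrefl _ h0
  · intro h; rw [hw p (Or.inr h)] at h0; exact lt_irrefl _ h0

/-- `⟨cos(θ_u + θ_z - 2θ_v)⟩ ≤ ⟨cos(θ_u - θ_z)⟩`, i.e. `⟨sin(θ_u-θ_v) sin(θ_z-θ_v)⟩ ≥ 0` ([E] Lemma 6.1, there by conditional Ising signs). -/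
theorem xyCh_tri (hJ : ∀ p, 0 ≤ J p) (u z v : V) :
    xyCh J (xyDel u + xyDel z - 2 • xyDel v) ≤ xyCh J (xyDel u - xyDel z) := by
  refine xyChar_le_of_cnt _ _ hJ _ _ fun l _ => ?_
  have h := xyCntB_trail {v} l u (xyDel u + xyDel z - 2 • xyDel v) ?_ ?_
  · rw [Finset.sum_singleton] at h
    have e : 2 • xyDel u - 2 • xyDel v - (xyDel u + xyDel z - 2 • xyDel v) = xyDel u - xyDel z := by
      rw [two_nsmul, two_nsmul]; abel
    rw [e] at h
    exact h
  · by_cases huv : u = v
    · left; simp [huv]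
    · right
      have : 0 ≤ xyDel z u := by unfold xyDel; rw [Pi.single_apply]; split_ifs <;> norm_num
      simp only [Pi.sub_apply, Pi.add_apply, Pi.smul_apply]
      have h1 : xyDel u u = 1 := by simp [xyDel]
      have h2 : xyDel v u = 0 := by simp [xyDel, huv]
      rw [h1, h2]; simp; exact this
  · intro x hx hxu
    have hxv : x ≠ v := by simpa using hx
    have : 0 ≤ xyDel z x := by unfold xyDel; rw [Pi.single_apply]; split_ifs <;> norm_num
    simp only [Pi.sub_apply, Pi.add_apply, Pi.smul_apply]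
    have h1 : xyDel u x = 0 := by simp [xyDel, hxu]
    have h2 : xyDel v x = 0 := by simp [xyDel, hxv]
    rw [h1, h2]; simp; exact this

/-- **supermultiplicativity** on every finite graph ([E] Lemma 6.1; vEL Lemma 19). -/
theorem xyTwo_supermul (hJ : ∀ p, 0 ≤ J p) (u v z : V) : xyTwo J u v * xyTwo J v z ≤ xyTwo J u z := by
  have h := xyChar_mul_le xyBond J hJ (xyDel u - xyDel v) (xyDel v - xyDel z)
  have e1 : xyDel u - xyDel v + (xyDel v - xyDel z) = xyDel u - xyDel z := by abel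
  have e2 : xyDel u - xyDel v - (xyDel v - xyDel z) = xyDel u + xyDel z - 2 • xyDel v := by rw [two_nsmul]; abel
  rw [e1, e2] at h
  have h2 := xyCh_tri J hJ u z v
  unfold xyTwo xyCh at *
  linarith

/-- bounded continuous functions of two copies are integrable. -/
theorem xy_integrable2 (f : (V → ℝ) × (V → ℝ) → ℝ) (hf : Continuous f) (C : ℝ) (hC : ∀ p, |f p| ≤ C) :
    Integrable f ((xyAng V).prod (xyAng V)) :=
  Integrable.of_bound hf.aestronglyMeasurable C (Filter.Eventually.of_forall fun p => by simpa using hC p)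

/-- **the duplication principle**: positivity of a two-copy integral follows from positivity of the monomial integrals in Ginibre's variables. -/
theorem xyDup_nonneg {E : Type*} [Fintype E] (d : E → V → ℤ) (K : E → ℝ) (hK : ∀ e, 0 ≤ K e)
    (g : (V → ℝ) × (V → ℝ) → ℝ) (hg : Continuous g) (C : ℝ) (hC : ∀ p, |g p| ≤ C)
    (h1 : ∀ θ', XyPer fun θ => g (θ, θ')) (h2 : ∀ θ, XyPer fun θ' => g (θ, θ'))
    (h : ∀ l : List E, (∀ e ∈ l, 0 < K e) →
      0 ≤ ∫ p : (V → ℝ) × (V → ℝ), xyMono (l.map d) p.1 * xyMono (l.map d) p.2 * g (p.1 + p.2, p.1 - p.2)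
        ∂((xyAng V).prod (xyAng V))) :
    0 ≤ ∫ p : (V → ℝ) × (V → ℝ), Real.exp (xyEn d K p.1) * Real.exp (xyEn d K p.2) * g p
      ∂((xyAng V).prod (xyAng V)) := by
  have hw : Continuous fun θ : V → ℝ => Real.exp (xyEn d K θ) := (xyNice_exp d K).1
  have hdup := xy_dup (fun p => Real.exp (xyEn d K p.1) * Real.exp (xyEn d K p.2) * g p)
    (((hw.comp continuous_fst).mul (hw.comp continuous_snd)).mul hg)
    (by
      intro θ' θ v
      show Real.exp (xyEn d K _) * Real.exp (xyEn d K θ') * g (_, θ') = Real.exp (xyEn d K θ) * Real.exp (xyEn d K θ') * g (θ, θ')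
      have e : g (Function.update θ v (θ v + 2 * Real.pi), θ') = g (θ, θ') := h1 θ' θ v
      rw [xyEn_per, e])
    (by
      intro θ θ' v
      show Real.exp (xyEn d K θ) * Real.exp (xyEn d K _) * g (θ, _) = Real.exp (xyEn d K θ) * Real.exp (xyEn d K θ') * g (θ, θ')
      have e : g (θ, Function.update θ' v (θ' v + 2 * Real.pi)) = g (θ, θ') := h2 θ θ' v
      rw [xyEn_per, e])
  rw [hdup]
  have hg' : Continuous fun p : (V → ℝ) × (V → ℝ) => g (p.1 + p.2, p.1 - p.2) :=
    hg.comp ((continuous_fst.add continuous_snd).prodMk (continuous_fst.sub continuous_snd))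
  have key := xy_exp_pos ((xyAng V).prod (xyAng V))
    (fun e p => Real.cos (xyPh (d e) p.1) * Real.cos (xyPh (d e) p.2))
    (fun e => (((Real.continuous_cos.comp (xyPh_continuous _)).comp continuous_fst).mul
      ((Real.continuous_cos.comp (xyPh_continuous _)).comp continuous_snd)).measurable)
    (fun e p => by
      rw [abs_mul]
      exact mul_le_one₀ (Real.abs_cos_le_one _) (abs_nonneg _) (Real.abs_cos_le_one _))
    (fun e => 2 * K e) (fun e => by have := hK e; positivity)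
    (fun p => g (p.1 + p.2, p.1 - p.2)) (xy_integrable2 _ hg' C fun p => hC _)
    (fun l hl => by
      have := h l (fun e he => by have := hl e he; linarith)
      refine le_of_le_of_eq this ?_
      congr 1
      funext p
      rw [xyMono_two])
  refine le_of_le_of_eq key ?_
  congr 1
  funext p
  show _ = Real.exp (xyEn d K (p.1 + p.2)) * Real.exp (xyEn d K (p.1 - p.2)) * g (p.1 + p.2, p.1 - p.2)
  rw [← Real.exp_add]
  have e1 : xyEn d K (p.1 + p.2) + xyEn d K (p.1 - p.2)
      = ∑ e, (2 * K e) * (Real.cos (xyPh (d e) p.1) * Real.cos (xyPh (d e) p.2)) := by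
    unfold xyEn
    rw [← Finset.sum_add_distrib]
    apply Finset.sum_congr rfl
    intro e _
    rw [xyPh_add_right, xyPh_sub_right, Real.cos_add, Real.cos_sub]
    ring
  rw [e1]

/-- integrability of a two-copy monomial. -/
theorem xy_integrable_two (l : List (V → ℤ)) (α β : V → ℤ) :
    Integrable (fun p : (V → ℝ) × (V → ℝ) => xyMono l p.1 * xyMono l p.2 * Real.cos (xyPh α p.1 + xyPh β p.2))
      ((xyAng V).prod (xyAng V)) := by
  apply xy_integrable2 _ _ 1
  · intro p
    rw [abs_mul, abs_mul]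
    exact mul_le_one₀ (mul_le_one₀ (xyMono_abs_le l _) (abs_nonneg _) (xyMono_abs_le l _)) (abs_nonneg _)
      (Real.abs_cos_le_one _)
  · exact (((xyMono_continuous l).comp continuous_fst).mul ((xyMono_continuous l).comp continuous_snd)).mul
      (Real.continuous_cos.comp (((xyPh_continuous α).comp continuous_fst).add ((xyPh_continuous β).comp continuous_snd)))

/-- the monomial integral of Lieb's inequality. -/
theorem xyLieb_mono (B : Finset V) (u : V) (k : V → ℤ) (hk : ∀ x, x ∉ B → k x = 0) (l : List (V × V)) :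
    0 ≤ ∫ p : (V → ℝ) × (V → ℝ), xyMono (l.map xyBond) p.1 * xyMono (l.map xyBond) p.2 *
      ((∑ z ∈ B, Real.cos (xyPh (xyDel u - xyDel z) (p.1 - p.2)) * Real.cos (xyPh (xyDel z - k) (p.1 + p.2)))
        - Real.cos (xyPh (xyDel u - k) (p.1 + p.2))) ∂((xyAng V).prod (xyAng V)) := by
  obtain ⟨L, hL⟩ : ∃ L, L = l.map xyBond := ⟨_, rfl⟩
  rw [← hL]
  have hpt : ∀ (z : V) (x y : V → ℝ),
      Real.cos (xyPh (xyDel u - xyDel z) (x - y)) * Real.cos (xyPh (xyDel z - k) (x + y))
      = (1 / 2) * (Real.cos (xyPh (xyDel u - k) x + xyPh (xyDel z + xyDel z - xyDel u - k) y)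
        + Real.cos (xyPh (xyDel u - xyDel z - xyDel z + k) x + xyPh (k - xyDel u) y)) := by
    intro z x y
    have eA : xyPh (xyDel u - k) x + xyPh (xyDel z + xyDel z - xyDel u - k) y
        = xyPh (xyDel u - xyDel z) (x - y) + xyPh (xyDel z - k) (x + y) := by
      simp only [xyPh_sub, xyPh_add, xyPh_sub_right, xyPh_add_right]
      ring
    have eB : xyPh (xyDel u - xyDel z - xyDel z + k) x + xyPh (k - xyDel u) y
        = xyPh (xyDel u - xyDel z) (x - y) - xyPh (xyDel z - k) (x + y) := by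
      simp only [xyPh_sub, xyPh_add, xyPh_sub_right, xyPh_add_right]
      ring
    rw [eA, eB, Real.cos_add, Real.cos_sub]
    ring
  have hpt2 : ∀ p : (V → ℝ) × (V → ℝ), xyMono L p.1 * xyMono L p.2 *
      ((∑ z ∈ B, Real.cos (xyPh (xyDel u - xyDel z) (p.1 - p.2)) * Real.cos (xyPh (xyDel z - k) (p.1 + p.2)))
        - Real.cos (xyPh (xyDel u - k) (p.1 + p.2)))
      = (∑ z ∈ B, (1 / 2) * (xyMono L p.1 * xyMono L p.2 *
            Real.cos (xyPh (xyDel u - k) p.1 + xyPh (xyDel z + xyDel z - xyDel u - k) p.2)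
          + xyMono L p.1 * xyMono L p.2 *
            Real.cos (xyPh (xyDel u - xyDel z - xyDel z + k) p.1 + xyPh (k - xyDel u) p.2)))
        - xyMono L p.1 * xyMono L p.2 * Real.cos (xyPh (xyDel u - k) p.1 + xyPh (xyDel u - k) p.2) := by
    intro p
    rw [mul_sub, Finset.mul_sum, xyPh_add_right]
    congr 1
    apply Finset.sum_congr rfl
    intro z _
    rw [hpt]
    ring
  simp only [hpt2]
  have iz : ∀ z ∈ B, Integrable (fun p : (V → ℝ) × (V → ℝ) => (1 / 2) * (xyMono L p.1 * xyMono L p.2 *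
            Real.cos (xyPh (xyDel u - k) p.1 + xyPh (xyDel z + xyDel z - xyDel u - k) p.2)
          + xyMono L p.1 * xyMono L p.2 *
            Real.cos (xyPh (xyDel u - xyDel z - xyDel z + k) p.1 + xyPh (k - xyDel u) p.2)))
      ((xyAng V).prod (xyAng V)) := fun z _ =>
    ((xy_integrable_two L _ _).add (xy_integrable_two L _ _)).const_mul _
  rw [integral_sub (integrable_finsetSum _ iz) (xy_integrable_two L _ _), integral_finsetSum _ iz,
    xy_int_mono_two]
  have hz : ∀ z ∈ B, ∫ p : (V → ℝ) × (V → ℝ), (1 / 2) * (xyMono L p.1 * xyMono L p.2 *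
            Real.cos (xyPh (xyDel u - k) p.1 + xyPh (xyDel z + xyDel z - xyDel u - k) p.2)
          + xyMono L p.1 * xyMono L p.2 *
            Real.cos (xyPh (xyDel u - xyDel z - xyDel z + k) p.1 + xyPh (k - xyDel u) p.2))
      ∂((xyAng V).prod (xyAng V))
      = ((2 * Real.pi) ^ Fintype.card V) ^ 2 * xyCnt L (xyDel u - k) * xyCnt L (xyDel u - xyDel z - xyDel z + k) := by
    intro z _
    rw [integral_const_mul, integral_add (xy_integrable_two L _ _) (xy_integrable_two L _ _),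
      xy_int_mono_two, xy_int_mono_two]
    have n1 : xyDel z + xyDel z - xyDel u - k = -(xyDel u - xyDel z - xyDel z + k) := by abel
    have n2 : k - xyDel u = -(xyDel u - k) := by abel
    rw [n1, n2, xyCnt_neg, xyCnt_neg]
    ring
  rw [Finset.sum_congr rfl hz, ← Finset.mul_sum]
  have htrail := xyCntB_trail B l u (xyDel u - k) ?_ ?_
  · have e : ∀ z, 2 • xyDel u - 2 • xyDel z - (xyDel u - k) = xyDel u - xyDel z - xyDel z + k := by
      intro z
      rw [two_nsmul, two_nsmul]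
      abel
    simp only [e] at htrail
    unfold xyCntB at htrail
    rw [← hL] at htrail
    have h0 := xyCnt_nonneg L (xyDel u - k)
    have hC : (0 : ℝ) ≤ ((2 * Real.pi) ^ Fintype.card V) ^ 2 := by positivity
    have : 0 ≤ ((2 * Real.pi) ^ Fintype.card V) ^ 2 * xyCnt L (xyDel u - k) *
        (∑ z ∈ B, xyCnt L (xyDel u - xyDel z - xyDel z + k) - xyCnt L (xyDel u - k)) :=
      mul_nonneg (mul_nonneg hC h0) (sub_nonneg.2 htrail)
    linarith
  · by_cases huB : u ∈ B
    · exact Or.inl huB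
    · right
      have h1 : xyDel u u = 1 := by simp [xyDel]
      simp only [Pi.sub_apply, h1, hk u huB]
      norm_num
  · intro x hxB hxu
    have h1 : xyDel u x = 0 := by simp [xyDel, hxu]
    simp only [Pi.sub_apply, h1, hk x hxB]
    norm_num

/-- XY-P-1 (**Lieb's inequality inside one graph**).  `k` is supported on `B`.
Proof.  `Z = xyPart`, `w = exp(xyEn)`.  `Z² (RHS - LHS) = ∫∫ w(θ) w(θ') [∑_{z∈B} cos((δ_u-δ_z)θ') cos((δ_z-k)θ) - cos((δ_u-k)θ)]` (Fubini).  `xy_dup`, then `xy_exp_pos` on the product space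
(`c_e(p) = cos(d_e p.1) cos(d_e p.2)`, `a_e = 2 J_e`) reduce the claim to: for every bond list `l`, with `P = xyMono (l.map xyBond)`,
`∫∫ P(x) P(y) [∑_z cos((δ_u-δ_z)(x-y)) cos((δ_z-k)(x+y)) - cos((δ_u-k)(x+y))] ≥ 0`.
`cos α cos β = ½(cos(α+β) + cos(α-β))`, `α+β = (δ_u-k)x + (2δ_z-δ_u-k)y`, `α-β = (δ_u-2δ_z+k)x + (k-δ_u)y`; by `xy_int_mono_two` and `xyCnt_neg` the integral is
`(2π)^{2|V|} c(δ_u-k) [∑_z c(δ_u+k-2δ_z) - c(δ_u-k)]`, `c = xyCntB l`; this is `≥ 0` by `xyCntB_nonneg` and `xyCntB_trail B l u (δ_u-k)` (`2δ_u-2δ_z-(δ_u-k) = δ_u+k-2δ_z`;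
if `u ∉ B` then `(δ_u-k) u = 1`; `(δ_u-k) x = 0` for `x ∉ B`, `x ≠ u`). -/
theorem xyCh_lieb (hJ : ∀ p, 0 ≤ J p) (B : Finset V) (u : V) (k : V → ℤ) (hk : ∀ x, x ∉ B → k x = 0) :
    xyCh J (xyDel u - k) ≤ ∑ z ∈ B, xyTwo J u z * xyCh J (xyDel z - k) := by
  have hZ := xyPart_pos xyBond J
  have cc : ∀ m : V → ℤ, Continuous fun θ : V → ℝ => Real.cos (xyPh m θ) := fun m => (xyNice_cos m).1
  have pc : ∀ (m : V → ℤ) (θ : V → ℝ) (v : V),
      Real.cos (xyPh m (Function.update θ v (θ v + 2 * Real.pi))) = Real.cos (xyPh m θ) :=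
    fun m θ v => xyPer_cos m θ v
  have key := xyDup_nonneg xyBond J hJ
    (fun p => (∑ z ∈ B, Real.cos (xyPh (xyDel u - xyDel z) p.2) * Real.cos (xyPh (xyDel z - k) p.1))
      - Real.cos (xyPh (xyDel u - k) p.1))
    ((continuous_finsetSum _ fun z _ => ((cc _).comp continuous_snd).mul ((cc _).comp continuous_fst)).sub
      ((cc _).comp continuous_fst))
    ((B.card : ℝ) + 1)
    (fun p => by
      refine (abs_sub _ _).trans (add_le_add ?_ (Real.abs_cos_le_one _))
      refine (Finset.abs_sum_le_sum_abs _ _).trans ?_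
      have : ∀ z ∈ B, |Real.cos (xyPh (xyDel u - xyDel z) p.2) * Real.cos (xyPh (xyDel z - k) p.1)| ≤ 1 := by
        intro z _
        rw [abs_mul]
        exact mul_le_one₀ (Real.abs_cos_le_one _) (abs_nonneg _) (Real.abs_cos_le_one _)
      refine (Finset.sum_le_sum this).trans ?_
      simp)
    (by
      intro θ' θ v
      simp only [pc])
    (by
      intro θ θ' v
      simp only [pc])
    (fun l _ => xyLieb_mono B u k hk l)
  -- Fubini
  obtain ⟨w, hw⟩ : ∃ w : (V → ℝ) → ℝ, w = fun θ => Real.exp (xyEn xyBond J θ) := ⟨_, rfl⟩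
  have nw : XyNice w := by rw [hw]; exact xyNice_exp xyBond J
  have ic : ∀ m : V → ℤ, Integrable (fun θ => Real.cos (xyPh m θ) * w θ) (xyAng V) :=
    fun m => ((xyNice_cos m).mul nw).integrable
  have i1 : Integrable (fun θ => 1 * w θ) (xyAng V) := (xyNice_one.mul nw).integrable
  have hF : ∫ p : (V → ℝ) × (V → ℝ), Real.exp (xyEn xyBond J p.1) * Real.exp (xyEn xyBond J p.2) *
      ((∑ z ∈ B, Real.cos (xyPh (xyDel u - xyDel z) p.2) * Real.cos (xyPh (xyDel z - k) p.1))
        - Real.cos (xyPh (xyDel u - k) p.1)) ∂((xyAng V).prod (xyAng V))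
      = (∑ z ∈ B, (∫ θ, Real.cos (xyPh (xyDel z - k) θ) * w θ ∂xyAng V) *
          (∫ θ, Real.cos (xyPh (xyDel u - xyDel z) θ) * w θ ∂xyAng V))
        - (∫ θ, Real.cos (xyPh (xyDel u - k) θ) * w θ ∂xyAng V) * (∫ θ, 1 * w θ ∂xyAng V) := by
    have e1 : ∀ p : (V → ℝ) × (V → ℝ), Real.exp (xyEn xyBond J p.1) * Real.exp (xyEn xyBond J p.2) *
        ((∑ z ∈ B, Real.cos (xyPh (xyDel u - xyDel z) p.2) * Real.cos (xyPh (xyDel z - k) p.1))
          - Real.cos (xyPh (xyDel u - k) p.1))
        = (∑ z ∈ B, (Real.cos (xyPh (xyDel z - k) p.1) * w p.1) * (Real.cos (xyPh (xyDel u - xyDel z) p.2) * w p.2))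
          - (Real.cos (xyPh (xyDel u - k) p.1) * w p.1) * (1 * w p.2) := by
      intro p
      rw [hw, mul_sub, Finset.mul_sum]
      congr 1
      · apply Finset.sum_congr rfl
        intro z _
        ring
      · ring
    simp only [e1]
    have jz : ∀ z ∈ B, Integrable (fun p : (V → ℝ) × (V → ℝ) =>
        (Real.cos (xyPh (xyDel z - k) p.1) * w p.1) * (Real.cos (xyPh (xyDel u - xyDel z) p.2) * w p.2))
        ((xyAng V).prod (xyAng V)) := fun z _ => (ic _).mul_prod (ic _)
    have j0 : Integrable (fun p : (V → ℝ) × (V → ℝ) =>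
        (Real.cos (xyPh (xyDel u - k) p.1) * w p.1) * (1 * w p.2)) ((xyAng V).prod (xyAng V)) := (ic _).mul_prod i1
    rw [integral_sub (integrable_finsetSum _ jz) j0, integral_finsetSum _ jz,
      integral_prod_mul (fun θ => Real.cos (xyPh (xyDel u - k) θ) * w θ) (fun θ => 1 * w θ)]
    congr 1
    apply Finset.sum_congr rfl
    intro z _
    exact integral_prod_mul (fun θ => Real.cos (xyPh (xyDel z - k) θ) * w θ)
      (fun θ => Real.cos (xyPh (xyDel u - xyDel z) θ) * w θ)
  rw [hF, hw] at key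
  unfold xyTwo xyCh xyChar xyEx
  have hsum : ∑ z ∈ B, xyInt xyBond J (fun θ => Real.cos (xyPh (xyDel u - xyDel z) θ)) / xyPart xyBond J *
      (xyInt xyBond J (fun θ => Real.cos (xyPh (xyDel z - k) θ)) / xyPart xyBond J)
      = (∑ z ∈ B, xyInt xyBond J (fun θ => Real.cos (xyPh (xyDel z - k) θ)) *
        xyInt xyBond J (fun θ => Real.cos (xyPh (xyDel u - xyDel z) θ))) / (xyPart xyBond J * xyPart xyBond J) := by
    rw [Finset.sum_div]
    apply Finset.sum_congr rfl
    intro z _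
    rw [div_mul_div_comm, mul_comm (xyInt xyBond J _)]
  rw [hsum, div_le_div_iff₀ hZ (mul_pos hZ hZ)]
  have key2 : xyInt xyBond J (fun θ => Real.cos (xyPh (xyDel u - k) θ)) * xyPart xyBond J
      ≤ ∑ z ∈ B, xyInt xyBond J (fun θ => Real.cos (xyPh (xyDel z - k) θ)) *
        xyInt xyBond J (fun θ => Real.cos (xyPh (xyDel u - xyDel z) θ)) := by
    unfold xyPart xyInt
    linarith
  have := mul_le_mul_of_nonneg_right key2 hZ.le
  linarith

theorem xyRes_nonneg (hJ : ∀ p, 0 ≤ J p) (A : Finset V) (p : V × V) : 0 ≤ xyRes J A p := by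
  unfold xyRes
  split_ifs
  · exact hJ p
  · exact le_refl _

theorem xyRes_isolated (A : Finset V) (w : V) (hw : w ∉ A) (p : V × V) (hp : p.1 = w ∨ p.2 = w) :
    xyRes J A p = 0 := by
  unfold xyRes
  rw [if_neg]
  rintro ⟨h1, h2⟩
  rcases hp with h | h
  · exact hw (h ▸ h1)
  · exact hw (h ▸ h2)

theorem xyBdry_subset (A : Finset V) : xyBdry J A ⊆ A := Finset.filter_subset _ _

/-- a bond of `J` which is not inside `A` does not touch `A \ ∂A`. -/
theorem xyBond_off (A : Finset V) (p : V × V) (hp : J p ≠ 0 ∧ ¬ (p.1 ∈ A ∧ p.2 ∈ A)) (x : V) (hx : x ∈ A)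
    (hxB : x ∉ xyBdry J A) : xyBond p x = 0 := by
  obtain ⟨a, b⟩ := p
  simp only at hp
  have h1 : x ≠ a := by
    rintro rfl
    apply hxB
    unfold xyBdry
    rw [Finset.mem_filter]
    exact ⟨hx, b, fun hb => hp.2 ⟨hx, hb⟩, Or.inl hp.1⟩
  have h2 : x ≠ b := by
    rintro rfl
    apply hxB
    unfold xyBdry
    rw [Finset.mem_filter]
    exact ⟨hx, a, fun ha => hp.2 ⟨ha, hx⟩, Or.inr hp.1⟩
  simp [xyBond, xyDel, h1, h2]

/-- XY-P-2: Lieb's inequality against a monomial of outside bonds.  `JA = xyRes J A`, `t_z = xyTwo JA u z`, `B = xyBdry J A`.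
`l` is a list of bonds of `J` which are not inside `A`; `k` vanishes on `A \ B`.
Induction on `l` generalising `k` (`xyMono (d::l) cos q = ½ xyMono l (cos(q+d) + cos(q-d))`; `k ∓ d` still vanishes on `A \ B`: a bond with `J ≠ 0`, not inside `A`, does not touch `A \ B`).
Base `l = []`: if `k` vanishes outside `A`, this is `xyCh_lieb JA B u k`; otherwise `k w ≠ 0` for some `w ∉ A`, `w` is isolated for `JA` and all terms vanish (`xyCh_eq_zero_of_isolated`; `u ∈ A`, `B ⊆ A`). -/
theorem xyEx_lieb_mono (hJ : ∀ p, 0 ≤ J p) (A : Finset V) (u : V) (hu : u ∈ A) (l : List (V × V))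
    (hl : ∀ p ∈ l, J p ≠ 0 ∧ ¬ (p.1 ∈ A ∧ p.2 ∈ A)) (k : V → ℤ) (hk : ∀ x ∈ A, x ∉ xyBdry J A → k x = 0) :
    xyEx xyBond (xyRes J A) (fun θ => xyMono (l.map xyBond) θ * Real.cos (xyPh (xyDel u - k) θ)) ≤
      ∑ z ∈ xyBdry J A, xyTwo (xyRes J A) u z *
        xyEx xyBond (xyRes J A) (fun θ => xyMono (l.map xyBond) θ * Real.cos (xyPh (xyDel z - k) θ)) := by
  have hJA := xyRes_nonneg J hJ A
  induction l generalizing k with
  | nil =>
    have e1 : ∀ m : V → ℤ, xyEx xyBond (xyRes J A)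
        (fun θ => xyMono (([] : List (V × V)).map xyBond) θ * Real.cos (xyPh m θ)) = xyCh (xyRes J A) m := by
      intro m
      unfold xyCh xyChar
      congr 1
      funext θ
      simp [xyMono]
    simp only [e1]
    by_cases hout : ∀ x, x ∉ A → k x = 0
    · apply xyCh_lieb (xyRes J A) hJA (xyBdry J A) u k
      intro x hx
      by_cases hxA : x ∈ A
      · exact hk x hxA hx
      · exact hout x hxA
    · push Not at hout
      obtain ⟨w, hwA, hkw⟩ := hout
      have hzero : ∀ s ∈ A, xyCh (xyRes J A) (xyDel s - k) = 0 := by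
        intro s hs
        apply xyCh_eq_zero_of_isolated (xyRes J A) hJA w (xyRes_isolated J A w hwA)
        have hsw : w ≠ s := fun h => hwA (h ▸ hs)
        have : xyDel s w = 0 := by simp [xyDel, hsw]
        simp only [Pi.sub_apply, this, zero_sub]
        exact neg_ne_zero.2 hkw
      rw [hzero u hu]
      apply le_of_eq
      symm
      apply Finset.sum_eq_zero
      intro z hz
      rw [hzero z (xyBdry_subset J A hz), mul_zero]
  | cons p l ih =>
    have hl' : ∀ q ∈ l, J q ≠ 0 ∧ ¬ (q.1 ∈ A ∧ q.2 ∈ A) := fun q hq => hl q (List.mem_cons_of_mem _ hq)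
    have hp := hl p List.mem_cons_self
    have hsplit : ∀ s : V, xyEx xyBond (xyRes J A)
        (fun θ => xyMono ((p :: l).map xyBond) θ * Real.cos (xyPh (xyDel s - k) θ))
        = (1 / 2) * (xyEx xyBond (xyRes J A) (fun θ => xyMono (l.map xyBond) θ * Real.cos (xyPh (xyDel s - (k - xyBond p)) θ))
          + xyEx xyBond (xyRes J A) (fun θ => xyMono (l.map xyBond) θ * Real.cos (xyPh (xyDel s - (k + xyBond p)) θ))) := by
      intro s
      rw [← xyEx_add _ _ ((xyNice_mono _).mul (xyNice_cos _)) ((xyNice_mono _).mul (xyNice_cos _)), ← xyEx_const_mul]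
      congr 1
      funext θ
      rw [List.map_cons, xyMono_cons]
      simp only [xyPh_sub, xyPh_add]
      have c1 : xyPh (xyDel s) θ - (xyPh k θ - xyPh (xyBond p) θ) = (xyPh (xyDel s) θ - xyPh k θ) + xyPh (xyBond p) θ := by
        ring
      have c2 : xyPh (xyDel s) θ - (xyPh k θ + xyPh (xyBond p) θ) = (xyPh (xyDel s) θ - xyPh k θ) - xyPh (xyBond p) θ := by
        ring
      obtain ⟨Q, hQ⟩ : ∃ Q, Q = xyPh (xyDel s) θ - xyPh k θ := ⟨_, rfl⟩
      rw [c1, c2, ← hQ, Real.cos_add, Real.cos_sub]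
      ring
    simp only [hsplit]
    have h1 := ih hl' (k - xyBond p) (fun x hx hxB => by
      simp only [Pi.sub_apply, hk x hx hxB, xyBond_off J A p hp x hx hxB, sub_zero])
    have h2 := ih hl' (k + xyBond p) (fun x hx hxB => by
      simp only [Pi.add_apply, hk x hx hxB, xyBond_off J A p hp x hx hxB, add_zero])
    have e : ∑ z ∈ xyBdry J A, xyTwo (xyRes J A) u z * ((1 / 2) *
        (xyEx xyBond (xyRes J A) (fun θ => xyMono (l.map xyBond) θ * Real.cos (xyPh (xyDel z - (k - xyBond p)) θ))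
          + xyEx xyBond (xyRes J A) (fun θ => xyMono (l.map xyBond) θ * Real.cos (xyPh (xyDel z - (k + xyBond p)) θ))))
        = (1 / 2) * ((∑ z ∈ xyBdry J A, xyTwo (xyRes J A) u z *
            xyEx xyBond (xyRes J A) (fun θ => xyMono (l.map xyBond) θ * Real.cos (xyPh (xyDel z - (k - xyBond p)) θ)))
          + ∑ z ∈ xyBdry J A, xyTwo (xyRes J A) u z *
            xyEx xyBond (xyRes J A) (fun θ => xyMono (l.map xyBond) θ * Real.cos (xyPh (xyDel z - (k + xyBond p)) θ))) := by
      rw [← Finset.sum_add_distrib, Finset.mul_sum]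
      apply Finset.sum_congr rfl
      intro z _
      ring
    rw [e]
    linarith

/-- linearity of the unnormalised integral for finite sums. -/
theorem xyInt_sum {E : Type*} [Fintype E] (d : E → V → ℤ) (K : E → ℝ) {ι : Type*} (B : Finset ι) (c : ι → ℝ)
    (f : ι → (V → ℝ) → ℝ) (hf : ∀ z ∈ B, XyNice (f z)) :
    xyInt d K (fun θ => ∑ z ∈ B, c z * f z θ) = ∑ z ∈ B, c z * xyInt d K (f z) := by
  unfold xyInt
  have e : ∀ θ, (∑ z ∈ B, c z * f z θ) * Real.exp (xyEn d K θ) = ∑ z ∈ B, c z * (f z θ * Real.exp (xyEn d K θ)) := by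
    intro θ
    rw [Finset.sum_mul]
    apply Finset.sum_congr rfl
    intro z _
    ring
  simp only [e]
  rw [integral_finsetSum _ fun z hz => (((hf z hz).mul (xyNice_exp d K)).integrable).const_mul _]
  apply Finset.sum_congr rfl
  intro z _
  rw [integral_const_mul]

theorem XyNice.sum {ι : Type*} (B : Finset ι) (c : ι → ℝ) (f : ι → (V → ℝ) → ℝ) (hf : ∀ z ∈ B, XyNice (f z)) :
    XyNice fun θ => ∑ z ∈ B, c z * f z θ := by
  classical
  induction B using Finset.induction_on with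
  | empty => simpa using (xyNice_one (V := V)).const_mul 0
  | insert a S ha ih =>
    have h1 := ((hf a (Finset.mem_insert_self a S)).const_mul (c a)).add
      (ih fun z hz => hf z (Finset.mem_insert_of_mem hz))
    have e : (fun θ => ∑ z ∈ insert a S, c z * f z θ) = fun θ => c a * f a θ + ∑ z ∈ S, c z * f z θ := by
      funext θ
      rw [Finset.sum_insert ha]
    rw [e]
    exact h1

/-- XY-P-3 (**Lieb-Rivasseau**, [E] (6.17), vEL Lemma 17).  `J = JA + K`, `K = J - xyRes J A ≥ 0`, `xyEn J = xyEn JA + xyEn K`.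
`xyInt J (∑_z t_z cos((δ_z-δ_v)θ) - cos((δ_u-δ_v)θ)) = ∫ exp(xyEn K) g`, `g = (…) exp(xyEn JA)`; `xy_exp_pos` with `a = K`: the monomial integrals are
`xyPart JA * (∑_z t_z ⟨P cos(δ_z-δ_v)⟩_{JA} - ⟨P cos(δ_u-δ_v)⟩_{JA}) ≥ 0` by `xyEx_lieb_mono` with `k = δ_v` (`v ∉ A`).  Divide by `xyPart J > 0`. -/
theorem xyTwo_lieb_rivasseau (hJ : ∀ p, 0 ≤ J p) (A : Finset V) (u v : V) (hu : u ∈ A) (hv : v ∉ A) :
    xyTwo J u v ≤ ∑ z ∈ xyBdry J A, xyTwo (xyRes J A) u z * xyTwo J z v := by
  have hZ := xyPart_pos xyBond J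
  have hZA := xyPart_pos xyBond (xyRes J A)
  obtain ⟨t, ht⟩ : ∃ t : V → ℝ, t = fun z => xyTwo (xyRes J A) u z := ⟨_, rfl⟩
  have htz : ∀ z, xyTwo (xyRes J A) u z = t z := fun z => by rw [ht]
  simp only [htz]
  have nS : XyNice fun θ : V → ℝ => ∑ z ∈ xyBdry J A, t z * Real.cos (xyPh (xyDel z - xyDel v) θ) :=
    XyNice.sum _ _ _ fun z _ => xyNice_cos _
  have nf : XyNice fun θ : V → ℝ => (∑ z ∈ xyBdry J A, t z * Real.cos (xyPh (xyDel z - xyDel v) θ))
      + (-1) * Real.cos (xyPh (xyDel u - xyDel v) θ) := nS.add ((xyNice_cos _).const_mul _)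
  have hK : ∀ p, 0 ≤ J p - xyRes J A p := by
    intro p
    unfold xyRes
    split_ifs
    · simp
    · simpa using hJ p
  have key : 0 ≤ xyInt xyBond J fun θ => (∑ z ∈ xyBdry J A, t z * Real.cos (xyPh (xyDel z - xyDel v) θ))
      + (-1) * Real.cos (xyPh (xyDel u - xyDel v) θ) := by
    have h1 := xy_exp_pos (xyAng V) (fun e θ => Real.cos (xyPh (xyBond e) θ))
      (fun e => (Real.continuous_cos.comp (xyPh_continuous _)).measurable) (fun e θ => Real.abs_cos_le_one _)
      (fun e => J e - xyRes J A e) hK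
      (fun θ => ((∑ z ∈ xyBdry J A, t z * Real.cos (xyPh (xyDel z - xyDel v) θ))
        + (-1) * Real.cos (xyPh (xyDel u - xyDel v) θ)) * Real.exp (xyEn xyBond (xyRes J A) θ))
      (nf.mul (xyNice_exp _ _)).integrable ?_
    · refine le_of_le_of_eq h1 ?_
      unfold xyInt
      congr 1
      funext θ
      have : xyEn xyBond J θ = (∑ e, (J e - xyRes J A e) * Real.cos (xyPh (xyBond e) θ)) + xyEn xyBond (xyRes J A) θ := by
        unfold xyEn
        rw [← Finset.sum_add_distrib]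
        apply Finset.sum_congr rfl
        intro e _
        ring
      rw [this, Real.exp_add]
      ring
    · intro l hl
      have nM : ∀ m : V → ℤ, XyNice fun θ => xyMono (l.map xyBond) θ * Real.cos (xyPh m θ) :=
        fun m => (xyNice_mono _).mul (xyNice_cos _)
      have e1 : ∫ θ, (l.map fun e => Real.cos (xyPh (xyBond e) θ)).prod *
          (((∑ z ∈ xyBdry J A, t z * Real.cos (xyPh (xyDel z - xyDel v) θ))
            + (-1) * Real.cos (xyPh (xyDel u - xyDel v) θ)) * Real.exp (xyEn xyBond (xyRes J A) θ)) ∂xyAng V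
          = xyInt xyBond (xyRes J A) (fun θ =>
            (∑ z ∈ xyBdry J A, t z * (xyMono (l.map xyBond) θ * Real.cos (xyPh (xyDel z - xyDel v) θ)))
            + (-1) * (xyMono (l.map xyBond) θ * Real.cos (xyPh (xyDel u - xyDel v) θ))) := by
        unfold xyInt
        congr 1
        funext θ
        have : (l.map fun e => Real.cos (xyPh (xyBond e) θ)).prod = xyMono (l.map xyBond) θ := by
          simp [xyMono, List.map_map, Function.comp_def]
        rw [this, ← mul_assoc, mul_add, Finset.mul_sum]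
        congr 2
        · apply Finset.sum_congr rfl
          intro z _
          ring
        · ring
      rw [e1, xyInt_add _ _ (XyNice.sum _ _ _ fun z _ => nM _) ((nM _).const_mul _), xyInt_const_mul,
        xyInt_sum _ _ _ _ _ fun z _ => nM _]
      have h2 := xyEx_lieb_mono J hJ A u hu l (fun p hp => by
        have h3 := hl p hp
        unfold xyRes at h3
        by_cases hA : p.1 ∈ A ∧ p.2 ∈ A
        · rw [if_pos hA, sub_self] at h3
          exact absurd h3 (lt_irrefl _)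
        · rw [if_neg hA, sub_zero] at h3
          exact ⟨h3.ne', hA⟩) (xyDel v) (fun x hx _ => by
        have : x ≠ v := fun h => hv (h ▸ hx)
        simp [xyDel, this])
      simp only [htz] at h2
      unfold xyEx at h2
      have e2 : ∑ z ∈ xyBdry J A, t z * (xyInt xyBond (xyRes J A)
          (fun θ => xyMono (l.map xyBond) θ * Real.cos (xyPh (xyDel z - xyDel v) θ)) / xyPart xyBond (xyRes J A))
          = (∑ z ∈ xyBdry J A, t z * xyInt xyBond (xyRes J A)
          (fun θ => xyMono (l.map xyBond) θ * Real.cos (xyPh (xyDel z - xyDel v) θ))) / xyPart xyBond (xyRes J A) := by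
        rw [Finset.sum_div]
        apply Finset.sum_congr rfl
        intro z _
        rw [mul_div_assoc]
      rw [e2, div_le_div_iff_of_pos_right hZA] at h2
      linarith
  rw [xyInt_add _ _ nS ((xyNice_cos _).const_mul _), xyInt_const_mul, xyInt_sum _ _ _ _ _ fun z _ => xyNice_cos _] at key
  unfold xyTwo xyCh xyChar xyEx
  have e3 : ∑ z ∈ xyBdry J A, t z * (xyInt xyBond J (fun θ => Real.cos (xyPh (xyDel z - xyDel v) θ)) / xyPart xyBond J)
      = (∑ z ∈ xyBdry J A, t z * xyInt xyBond J (fun θ => Real.cos (xyPh (xyDel z - xyDel v) θ))) / xyPart xyBond J := by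
    rw [Finset.sum_div]
    apply Finset.sum_congr rfl
    intro z _
    rw [mul_div_assoc]
  rw [e3, div_le_div_iff_of_pos_right hZ]
  linarith

end

end Claimed.Agent.R285
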