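import Claimed.Agent.R285.Xy.Pair

/-!
# ROW 285, XY BASICS 5: subgraphs of `ℤ²`, the free infinite volume limit, the frozen definitions (owner helper177)

Paper-free.  `latTwo b Λ x y` = free two point function of the induced subgraph `Λ`; `latCorr b x y = sup_Λ latTwo b Λ x y`.
-/

set_option autoImplicit false
set_option linter.unusedSectionVars false

namespace Claimed.Agent.R285

open MeasureTheory Filter Topology Claims.C0459

noncomputable section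

/-! ## 1. change of the vertex set -/

section Embed

variable {V : Type*} [Fintype V] [DecidableEq V] {W : Type*} [Fintype W] [DecidableEq W]

/-- push-forward of a charge vector. -/
def xyPush (ι : V ↪ W) (m : V → ℤ) : W → ℤ := fun w => ∑ v, if ι v = w then m v else 0

theorem xyPush_del (ι : V ↪ W) (v : V) : xyPush ι (xyDel v) = xyDel (ι v) := by
  funext w
  simp only [xyPush, xyDel, Pi.single_apply]
  by_cases h : w = ι v
  · subst h
    simp [ι.injective.eq_iff]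
  · rw [if_neg h]
    refine Finset.sum_eq_zero fun v' _ => ?_
    by_cases h2 : ι v' = w
    · rw [if_pos h2, if_neg]
      rintro rfl; exact h h2.symm
    · rw [if_neg h2]

theorem xyPush_sub (ι : V ↪ W) (m m' : V → ℤ) : xyPush ι (m - m') = xyPush ι m - xyPush ι m' := by
  funext w
  simp only [xyPush, Pi.sub_apply, ← Finset.sum_sub_distrib]
  refine Finset.sum_congr rfl fun v _ => ?_
  split_ifs <;> simp

open Classical in
/-- integration of a function of the coordinates in `range ι`. -/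
theorem xyAng_integral_embed (ι : V ↪ W) (F : (V → ℝ) → ℝ) :
    ∫ θ : W → ℝ, F (fun v => θ (ι v)) ∂xyAng W
      = (xyAng ↥(Set.range ι)ᶜ).real Set.univ * ∫ φ, F φ ∂xyAng V := by
  let e : V ⊕ ↥(Set.range ι)ᶜ ≃ W :=
    ((Equiv.ofInjective ι ι.injective).sumCongr (Equiv.refl _)).trans (Equiv.Set.sumCompl (Set.range ι))
  have he : ∀ v, e.symm (ι v) = Sum.inl v := by
    intro v
    rw [Equiv.symm_apply_eq]
    simp [e]
  have h1 := measurePreserving_arrowCongr'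
    (fun _ : V ⊕ ↥(Set.range ι)ᶜ => volume.restrict (Set.Ico (0 : ℝ) (2 * Real.pi)))
    (fun _ : W => volume.restrict (Set.Ico (0 : ℝ) (2 * Real.pi))) e (MeasurableEquiv.refl ℝ)
    (fun _ => MeasurePreserving.id _)
  have h2 := measurePreserving_sumPiEquivProdPi
    (X := fun _ : V ⊕ ↥(Set.range ι)ᶜ => ℝ)
    (fun _ => volume.restrict (Set.Ico (0 : ℝ) (2 * Real.pi)))
  unfold xyAng
  rw [← h1.integral_comp' (fun θ : W → ℝ => F (fun v => θ (ι v)))]
  have e1 : ∀ θ' : V ⊕ ↥(Set.range ι)ᶜ → ℝ,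
      F (fun v => (MeasurableEquiv.arrowCongr' e (MeasurableEquiv.refl ℝ)) θ' (ι v))
        = (fun z : (V → ℝ) × (↥(Set.range ι)ᶜ → ℝ) => F z.1)
          (MeasurableEquiv.sumPiEquivProdPi (fun _ : V ⊕ ↥(Set.range ι)ᶜ => ℝ) θ') := by
    intro θ'
    simp only
    congr 1
    funext v
    show θ' (e.symm (ι v)) = θ' (Sum.inl v)
    rw [he]
  simp_rw [e1]
  rw [h2.integral_comp' (fun z : (V → ℝ) × (↥(Set.range ι)ᶜ → ℝ) => F z.1), integral_fun_fst, smul_eq_mul]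

theorem xyPh_push (ι : V ↪ W) (m : V → ℤ) (θ : W → ℝ) : xyPh (xyPush ι m) θ = xyPh m fun v => θ (ι v) := by
  simp only [xyPh, xyPush]
  push_cast
  simp_rw [Finset.sum_mul]
  rw [Finset.sum_comm]
  refine Finset.sum_congr rfl fun v _ => ?_
  simp

theorem xyPush_bond (ι : V ↪ W) (p : V × V) : xyPush ι (xyBond p) = xyBond (ι p.1, ι p.2) := by
  unfold xyBond
  rw [xyPush_sub, xyPush_del, xyPush_del]

theorem xyEn_embed (ι : V ↪ W) (J : W × W → ℝ)
    (h0 : ∀ p : W × W, (p.1 ∉ Set.range ι ∨ p.2 ∉ Set.range ι) → J p = 0) (θ : W → ℝ) :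
    xyEn xyBond J θ = xyEn xyBond (fun p : V × V => J (ι p.1, ι p.2)) fun v => θ (ι v) := by
  unfold xyEn
  symm
  refine Fintype.sum_of_injective (fun p : V × V => (ι p.1, ι p.2)) ?_ _ _ ?_ ?_
  · intro p q h
    simp only [Prod.mk.injEq, EmbeddingLike.apply_eq_iff_eq] at h
    exact Prod.ext h.1 h.2
  · intro p hp
    rw [h0 p, zero_mul]
    by_contra hcon
    push Not at hcon
    obtain ⟨⟨a, ha⟩, c, hc⟩ := hcon
    exact hp ⟨(a, c), by simp [ha, hc]⟩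
  · intro p
    simp only
    rw [← xyPush_bond, xyPh_push]

/-- XY-V-1 (isolated vertices do not matter; relabelling).  Route A (measure theory): split `W → ℝ` into the coordinates in `range ι` and the others
(`MeasureTheory.measurePreserving_piEquivPiSubtypeProd`, `measurePreserving_piCongrLeft`); the integrands do not depend on the other coordinates, whose mass cancels in the quotient.
Route B (series): `xy_exp_hasSum` + `xy_int_mono_cos` give `xyInt J cos(m·) = (2π)^{|W|} ∑_k (1/k!) ∑_f ∏ J(f i) xyCntB (ofFn f) m`; only `f` with values in `range (ι × ι)` contribute, and `xyCnt_map` (the additive map `xyPush ι` is injective,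
`xyPush ι (xyBond p) = xyBond (ι p.1, ι p.2)`) identifies the terms. -/
theorem xyCh_embed' (ι : V ↪ W) (J : W × W → ℝ)
    (h0 : ∀ p : W × W, (p.1 ∉ Set.range ι ∨ p.2 ∉ Set.range ι) → J p = 0) (m : V → ℤ) :
    xyCh J (xyPush ι m) = xyCh (fun p : V × V => J (ι p.1, ι p.2)) m := by
  classical
  have hN : ∀ (M : W → ℤ) (m' : V → ℤ), (∀ θ : W → ℝ, xyPh M θ = xyPh m' fun v => θ (ι v)) →
      xyInt xyBond J (fun θ => Real.cos (xyPh M θ))
        = (xyAng ↥(Set.range ι)ᶜ).real Set.univ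
          * xyInt xyBond (fun p : V × V => J (ι p.1, ι p.2)) (fun φ => Real.cos (xyPh m' φ)) := by
    intro M m' hM
    unfold xyInt
    rw [← xyAng_integral_embed ι fun φ => Real.cos (xyPh m' φ)
      * Real.exp (xyEn xyBond (fun p : V × V => J (ι p.1, ι p.2)) φ)]
    refine integral_congr_ae (Eventually.of_forall fun θ => ?_)
    simp only
    rw [hM, xyEn_embed ι J h0]
  have hD : xyPart xyBond J = (xyAng ↥(Set.range ι)ᶜ).real Set.univ
      * xyPart xyBond (fun p : V × V => J (ι p.1, ι p.2)) := by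
    have := hN 0 0 (fun θ => by simp [xyPh])
    simpa [xyPart, xyPh] using this
  have hc : (xyAng ↥(Set.range ι)ᶜ).real Set.univ ≠ 0 := by
    intro h
    have h1 : 0 < xyPart xyBond J := xyPart_pos _ _
    rw [hD, h, zero_mul] at h1
    exact lt_irrefl _ h1
  unfold xyCh xyChar xyEx
  rw [hN _ m (xyPh_push ι m), hD, mul_div_mul_left _ _ hc]

theorem xyCh_embed (ι : V ↪ W) (J : W × W → ℝ) (_hJ : ∀ p, 0 ≤ J p)
    (h0 : ∀ p : W × W, (p.1 ∉ Set.range ι ∨ p.2 ∉ Set.range ι) → J p = 0) (m : V → ℤ) :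
    xyCh J (xyPush ι m) = xyCh (fun p : V × V => J (ι p.1, ι p.2)) m := xyCh_embed' ι J h0 m

theorem xyTwo_embed (ι : V ↪ W) (J : W × W → ℝ) (hJ : ∀ p, 0 ≤ J p)
    (h0 : ∀ p : W × W, (p.1 ∉ Set.range ι ∨ p.2 ∉ Set.range ι) → J p = 0) (u v : V) :
    xyTwo J (ι u) (ι v) = xyTwo (fun p : V × V => J (ι p.1, ι p.2)) u v := by
  unfold xyTwo
  rw [← xyCh_embed ι J hJ h0, xyPush_sub, xyPush_del, xyPush_del]

theorem xyTwo_embed' (ι : V ↪ W) (J : W × W → ℝ)
    (h0 : ∀ p : W × W, (p.1 ∉ Set.range ι ∨ p.2 ∉ Set.range ι) → J p = 0) (u v : V) :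
    xyTwo J (ι u) (ι v) = xyTwo (fun p : V × V => J (ι p.1, ι p.2)) u v := by
  unfold xyTwo
  rw [← xyCh_embed' ι J h0, xyPush_sub, xyPush_del, xyPush_del]

end Embed

/-! ## 2. finite subgraphs of `ℤ²` -/

theorem latJ_nonneg {b : ℝ} (hb : 0 ≤ b) (Λ : Finset (ℤ × ℤ)) (p : Λ × Λ) : 0 ≤ latJ b Λ p := by
  unfold latJ; split_ifs <;> linarith

theorem latTwo_nonneg {b : ℝ} (hb : 0 ≤ b) (Λ : Finset (ℤ × ℤ)) (x y : ℤ × ℤ) : 0 ≤ latTwo b Λ x y := by
  unfold latTwo; split_ifs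
  · exact xyTwo_nonneg _ (latJ_nonneg hb Λ) _ _
  · exact le_rfl

theorem latTwo_le_one (b : ℝ) (Λ : Finset (ℤ × ℤ)) (x y : ℤ × ℤ) : latTwo b Λ x y ≤ 1 := by
  unfold latTwo; split_ifs
  · exact xyTwo_le_one _ _ _
  · exact zero_le_one

theorem latTwo_symm (b : ℝ) (Λ : Finset (ℤ × ℤ)) (x y : ℤ × ℤ) : latTwo b Λ x y = latTwo b Λ y x := by
  unfold latTwo
  by_cases h : x ∈ Λ ∧ y ∈ Λ
  · rw [dif_pos h, dif_pos h.symm, xyTwo_symm]
  · rw [dif_neg h, dif_neg (fun h' => h h'.symm)]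

theorem latTwo_self (b : ℝ) (Λ : Finset (ℤ × ℤ)) (x : ℤ × ℤ) (hx : x ∈ Λ) : latTwo b Λ x x = 1 := by
  unfold latTwo; rw [dif_pos ⟨hx, hx⟩, xyTwo_self]

/-- the two point function of `Λ` inside `Λ'`: couplings restricted to `Λ`. -/
theorem latTwo_sub_aux (b : ℝ) {Λ Λ' : Finset (ℤ × ℤ)} (h : Λ ⊆ Λ') (u v : Λ) :
    xyTwo (fun p : Λ' × Λ' => if p.1.1 ∈ Λ ∧ p.2.1 ∈ Λ then latJ b Λ' p else 0) ⟨u.1, h u.2⟩ ⟨v.1, h v.2⟩
      = xyTwo (latJ b Λ) u v := by
  let ι : Λ ↪ Λ' := ⟨fun z => ⟨z.1, h z.2⟩, fun a c hac => by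
    simp only [Subtype.mk.injEq] at hac
    exact Subtype.ext hac⟩
  have h1 := xyTwo_embed' ι (fun p : Λ' × Λ' => if p.1.1 ∈ Λ ∧ p.2.1 ∈ Λ then latJ b Λ' p else 0) (fun p hp => by
    rw [if_neg]
    rintro ⟨h1, h2⟩
    rcases hp with hp | hp
    · exact hp ⟨⟨p.1.1, h1⟩, rfl⟩
    · exact hp ⟨⟨p.2.1, h2⟩, rfl⟩) u v
  have e : (fun p : Λ × Λ => (fun p : Λ' × Λ' => if p.1.1 ∈ Λ ∧ p.2.1 ∈ Λ then latJ b Λ' p else 0) (ι p.1, ι p.2))
      = latJ b Λ := by
    funext p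
    simp only [ι, Function.Embedding.coeFn_mk]
    rw [if_pos ⟨p.1.2, p.2.2⟩]
    rfl
  rw [e] at h1
  exact h1

/-- XY-V-2: monotone in the volume.  For `x, y ∈ Λ`: `ι : Λ ↪ Λ'` the inclusion, `J' = xyRes (latJ b Λ') (Λ as a finset of Λ')`; `xyTwo_embed` identifies `xyTwo J'` with `xyTwo (latJ b Λ)`; `xyTwo_mono`. -/
theorem latTwo_mono {b : ℝ} (hb : 0 ≤ b) {Λ Λ' : Finset (ℤ × ℤ)} (h : Λ ⊆ Λ') (x y : ℤ × ℤ) :
    latTwo b Λ x y ≤ latTwo b Λ' x y := by
  by_cases hxy : x ∈ Λ ∧ y ∈ Λ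
  · have hxy' : x ∈ Λ' ∧ y ∈ Λ' := ⟨h hxy.1, h hxy.2⟩
    unfold latTwo
    rw [dif_pos hxy, dif_pos hxy']
    rw [← latTwo_sub_aux b h ⟨x, hxy.1⟩ ⟨y, hxy.2⟩]
    refine xyTwo_mono _ (fun p => ?_) _ (fun p => ?_) _ _
    · split_ifs
      · exact latJ_nonneg hb Λ' p
      · exact le_rfl
    · split_ifs
      · exact le_rfl
      · exact latJ_nonneg hb Λ' p
  · unfold latTwo
    rw [dif_neg hxy]
    split_ifs
    · exact xyTwo_nonneg _ (latJ_nonneg hb Λ') _ _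
    · exact le_rfl

/-- monotone in the temperature (`xyTwo_mono`). -/
theorem latTwo_mono_b {b b' : ℝ} (hb : 0 ≤ b) (hbb : b ≤ b') (Λ : Finset (ℤ × ℤ)) (x y : ℤ × ℤ) :
    latTwo b Λ x y ≤ latTwo b' Λ x y := by
  unfold latTwo; split_ifs
  · refine xyTwo_mono _ (latJ_nonneg hb Λ) _ (fun p => ?_) _ _
    unfold latJ; split_ifs <;> linarith
  · exact le_rfl

/-- XY-V-3: invariance under the symmetries of the lattice (`xyTwo_embed` with the bijection `Λ ≃ Λ.map g`). -/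
theorem latTwo_map {b : ℝ} (hb : 0 ≤ b) (g : ℤ × ℤ ↪ ℤ × ℤ) (hg : ∀ x y, latAdj (g x) (g y) ↔ latAdj x y) (Λ : Finset (ℤ × ℤ))
    (x y : ℤ × ℤ) : latTwo b (Λ.map g) (g x) (g y) = latTwo b Λ x y := by
  by_cases hxy : x ∈ Λ ∧ y ∈ Λ
  · have hxy' : g x ∈ Λ.map g ∧ g y ∈ Λ.map g :=
      ⟨Finset.mem_map_of_mem g hxy.1, Finset.mem_map_of_mem g hxy.2⟩
    unfold latTwo
    rw [dif_pos hxy, dif_pos hxy']
    let ι : Λ ↪ (Λ.map g : Finset (ℤ × ℤ)) := ⟨fun z => ⟨g z.1, Finset.mem_map_of_mem g z.2⟩, fun a c hac => by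
      simp only [Subtype.mk.injEq, EmbeddingLike.apply_eq_iff_eq] at hac
      exact Subtype.ext hac⟩
    have hsurj : ∀ w : (Λ.map g : Finset (ℤ × ℤ)), w ∈ Set.range ι := by
      rintro ⟨w, hw⟩
      obtain ⟨z, hz, rfl⟩ := Finset.mem_map.1 hw
      exact ⟨⟨z, hz⟩, rfl⟩
    have h1 := xyTwo_embed' ι (latJ b (Λ.map g)) (fun p hp => by
      rcases hp with hp | hp
      · exact absurd (hsurj _) hp
      · exact absurd (hsurj _) hp) ⟨x, hxy.1⟩ ⟨y, hxy.2⟩
    have e : (fun p : Λ × Λ => latJ b (Λ.map g) (ι p.1, ι p.2)) = latJ b Λ := by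
      funext p
      show (if latAdj (g p.1.1) (g p.2.1) then b / 2 else 0) = if latAdj p.1.1 p.2.1 then b / 2 else 0
      simp only [hg]
    rw [e] at h1
    exact h1
  · have hxy' : ¬ (g x ∈ Λ.map g ∧ g y ∈ Λ.map g) := by
      rw [Finset.mem_map', Finset.mem_map']; exact hxy
    unfold latTwo
    rw [dif_neg hxy, dif_neg hxy']

theorem latTwo_supermul {b : ℝ} (hb : 0 ≤ b) (Λ : Finset (ℤ × ℤ)) (x y z : ℤ × ℤ) :
    latTwo b Λ x y * latTwo b Λ y z ≤ latTwo b Λ x z := by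
  by_cases hx : x ∈ Λ
  · by_cases hy : y ∈ Λ
    · by_cases hz : z ∈ Λ
      · unfold latTwo
        rw [dif_pos ⟨hx, hy⟩, dif_pos ⟨hy, hz⟩, dif_pos ⟨hx, hz⟩]
        exact xyTwo_supermul _ (latJ_nonneg hb Λ) _ _ _
      · have : latTwo b Λ y z = 0 := by unfold latTwo; rw [dif_neg (fun h => hz h.2)]
        rw [this, mul_zero]; exact latTwo_nonneg hb _ _ _
    · have : latTwo b Λ y z = 0 := by unfold latTwo; rw [dif_neg (fun h => hy h.1)]
      rw [this, mul_zero]; exact latTwo_nonneg hb _ _ _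
  · have : latTwo b Λ x y = 0 := by unfold latTwo; rw [dif_neg (fun h => hx h.1)]
    rw [this, zero_mul]; exact latTwo_nonneg hb _ _ _

/-- XY-V-4: continuity in `b` (`xyChar_continuous` composed with the continuous map `b ↦ latJ b Λ`). -/
theorem latTwo_continuous (Λ : Finset (ℤ × ℤ)) (x y : ℤ × ℤ) : Continuous fun b : ℝ => latTwo b Λ x y := by
  by_cases hxy : x ∈ Λ ∧ y ∈ Λ
  · simp only [latTwo, dif_pos hxy]
    unfold xyTwo xyCh
    refine (xyChar_continuous xyBond _).comp (continuous_pi fun p => ?_)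
    unfold latJ
    split_ifs
    · exact continuous_id.div_const 2
    · exact continuous_const
  · simp only [latTwo, dif_neg hxy]
    exact continuous_const

/-- XY-V-4': no interaction, no correlation (`xyCh_eq_zero_of_isolated`). -/
theorem latTwo_zero (Λ : Finset (ℤ × ℤ)) (x y : ℤ × ℤ) (h : x ≠ y) : latTwo 0 Λ x y = 0 := by
  unfold latTwo
  split_ifs with hxy
  · unfold xyTwo
    refine xyCh_eq_zero_of_isolated _ (latJ_nonneg le_rfl Λ) ⟨x, hxy.1⟩ (fun p _ => by simp [latJ]) _ ?_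
    have hne : (⟨x, hxy.1⟩ : Λ) ≠ ⟨y, hxy.2⟩ := fun h' => h (Subtype.mk.inj h')
    simp [xyDel, Pi.single_apply, hne]
  · rfl

/-- XY-V-4'': neighbours are positively correlated (`xyChar_pos_of_cnt` with the one-bond list, `xyCnt_single_pos`). -/
theorem latTwo_adj_pos {b : ℝ} (hb : 0 < b) (Λ : Finset (ℤ × ℤ)) (x y : ℤ × ℤ) (hx : x ∈ Λ) (hy : y ∈ Λ) (h : latAdj x y) :
    0 < latTwo b Λ x y := by
  unfold latTwo
  rw [dif_pos ⟨hx, hy⟩]
  unfold xyTwo xyCh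
  refine xyChar_pos_of_cnt _ _ (latJ_nonneg hb.le Λ) _ [(⟨x, hx⟩, ⟨y, hy⟩)] (fun e he => ?_) ?_
  · rw [List.mem_singleton] at he
    subst he
    simp only [latJ]
    rw [if_pos h]
    linarith
  · exact xyCnt_single_pos _

/-- XY-V-5: Lieb-Rivasseau on subgraphs of `ℤ²`.  `xyTwo_lieb_rivasseau` on `V = Λ` with `A = H`; `xyBdry (latJ b Λ) A ⊆ latBdry H` and all terms are `≥ 0`;
`xyTwo (xyRes (latJ b Λ) A) u z = latTwo b H u z` by `xyTwo_embed`. -/
theorem latTwo_lr {b : ℝ} (hb : 0 ≤ b) {H Λ : Finset (ℤ × ℤ)} (hH : H ⊆ Λ) (u v : ℤ × ℤ) (hu : u ∈ H) (hv : v ∈ Λ) (hv' : v ∉ H) :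
    latTwo b Λ u v ≤ ∑ z ∈ latBdry H, latTwo b H u z * latTwo b Λ z v := by
  classical
  let A : Finset Λ := Finset.univ.filter fun z => z.1 ∈ H
  have hA : ∀ z : Λ, z ∈ A ↔ z.1 ∈ H := fun z => by simp [A]
  have h1 := xyTwo_lieb_rivasseau (J := latJ b Λ) (latJ_nonneg hb Λ) A ⟨u, hH hu⟩ ⟨v, hv⟩ ((hA _).2 hu)
    (fun h => hv' ((hA _).1 h))
  have e0 : latTwo b Λ u v = xyTwo (latJ b Λ) ⟨u, hH hu⟩ ⟨v, hv⟩ := by
    unfold latTwo; rw [dif_pos ⟨hH hu, hv⟩]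
  rw [e0]
  refine h1.trans ?_
  have e2 : xyRes (latJ b Λ) A = fun p : Λ × Λ => if p.1.1 ∈ H ∧ p.2.1 ∈ H then latJ b Λ p else 0 := by
    funext p; simp only [xyRes, hA]
  have e1 : ∀ z ∈ xyBdry (latJ b Λ) A,
      xyTwo (xyRes (latJ b Λ) A) ⟨u, hH hu⟩ z * xyTwo (latJ b Λ) z ⟨v, hv⟩
        = (fun z : ℤ × ℤ => latTwo b H u z * latTwo b Λ z v) (Function.Embedding.subtype _ z) := by
    intro z hz
    have hzH : z.1 ∈ H := (hA z).1 (Finset.mem_filter.1 hz).1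
    have h3 := latTwo_sub_aux b hH ⟨u, hu⟩ ⟨z.1, hzH⟩
    simp only [Function.Embedding.coe_subtype]
    rw [e2]
    unfold latTwo
    rw [dif_pos ⟨hu, hzH⟩, dif_pos ⟨z.2, hv⟩, ← h3]
  rw [Finset.sum_congr rfl e1, ← Finset.sum_map (xyBdry (latJ b Λ) A) (Function.Embedding.subtype _)
    (fun z : ℤ × ℤ => latTwo b H u z * latTwo b Λ z v)]
  refine Finset.sum_le_sum_of_subset_of_nonneg ?_
    (fun z _ _ => mul_nonneg (latTwo_nonneg hb _ _ _) (latTwo_nonneg hb _ _ _))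
  intro z hz
  obtain ⟨z', hz', rfl⟩ := Finset.mem_map.1 hz
  obtain ⟨hzA, w, hw, hJ⟩ := Finset.mem_filter.1 hz'
  have hwH : w.1 ∉ H := fun h => hw ((hA w).2 h)
  have hadj : latAdj z'.1 w.1 := by
    rcases hJ with hJ | hJ
    · by_contra hcon
      exact hJ (by simp only [latJ]; rw [if_neg hcon])
    · by_contra hcon
      refine hJ ?_
      simp only [latJ]
      rw [if_neg]
      intro h'
      apply hcon
      unfold latAdj at h' ⊢
      omega
  simp only [Function.Embedding.coe_subtype]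
  refine Finset.mem_filter.2 ⟨(hA z').1 hzA, ?_⟩
  have hc : w.1 = (z'.1.1 + 1, z'.1.2) ∨ w.1 = (z'.1.1 - 1, z'.1.2) ∨ w.1 = (z'.1.1, z'.1.2 + 1)
      ∨ w.1 = (z'.1.1, z'.1.2 - 1) := by
    unfold latAdj at hadj
    simp only [Prod.ext_iff]
    omega
  rcases hc with hc | hc | hc | hc
  · exact Or.inl (hc ▸ hwH)
  · exact Or.inr (Or.inl (hc ▸ hwH))
  · exact Or.inr (Or.inr (Or.inl (hc ▸ hwH)))
  · exact Or.inr (Or.inr (Or.inr (hc ▸ hwH)))

/-! ## 3. the infinite volume limit -/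

theorem latCorr_bdd (b : ℝ) (x y : ℤ × ℤ) : BddAbove (Set.range fun Λ : Finset (ℤ × ℤ) => latTwo b Λ x y) :=
  ⟨1, by rintro _ ⟨Λ, rfl⟩; exact latTwo_le_one b Λ x y⟩

theorem latTwo_le_latCorr (b : ℝ) (Λ : Finset (ℤ × ℤ)) (x y : ℤ × ℤ) : latTwo b Λ x y ≤ latCorr b x y :=
  le_ciSup (latCorr_bdd b x y) Λ

theorem latCorr_le_one (b : ℝ) (x y : ℤ × ℤ) : latCorr b x y ≤ 1 := ciSup_le fun Λ => latTwo_le_one b Λ x y

theorem latCorr_nonneg {b : ℝ} (hb : 0 ≤ b) (x y : ℤ × ℤ) : 0 ≤ latCorr b x y :=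
  (latTwo_nonneg hb ∅ x y).trans (latTwo_le_latCorr b ∅ x y)

theorem latCorr_self (b : ℝ) (x : ℤ × ℤ) : latCorr b x x = 1 :=
  le_antisymm (latCorr_le_one b x x) ((latTwo_self b {x} x (by simp)).symm.le.trans (latTwo_le_latCorr b {x} x x))

theorem latCorr_symm (b : ℝ) (x y : ℤ × ℤ) : latCorr b x y = latCorr b y x := by
  unfold latCorr; congr 1; funext Λ; exact latTwo_symm b Λ x y

/-- convergence along every exhaustion. -/
theorem latCorr_tendsto {b : ℝ} (hb : 0 ≤ b) (Λs : ℕ → Finset (ℤ × ℤ)) (hm : Monotone Λs) (hex : ∀ z, ∃ n, z ∈ Λs n) (x y : ℤ × ℤ) :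
    Tendsto (fun n => latTwo b (Λs n) x y) atTop (𝓝 (latCorr b x y)) := by
  have hmono : Monotone fun n => latTwo b (Λs n) x y := fun n n' h => latTwo_mono hb (hm h) x y
  have hb1 : BddAbove (Set.range fun n => latTwo b (Λs n) x y) := ⟨1, by rintro _ ⟨n, rfl⟩; exact latTwo_le_one b _ x y⟩
  have h1 := tendsto_atTop_ciSup hmono hb1
  have : (⨆ n, latTwo b (Λs n) x y) = latCorr b x y := by
    apply le_antisymm
    · exact ciSup_le fun n => latTwo_le_latCorr b _ x y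
    · refine ciSup_le fun Λ => ?_
      obtain ⟨n, hn⟩ : ∃ n, Λ ⊆ Λs n := by
        induction Λ using Finset.induction_on with
        | empty => exact ⟨0, by simp⟩
        | insert a s _ ih =>
          obtain ⟨n, hn⟩ := ih
          obtain ⟨n', hn'⟩ := hex a
          refine ⟨max n n', Finset.insert_subset (hm (le_max_right _ _) hn') (hn.trans (hm (le_max_left _ _)))⟩
      exact (latTwo_mono hb hn x y).trans (le_ciSup hb1 n)
  rwa [this] at h1

/-- invariance under the symmetries of the lattice (bijective ones). -/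
theorem latCorr_map {b : ℝ} (hb : 0 ≤ b) (g : ℤ × ℤ ≃ ℤ × ℤ) (hg : ∀ x y, latAdj (g x) (g y) ↔ latAdj x y) (x y : ℤ × ℤ) :
    latCorr b (g x) (g y) = latCorr b x y := by
  apply le_antisymm
  · refine ciSup_le fun Λ => ?_
    have h := latTwo_map hb g.symm.toEmbedding (fun x y => by
      have := hg (g.symm x) (g.symm y)
      simpa using this.symm) Λ (g x) (g y)
    simp only [Equiv.coe_toEmbedding, Equiv.symm_apply_apply] at h
    rw [← h]
    exact latTwo_le_latCorr b _ x y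
  · refine ciSup_le fun Λ => ?_
    rw [← latTwo_map hb g.toEmbedding hg Λ x y]
    exact latTwo_le_latCorr b _ _ _

theorem xyBox_mono : Monotone xyBox := by
  intro R R' h
  unfold xyBox
  have h' : (R : ℤ) ≤ R' := by exact_mod_cast h
  exact Finset.product_subset_product (Finset.Icc_subset_Icc (by omega) h') (Finset.Icc_subset_Icc (by omega) h')

theorem xyBox_exhaust (z : ℤ × ℤ) : ∃ n, z ∈ xyBox n := by
  refine ⟨z.1.natAbs + z.2.natAbs, ?_⟩
  unfold xyBox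
  simp only [Finset.mem_product, Finset.mem_Icc]
  refine ⟨⟨?_, ?_⟩, ?_, ?_⟩ <;> omega

theorem latCorr_supermul {b : ℝ} (hb : 0 ≤ b) (x y z : ℤ × ℤ) : latCorr b x y * latCorr b y z ≤ latCorr b x z :=
  le_of_tendsto_of_tendsto' ((latCorr_tendsto hb xyBox xyBox_mono xyBox_exhaust x y).mul
    (latCorr_tendsto hb xyBox xyBox_mono xyBox_exhaust y z)) (latCorr_tendsto hb xyBox xyBox_mono xyBox_exhaust x z)
    fun n => latTwo_supermul hb _ x y z

theorem latCorr_mono_b {b b' : ℝ} (hb : 0 ≤ b) (hbb : b ≤ b') (x y : ℤ × ℤ) : latCorr b x y ≤ latCorr b' x y :=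
  ciSup_le fun Λ => (latTwo_mono_b hb hbb Λ x y).trans (latTwo_le_latCorr b' Λ x y)

/-- Lieb-Rivasseau in infinite volume ([E] proof of Lemma 6.6). -/
theorem latCorr_lr {b : ℝ} (hb : 0 ≤ b) (H : Finset (ℤ × ℤ)) (u v : ℤ × ℤ) (hu : u ∈ H) (hv : v ∉ H) :
    latCorr b u v ≤ ∑ z ∈ latBdry H, latTwo b H u z * latCorr b z v := by
  refine ciSup_le fun Λ => ?_
  have h1 : latTwo b Λ u v ≤ latTwo b (Λ ∪ H ∪ {v}) u v := latTwo_mono hb (by intro a ha; simp [ha]) u v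
  refine h1.trans ((latTwo_lr hb (H := H) (Λ := Λ ∪ H ∪ {v}) (by intro a ha; simp [ha]) u v hu (by simp) hv).trans ?_)
  exact Finset.sum_le_sum fun z _ => mul_le_mul_of_nonneg_left (latTwo_le_latCorr b _ z v) (latTwo_nonneg hb _ _ _)

/-! ## 4. the frozen definitions -/

theorem xyPh_del {V : Type*} [Fintype V] [DecidableEq V] (x : V) (θ : V → ℝ) : xyPh (xyDel x) θ = θ x := by
  simp [xyPh, xyDel, Pi.single_apply]

theorem xyExt_mem {R : ℕ} (θ : xyBox R → ℝ) {z : ℤ × ℤ} (hz : z ∈ xyBox R) : xyExt θ z = θ ⟨z, hz⟩ := by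
  unfold xyExt; rw [dif_pos hz]

/-- the four oriented directions. -/
theorem latAdj_split (x y : ℤ × ℤ) (G : ℝ) :
    (if latAdj x y then G else 0) = (if y = (x.1 + 1, x.2) then G else 0) + (if x = (y.1 + 1, y.2) then G else 0)
      + (if y = (x.1, x.2 + 1) then G else 0) + (if x = (y.1, y.2 + 1) then G else 0) := by
  obtain ⟨x1, x2⟩ := x
  obtain ⟨y1, y2⟩ := y
  by_cases h : latAdj (x1, x2) (y1, y2)
  · rw [if_pos h]
    simp only [latAdj] at h
    simp only [Prod.mk.injEq]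
    split_ifs <;> first | (exfalso; omega) | simp
  · rw [if_neg h]
    simp only [latAdj] at h
    simp only [Prod.mk.injEq]
    split_ifs <;> first | (exfalso; omega) | simp

/-- double counting of the nearest neighbour bonds of a finite set. -/
theorem latAdj_sum (Λ : Finset (ℤ × ℤ)) (g : ℤ × ℤ → ℤ × ℤ → ℝ) (hg : ∀ x y, g x y = g y x) :
    ∑ x ∈ Λ, ∑ y ∈ Λ, (if latAdj x y then g x y else 0)
      = 2 * ∑ x ∈ Λ, ((if (x.1 + 1, x.2) ∈ Λ then g x (x.1 + 1, x.2) else 0)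
        + (if (x.1, x.2 + 1) ∈ Λ then g x (x.1, x.2 + 1) else 0)) := by
  simp_rw [latAdj_split, Finset.sum_add_distrib]
  have a1 : ∀ e : ℤ × ℤ → ℤ × ℤ, ∑ x ∈ Λ, ∑ y ∈ Λ, (if y = e x then g x y else 0)
      = ∑ x ∈ Λ, if e x ∈ Λ then g x (e x) else 0 := by
    intro e
    refine Finset.sum_congr rfl fun x _ => ?_
    rw [Finset.sum_ite_eq']
  have a2 : ∀ e : ℤ × ℤ → ℤ × ℤ, ∑ x ∈ Λ, ∑ y ∈ Λ, (if x = e y then g x y else 0)
      = ∑ x ∈ Λ, if e x ∈ Λ then g x (e x) else 0 := by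
    intro e
    rw [Finset.sum_comm]
    refine Finset.sum_congr rfl fun x _ => ?_
    rw [Finset.sum_ite_eq']
    simp only [hg (e x) x]
  rw [a1 fun x => (x.1 + 1, x.2), a2 fun x => (x.1 + 1, x.2), a1 fun x => (x.1, x.2 + 1), a2 fun x => (x.1, x.2 + 1)]
  ring

theorem xyEnergy_eq (b : ℝ) (R : ℕ) (θ : xyBox R → ℝ) : b * xyEnergy θ = xyEn xyBond (latJ b (xyBox R)) θ := by
  have h1 : xyEn xyBond (latJ b (xyBox R)) θ
      = ∑ x ∈ xyBox R, ∑ y ∈ xyBox R, (if latAdj x y then b / 2 * Real.cos (xyExt θ x - xyExt θ y) else 0) := by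
    unfold xyEn
    rw [Fintype.sum_prod_type, ← Finset.sum_coe_sort (xyBox R)]
    refine Finset.sum_congr rfl fun x _ => ?_
    rw [← Finset.sum_coe_sort (xyBox R)]
    refine Finset.sum_congr rfl fun y _ => ?_
    unfold xyBond
    rw [xyPh_sub, xyPh_del, xyPh_del, xyExt_mem θ x.2, xyExt_mem θ y.2]
    simp only [latJ]
    by_cases hxy : latAdj x.1 y.1
    · rw [if_pos hxy, if_pos hxy]
    · rw [if_neg hxy, if_neg hxy, zero_mul]
  rw [h1, latAdj_sum (xyBox R) (fun x y => b / 2 * Real.cos (xyExt θ x - xyExt θ y))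
    (fun x y => by rw [← Real.cos_neg, neg_sub])]
  unfold xyEnergy
  rw [Finset.mul_sum, Finset.mul_sum]
  refine Finset.sum_congr rfl fun x _ => ?_
  split_ifs <;> ring

/-- XY-V-6: the frozen box correlation.  `xyAngles R = xyAng ↥(xyBox R)` by definition; `b * xyEnergy θ = xyEn xyBond (latJ b (xyBox R)) θ` (every bond is counted once in `xyEnergy`, twice with `b/2` in `xyEn`);
`xyExt θ z = θ ⟨z, _⟩`; `xyPh (δ_u - δ_v) θ = θ u - θ v`. -/
theorem xyBoxCorr_eq (b : ℝ) (R r : ℕ) (h : r ≤ R) : xyBoxCorr b R r = latTwo b (xyBox R) (0, 0) ((r : ℤ), 0) := by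
  have h0 : ((0 : ℤ), (0 : ℤ)) ∈ xyBox R := by
    unfold xyBox
    simp only [Finset.mem_product, Finset.mem_Icc]
    omega
  have hr : ((r : ℤ), (0 : ℤ)) ∈ xyBox R := by
    unfold xyBox
    simp only [Finset.mem_product, Finset.mem_Icc]
    omega
  unfold latTwo
  rw [dif_pos ⟨h0, hr⟩]
  unfold xyTwo xyCh xyChar xyEx xyPart xyInt xyBoxCorr
  have hE : ∀ θ : xyBox R → ℝ, xyEn xyBond (latJ b (xyBox R)) θ = b * xyEnergy θ := fun θ => (xyEnergy_eq b R θ).symm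
  have hP : ∀ θ : xyBox R → ℝ, xyPh (xyDel (⟨(0, 0), h0⟩ : xyBox R) - xyDel ⟨((r : ℤ), 0), hr⟩) θ
      = xyExt θ (0, 0) - xyExt θ ((r : ℤ), 0) := by
    intro θ
    rw [xyPh_sub, xyPh_del, xyPh_del, xyExt_mem θ h0, xyExt_mem θ hr]
  simp only [hE, hP, one_mul]
  rfl

theorem xyb_corr_tendsto' {b : ℝ} (hb : 0 ≤ b) (r : ℕ) :
    Tendsto (fun R => xyBoxCorr b R r) atTop (𝓝 (latCorr b (0, 0) ((r : ℤ), 0))) := by
  refine (latCorr_tendsto hb xyBox xyBox_mono xyBox_exhaust (0, 0) ((r : ℤ), 0)).congr' ?_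
  filter_upwards [eventually_ge_atTop r] with R hR
  exact (xyBoxCorr_eq b R r hR).symm

theorem xyCorr_eq {b : ℝ} (hb : 0 ≤ b) (r : ℕ) : xyCorr b r = latCorr b (0, 0) ((r : ℤ), 0) :=
  (xyb_corr_tendsto' hb r).limUnder_eq

/-- = `xy_corr_tendsto` of `Top.lean`. -/
theorem xyb_corr_tendsto (b : ℝ) (hb : 0 ≤ b) (r : ℕ) :
    Tendsto (fun R => xyBoxCorr b R r) atTop (𝓝 (xyCorr b r)) := by
  rw [xyCorr_eq hb]; exact xyb_corr_tendsto' hb r

end

end Claimed.Agent.R285
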